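import Vale.Agent.P004Z.Ar.St
import Vale.Agent.P004Z.EF.Core
import Vale.Agent.P004N.H461.Cf
import Vale.Agent.P027H.Unif

/-! # P004Z, row UNF: the parametrisation exists -/

set_option autoImplicit false
set_option linter.all false

open UpperHalfPlane CongruenceSubgroup Filter Topology
open scoped MatrixGroups

noncomputable section

namespace Vale.Agent.P004Z.Ar

open P004N P004N.H461 Vale.Agent.P027M.ES

/-- newforms in the two sets of words -/
theorem nf_of_rn {N : ℕ} {G : ℍ → ℂ} {a : ℕ → ℤ} (h : RN N G a) :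
    ∃ ε, NF N G (fun n => (a n : ℝ)) ε := by
  obtain ⟨ε, e, al⟩ := pfAL N G a h N 1 (mul_one N) (Nat.coprime_one_right N)
  have C := pfCf N G a h
  refine ⟨ε, h.pos, h.s2, by simpa using h.qe, by simp [h.zero], by simp [h.one],
    fun p hp k n => ?_, fun p hp k n => ?_, fun p hp k l => by exact_mod_cast C.bad1 p hp k l,
    fun p hp k => by exact_mod_cast C.bad2 p hp k, e, al⟩
  · have := h.te p hp k n
    beta_reduce at this
    split_ifs at this ⊢ <;> exact_mod_cast this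
  · rcases eq_or_ne n 0 with rfl | n0
    · simp [h.zero]
    obtain ⟨e, m, c, rfl⟩ := Nat.exists_eq_pow_mul_and_not_dvd n0 p hp.ne_one
    have c' := hp.coprime_iff_not_dvd.2 c
    rw [← mul_assoc, ← pow_succ', C.mul _ _ (c'.pow_left _), C.mul _ _ (c'.pow_left _),
      C.bad p hp k]
    push_cast
    ring

theorem unf (hP : EF.PAR) : UNF := fun N G a h => by
  have : NeZero N := ⟨h.pos.ne'⟩
  obtain ⟨ε, nf⟩ := nf_of_rn h
  obtain ⟨A, B, w, Λ, I, x, y, par⟩ := hP N G a ε nf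
  have w0 : (w : ℂ)⁻¹ ≠ 0 := inv_ne_zero (Nat.cast_ne_zero.2 par.wpos.ne')
  have P0 := EF.prim_Pr h.qe (by simp [h.zero])
  have P := P0.smul (w : ℂ)⁻¹
  have eI : (w : ℂ)⁻¹ • Pr (fun n => (a n : ℂ)) = I :=
    funext fun τ => (div_eq_inv_mul _ _).symm.trans (par.I_eq τ).symm
  have per : ∀ γ ∈ Gamma0 N, ∃ z ∈ Λ, ∀ τ, I (γ • τ) - I τ = z := fun γ k =>
    have l : ∀ τ, I (γ • τ) - I τ = I (γ • UpperHalfPlane.I) - I UpperHalfPlane.I := fun τ => by
      simp only [← eI, Pi.smul_apply, ← smul_sub, P0.period (h.s2.slash γ k) τ UpperHalfPlane.I]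
    ⟨_, (par.per _).2 ⟨γ, k, l⟩, l⟩
  have lim : ∀ γ : SL(2, ℤ), ∃ c, Tendsto (fun z => I (γ • z)) atImInfty (𝓝 c) := fun γ => by
    obtain ⟨n, hn, hw⟩ := Inj.exists_width (Gamma0 N)
    obtain ⟨φ, an, e⟩ := EF.Co.cusp_fn h.s2 P0 hn (hw γ)
    simp only [← eI, Pi.smul_apply, e]
    exact ⟨_, (an.continuousAt.tendsto.comp
      (qParam_tendsto_atImInfty (Nat.cast_pos.2 hn))).const_smul _⟩
  obtain ⟨Λ', L, e2, e3, ex, sj, ker, xy⟩ := P027H.exists_unif (A : ℂ) (B : ℂ)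
    (by exact_mod_cast par.disc)
  obtain rfl := L.ext_g par.lat (e2.trans par.g2_eq.symm) (e3.trans par.g3_eq.symm)
  rw [eI] at P
  refine ⟨⟨A, B, w, Λ', I, x, y, ex, par, P.hol, fun γ k τ => ?_, fun c e => ?_, lim, ?_, sj, ker,
    fun u k => ?_⟩⟩
  · obtain ⟨z, k, e⟩ := per γ k
    rwa [e]
  · exact EF.nf_ne nf ((smul_eq_zero.1 (P.eq_zero (congrFun e))).resolve_left w0)
  · obtain ⟨ι, _, r, hr⟩ := EF.Qt.reps (Gamma0 N)
    choose c hc using lim
    refine ⟨(Set.finite_range fun i => c (r i)).toFinset, fun t k γ c' l m => ?_⟩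
    obtain ⟨i, δ, d, rfl⟩ := hr γ
    obtain ⟨z, d, e⟩ := per δ d
    have := tendsto_nhds_unique l (((hc (r i)).const_add z).congr fun τ => by
      rw [mul_smul, ← e (r i • τ), sub_add_cancel])
    refine k (c (r i)) (by simp) ?_
    convert sub_mem d m using 1
    rw [this]
    ring
  · obtain ⟨k1, k2⟩ := xy u
    have k3 := mt (ker u).1 k
    generalize ex u = Q at k1 k2 k3
    rcases Q with _ | ⟨x, y, n⟩
    · exact absurd rfl k3
    · obtain rfl : x = _ := k1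
      obtain rfl : y = _ := eq_div_of_mul_eq two_ne_zero ((mul_comm _ _).trans k2)
      exact ⟨n, rfl⟩

end Vale.Agent.P004Z.Ar
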