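import Vale.Agent.P004Z.Ar.St

/-! # P004Z, row PRT: Hecke operators on primitives -/

set_option autoImplicit false
set_option linter.all false

open UpperHalfPlane CongruenceSubgroup
open scoped MatrixGroups Classical Real

noncomputable section

namespace Vale.Agent.P004Z.Ar

open P004N P004N.H461 Vale.Agent.P027M.ES

variable {N l : ℕ} {g : ℍ → ℂ} {c : ℕ → ℂ}

theorem c_zero (hg : S2 N g) (h : QE g c) : c 0 = 0 := by
  obtain ⟨d, hd, h0⟩ := hg.qe
  rwa [QE.unique h hd]

theorem qe_Pr (h : QE g c) : QE (Pr c) fun n => c n / n := fun z => by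
  refine (Summable.of_norm_bounded (summable_norm_iff.2 (h z).summable) fun n => ?_).hasSum
  rw [norm_mul, norm_mul]
  refine mul_le_mul_of_nonneg_right ?_ (norm_nonneg _)
  rcases eq_or_ne n 0 with rfl | hn
  · simp
  · rw [norm_div, Complex.norm_natCast]
    exact div_le_self (norm_nonneg _) (by exact_mod_cast Nat.pos_of_ne_zero hn)

theorem tdiv_Pr (hl : l.Prime) (h : QE g c) : Tdiv l (Pr c) = Pr (Tc l c) := by
  have l0 : (l : ℂ) ≠ 0 := Nat.cast_ne_zero.2 hl.ne_zero
  have lr : (0 : ℝ) < l := Nat.cast_pos.2 hl.pos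
  funext z
  have k := (QE.add (QE.smul (qe_U (qe_Pr h) l hl.pos) l) (QE.smul (qe_V (qe_Pr h) l hl.pos) (l : ℂ)⁻¹)) z
  refine Eq.trans ?_ (k.tsum_eq.symm.trans (tsum_congr fun n => ?_))
  · have p := z.im_pos
    rw [Pi.add_apply, Pi.smul_apply, Pi.smul_apply, Finset.sum_apply, smul_eq_mul, smul_eq_mul,
      sl_V _ l hl.pos z (ofComplex (l * z)) (by
        rw [ofComplex_apply_of_im_pos (by simp; positivity)]), inv_mul_cancel_left₀ l0, add_comm,
      Finset.mul_sum]
    show (_ + _ : ℂ) = _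
    rw [Finset.sum_range]
    refine congrArg _ (Finset.sum_congr rfl fun j _ => ?_)
    rw [sl_U _ l hl.pos _ z (ofComplex ((z + (j : ℕ)) / l)) (by
      rw [ofComplex_apply_of_im_pos (by simp [Complex.div_natCast_im]; positivity)]; simp),
      mul_inv_cancel_left₀ l0]
  · congr 1
    dsimp only
    rw [Tc, add_div]
    split_ifs with q
    · obtain ⟨m, rfl⟩ := q
      rw [Nat.mul_div_cancel_left _ hl.pos]
      push_cast
      field_simp
    · push_cast
      field_simp
      simp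

theorem Pr_smul (k : ℂ) (c : ℕ → ℂ) : Pr (k • c) = k • Pr c := funext fun z => by
  rw [Pi.smul_apply, Pr, Pr, smul_eq_mul, ← tsum_mul_left]
  exact tsum_congr fun n => by rw [Pi.smul_apply, smul_eq_mul]; ring

theorem Pz.I_eq {a : ℕ → ℤ} (D : Pz N a) : D.I = (D.w : ℂ)⁻¹ • Pr fun n => (a n : ℂ) :=
  funext fun z => by rw [D.par.I_eq, div_eq_inv_mul]; rfl

/-- **Row `PRT`.** -/
theorem prt : PRT := by
  refine ⟨fun N l g c hl hg h _ => ⟨MDifferentiable.continuous (EF.prim_Pr h (c_zero hg h)).hol,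
    tdiv_Pr hl h, fun k => ⟨_, S2.tp hl k hg, qe_T h l hl.pos⟩⟩,
    fun N G a D h => ⟨fun l hl k => ?_, fun ε e => ?_⟩⟩
  · rw [D.I_eq, map_smul, tdiv_Pr hl h.qe, smul_comm, ← Pr_smul (a l)]
    exact congrArg (_ • Pr ·) (funext (h.te l hl k))
  · have n0 : (N : ℂ) ≠ 0 := Nat.cast_ne_zero.2 h.pos.ne'
    have d : 0 < (!![0, -1; (N : ℤ), 0] : M2).det := by simp [Matrix.det_fin_two_of, h.pos]
    have p := EF.prim_Pr h.qe (c_zero h.s2 h.qe)
    have k := p.comp (gl _ d) (by simpa using gl_det_pos _ d)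
    rw [← sl_pos, show sl G _ = (ε : ℂ) • G from funext fun z => by
      have := z.ne_zero
      rw [sl_apply G _ d z _ (coe_smul_gl _ d z), e 0 (-1) 1 0 (by simp) z _
        ((coe_smul_gl _ d z).trans (by simp))]
      simp [Matrix.det_fin_two_of]
      field_simp] at k
    obtain ⟨C, hC⟩ := k.exists_sub (p.smul ε)
    refine ⟨C / D.w, fun z z' hz => ?_⟩
    rw [D.par.I_eq, D.par.I_eq, ← hC z,
      show gl _ d • z = z' from UpperHalfPlane.ext ((coe_smul_gl _ d z).trans (by simp [hz]))]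
    simp only [Pi.smul_apply, smul_eq_mul]
    ring

end Vale.Agent.P004Z.Ar
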