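import Vale.Agent.P004Z.Ar.St

/-! # P004Z, row REL: functions with unitary multiplier -/

set_option autoImplicit false
set_option linter.all false

open UpperHalfPlane CongruenceSubgroup Filter Topology
open scoped MatrixGroups Classical Real ComplexConjugate

noncomputable section

namespace Vale.Agent.P004Z

namespace Ar.Rl

theorem ee_add (x y : ℂ) : ee (x + y) = ee x * ee y := by rw [ee, mul_add, Complex.exp_add]; rfl

theorem ee_neg (x : ℂ) : ee (-x) = (ee x)⁻¹ := by rw [ee, mul_neg, Complex.exp_neg]; rfl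

theorem norm_ee (x : ℝ) : ‖ee x‖ = 1 := by
  rw [ee, ← Complex.norm_exp_ofReal_mul_I (2 * π * x)]
  congr 2
  push_cast
  ring

theorem cont_smul (γ : SL(2, ℤ)) : Continuous fun z : ℍ => γ • z :=
  continuous_const_smul (γ : GL (Fin 2) ℝ)

theorem den_ne (γ : SL(2, ℤ)) (z : ℍ) : (γ 1 0 : ℂ) * z + γ 1 1 ≠ 0 := by
  rw [← ModularGroup.denom_apply]
  exact denom_ne_zero _ z

theorem smul_sub (γ : SL(2, ℤ)) (z w : ℍ) : ((γ • z : ℍ) : ℂ) - (γ • w : ℍ) =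
    (z - w) * (((γ 1 0 : ℂ) * z + γ 1 1) * ((γ 1 0 : ℂ) * w + γ 1 1))⁻¹ := by
  have h1 := den_ne γ z
  have h2 := den_ne γ w
  have d : (γ 0 0 : ℂ) * γ 1 1 - γ 0 1 * γ 1 0 = 1 := by
    have := γ.det_coe
    rw [Matrix.det_fin_two] at this
    exact_mod_cast this
  simp only [coe_specialLinearGroup_apply, eq_intCast, Complex.ofReal_intCast]
  rw [div_sub_div _ _ h1 h2, div_eq_mul_inv]
  congr 1
  linear_combination ((z : ℂ) - w) * d

theorem sub_ne {z w : ℍ} (h : z ≠ w) : (z : ℂ) - w ≠ 0 := sub_ne_zero.2 fun e => h (UpperHalfPlane.ext e)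

theorem ord_eq {w : ℍ} {k k' : ℤ} {f g : ℍ → ℂ} (hf : ContinuousAt f w) (hg : ContinuousAt g w)
    (f0 : f w ≠ 0) (g0 : g w ≠ 0)
    (h : ∀ᶠ z : ℍ in 𝓝[≠] w, ‖((z : ℂ) - w) ^ k * f z‖ = ‖((z : ℂ) - w) ^ k' * g z‖) : k = k' := by
  wlog l : k ≤ k' generalizing k k' f g
  · exact (this hg hf g0 f0 (h.mono fun z e => e.symm) (not_le.1 l).le).symm
  obtain ⟨j, rfl⟩ := Int.le.dest l
  have c : ContinuousAt (fun z : ℍ => ‖((z : ℂ) - w) ^ j * g z‖) w :=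
    (ContinuousAt.mul (by fun_prop) hg).norm
  have e := tendsto_nhds_unique_of_eventuallyEq (l := 𝓝[≠] w)
    (hf.norm.tendsto.mono_left nhdsWithin_le_nhds) (c.tendsto.mono_left nhdsWithin_le_nhds) (by
      filter_upwards [h, self_mem_nhdsWithin] with z h1 hz
      rw [zpow_add₀ (sub_ne hz), mul_assoc, norm_mul, norm_mul, zpow_natCast] at h1
      exact mul_left_cancel₀ (norm_ne_zero_iff.2 (zpow_ne_zero _ (sub_ne hz))) h1)
  rcases j with _ | j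
  · simp
  · simp [f0] at e

theorem ca {u : ℂ → ℂ} {w : ℍ} (h : AnalyticAt ℂ u w) : ContinuousAt (fun z : ℍ => u z) w :=
  h.continuousAt.comp continuous_coe.continuousAt

end Ar.Rl

open Ar.Rl

variable {M : ℕ} {n n' : ℍ → ℤ} {φ φ' : ℍ → ℝ} {Ψ Ψ' : ℍ → ℂ}

theorem Mero.zero_iff (h : Mero n Ψ) (z : ℍ) : n z = 0 ↔ Ψ z ≠ 0 := by
  obtain ⟨u, -, h0, e⟩ := h z
  rw [e.self_of_nhds, sub_self]
  by_cases k : n z = 0 <;> simp [k, h0, zero_zpow]

theorem Mero.ev (h : Mero n Ψ) (w : ℍ) : ∀ᶠ z in 𝓝 w, z ≠ w → n z = 0 := by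
  obtain ⟨u, a, h0, e⟩ := h w
  filter_upwards [e, (ca a).eventually_ne h0] with z h1 h2 hz
  rw [h.zero_iff, h1]
  exact mul_ne_zero (zpow_ne_zero _ (sub_ne hz)) h2

theorem Mero.cont (h : Mero n Ψ) {w : ℍ} (h0 : n w = 0) : ContinuousAt Ψ w := by
  obtain ⟨u, a, -, e⟩ := h w
  exact (ca a).congr (e.mono fun z e => by rw [e, h0, zpow_zero, one_mul])

theorem Mero.fin (h : Mero n Ψ) {K : Set ℍ} (hK : IsCompact K) : {z ∈ K | n z ≠ 0}.Finite := by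
  obtain ⟨t, -, ht⟩ := hK.elim_nhds_subcover (fun w => {z | z ≠ w → n z = 0}) fun w _ => h.ev w
  refine t.finite_toSet.subset fun z hz => ?_
  obtain ⟨w, hw, k⟩ := Set.mem_iUnion₂.1 (ht hz.1)
  rwa [not_not.1 (mt k hz.2)]

theorem Mero.eq (h : Mero n Ψ) {w : ℍ} (γ : SL(2, ℤ))
    (e : ∀ᶠ z in 𝓝[≠] w, ‖Ψ (γ • z)‖ = ‖Ψ z‖) : n (γ • w) = n w := by
  obtain ⟨u, a, h0, k⟩ := h w
  obtain ⟨u', a', h0', k'⟩ := h (γ • w)
  have c := (cont_smul γ).continuousAt (x := w)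
  have d := mul_ne_zero (den_ne γ w) (den_ne γ w)
  have c1 : ContinuousAt (fun z : ℍ => ((γ 1 0 : ℂ) * z + γ 1 1) * ((γ 1 0 : ℂ) * w + γ 1 1)) w := by
    fun_prop
  refine ord_eq (((c1.inv₀ d).zpow₀ (n (γ • w)) (Or.inl (inv_ne_zero d))).mul ((ca a').comp c))
    (ca a) (mul_ne_zero (zpow_ne_zero _ (inv_ne_zero d)) h0') h0 ?_
  filter_upwards [e, nhdsWithin_le_nhds k, nhdsWithin_le_nhds (c.eventually k')] with z h1 h2 h3
  rw [← h2, ← h1, h3, smul_sub, mul_zpow, mul_assoc]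
  rfl

theorem Mero.inv (h : Mero n Ψ) : Mero (-n) Ψ⁻¹ := fun w => by
  obtain ⟨u, a, h0, e⟩ := h w
  exact ⟨u⁻¹, a.inv h0, inv_ne_zero h0, e.mono fun z e => by
    rw [Pi.inv_apply, e, Pi.neg_apply, zpow_neg, mul_inv, Pi.inv_apply]⟩

theorem Mero.mul (h : Mero n Ψ) (h' : Mero n' Ψ') :
    ∃ Ψ'', Mero (n + n') Ψ'' ∧ ∀ z, n z = 0 → n' z = 0 → Ψ'' z = Ψ z * Ψ' z := by
  have k := h
  have k' := h'
  choose u a h0 e using k
  choose u' a' h0' e' using k'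
  have v : ∀ z : ℍ, n z = 0 → n' z = 0 →
      (0 : ℂ) ^ (n z + n' z) * (u z z * u' z z) = Ψ z * Ψ' z := fun z h1 h2 => by
    rw [(e z).self_of_nhds, (e' z).self_of_nhds, h1, h2]
    simp
  refine ⟨fun z => 0 ^ (n z + n' z) * (u z z * u' z z), fun w =>
    ⟨u w * u' w, (a w).mul (a' w), mul_ne_zero (h0 w) (h0' w), ?_⟩, v⟩
  filter_upwards [e w, e' w, h.ev w, h'.ev w] with z h1 h2 h3 h4
  by_cases c : z = w
  · rw [c, sub_self]
    rfl
  · rw [v z (h3 c) (h4 c), h1, h2, Pi.add_apply, zpow_add₀ (sub_ne c), Pi.mul_apply]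
    ring

theorem Cus.ne (h : Cus Ψ) (γ : SL(2, ℤ)) : ∃ y : ℝ, ∀ z : ℍ, y < z.im → Ψ (γ • z) ≠ 0 := by
  obtain ⟨C, y, h0, k⟩ := h γ
  exact ⟨y, fun z hz => norm_pos_iff.1 ((inv_pos.2 h0).trans_le (k z hz).1)⟩

namespace Ar

theorem Un.norm (h : Un M n φ Ψ) {γ : SL(2, ℤ)} (hγ : γ ∈ Gamma0 M) (z : ℍ) :
    ‖Ψ (γ • z)‖ = ‖Ψ z‖ := by rw [h.law γ hγ, norm_mul, norm_ee, one_mul]

theorem Un.inv (h : Un M n φ Ψ) : Inv M n := fun γ hγ w =>
  h.mero.eq γ (.of_forall (h.norm hγ))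

theorem Un.neg (h : Un M n φ Ψ) : Un M (-n) (-φ) Ψ⁻¹ := by
  refine ⟨h.mero.inv, fun γ => ?_, fun γ hγ z => ?_⟩
  · obtain ⟨C, y, h0, k⟩ := h.cus γ
    refine ⟨C, y, h0, fun z hz => ?_⟩
    have p := (inv_pos.2 h0).trans_le (k z hz).1
    rw [Pi.inv_apply, norm_inv]
    exact ⟨inv_anti₀ p (k z hz).2, inv_le_of_inv_le₀ h0 (k z hz).1⟩
  · rw [Pi.inv_apply, h.law γ hγ, mul_inv, ← ee_neg, ← Complex.ofReal_neg, neg_sub']
    rfl

theorem Un.dv (h : Un M n φ Ψ) (hM : 0 < M) : Dv M (cs n) := by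
  haveI : NeZero M := ⟨hM.ne'⟩
  refine ⟨fun γ hγ z => congrArg Int.cast (h.inv γ hγ z), ?_⟩
  choose y hy using h.cus.ne
  refine ⟨(Set.finite_iUnion fun q : SL(2, ℤ) ⧸ Gamma0 M => h.mero.fin
    ((ModularGroup.isCompact_truncatedFundamentalDomain (y q.out⁻¹)).image
      (cont_smul q.out⁻¹))).toFinset, fun z hz => ?_⟩
  obtain ⟨g, hg⟩ := ModularGroup.exists_smul_mem_fd z
  obtain ⟨γ, e⟩ := QuotientGroup.mk_out_eq_mul (Gamma0 M) g
  have e1 : (g : SL(2, ℤ) ⧸ Gamma0 M).out⁻¹ • g • z = (γ : SL(2, ℤ))⁻¹ • z := by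
    rw [e, mul_inv_rev, mul_smul, inv_smul_smul]
  have e2 : n ((γ : SL(2, ℤ))⁻¹ • z) ≠ 0 := by
    rw [h.inv _ (inv_mem γ.2)]
    exact Int.cast_ne_zero.1 hz
  exact ⟨_, inv_mem γ.2, (Set.Finite.mem_toFinset _).2 (Set.mem_iUnion.2 ⟨g, ⟨_, ⟨hg, not_lt.1
    fun k => e2 (e1 ▸ (h.mero.zero_iff _).2 (hy _ _ k))⟩, e1⟩, e2⟩)⟩

theorem Un.green (h : Un M n φ Ψ) :
    Green (Gamma0 M) (cs n) (fun z => (-Real.log (Complex.normSq (Ψ z)) : ℝ)) := by
  refine ⟨fun γ hγ z => congrArg Int.cast (h.inv γ hγ z), fun γ hγ z _ => ?_, fun w => ?_,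
    fun γ => ?_⟩
  · simp only [Complex.normSq_eq_norm_sq, h.norm hγ]
  · obtain ⟨u, a, h0, e⟩ := h.mero w
    have l : AnalyticAt ℂ (fun z => Complex.log (u z / u w)) w :=
      (a.div_const).clog (by simp [div_self h0])
    refine ⟨fun z => -Complex.log (u z / u w) - (Real.log (Complex.normSq (u w)) : ℝ),
      fun z => -Complex.log (u z / u w), l.neg.sub analyticAt_const, l.neg, ?_⟩
    filter_upwards [e, h.mero.ev w, (ca a).eventually_ne h0] with z h1 h2 h3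
    refine ⟨fun k => Int.cast_eq_zero.2 (h2 k), fun k => ?_⟩
    have e1 : Real.log (Complex.normSq (Ψ z)) =
        n w * Real.log (Complex.normSq ((z : ℂ) - w)) + Real.log (Complex.normSq (u z)) := by
      rw [h1]
      rcases k with k | k
      · rw [map_mul, map_zpow₀, Real.log_mul (zpow_ne_zero _ ((map_ne_zero _).2 (sub_ne k)))
          ((map_ne_zero _).2 h3), Real.log_zpow]
      · simp [Int.cast_eq_zero.1 k]
    have e2 : Real.log (Complex.normSq (u z)) =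
        2 * (Complex.log (u z / u w)).re + Real.log (Complex.normSq (u w)) := by
      rw [Complex.log_re, norm_div, Real.log_div (norm_ne_zero_iff.2 h3) (norm_ne_zero_iff.2 h0),
        Complex.normSq_eq_norm_sq, Complex.normSq_eq_norm_sq, Real.log_pow, Real.log_pow]
      push_cast
      ring
    have e3 := Complex.add_conj (Complex.log (u z / u w))
    rw [e1, e2, map_neg]
    push_cast at e3 ⊢
    linear_combination e3
  · obtain ⟨C, y, h0, k⟩ := h.cus γ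
    refine ⟨2 * |Real.log C|, y, fun z hz => ?_⟩
    have p := (inv_pos.2 h0).trans_le (k z hz).1
    refine ⟨Int.cast_eq_zero.2 ((h.mero.zero_iff _).2 (norm_pos_iff.1 p)), ?_⟩
    have k1 := Real.log_le_log (inv_pos.2 h0) (k z hz).1
    have k2 := Real.log_le_log p (k z hz).2
    rw [Real.log_inv] at k1
    rw [Complex.norm_real, Complex.normSq_eq_norm_sq, Real.log_pow, Real.norm_eq_abs, abs_le]
    push_cast
    constructor <;> linarith [le_abs_self (Real.log C)]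

theorem Un.mul (h : Un M n φ Ψ) (h' : Un M n' φ' Ψ') (c : Continuous φ) (c' : Continuous φ') :
    ∃ Ψ'', Un M (n + n') (φ + φ') Ψ'' ∧ ∀ z, n z = 0 → n' z = 0 → Ψ'' z = Ψ z * Ψ' z := by
  obtain ⟨F, m, e⟩ := h.mero.mul h'.mero
  refine ⟨F, ⟨m, fun γ => ?_, fun γ hγ w => ?_⟩, e⟩
  · obtain ⟨C, y, h0, k⟩ := h.cus γ
    obtain ⟨C', y', h0', k'⟩ := h'.cus γ
    refine ⟨C * C', max y y', mul_pos h0 h0', fun z hz => ?_⟩
    obtain ⟨k1, k2⟩ := k z (lt_of_le_of_lt (le_max_left _ _) hz)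
    obtain ⟨k3, k4⟩ := k' z (lt_of_le_of_lt (le_max_right _ _) hz)
    rw [e _ ((h.mero.zero_iff _).2 (norm_pos_iff.1 ((inv_pos.2 h0).trans_le k1)))
      ((h'.mero.zero_iff _).2 (norm_pos_iff.1 ((inv_pos.2 h0').trans_le k3))), norm_mul, mul_inv]
    exact ⟨mul_le_mul k1 k3 (inv_pos.2 h0').le (norm_nonneg _),
      mul_le_mul k2 k4 (norm_nonneg _) h0.le⟩
  · have i : (n + n') (γ • w) = (n + n') w := by simp only [Pi.add_apply, h.inv γ hγ, h'.inv γ hγ]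
    by_cases k : (n + n') w = 0
    · have s := cont_smul γ
      refine tendsto_nhds_unique_of_eventuallyEq (l := 𝓝[≠] w)
        (((m.cont (i.trans k)).comp s.continuousAt).tendsto.mono_left nhdsWithin_le_nhds)
        ((ContinuousAt.mul (f := fun z => ee (((φ + φ') (γ • z) - (φ + φ') z : ℝ) : ℂ))
          (by unfold ee; fun_prop) (m.cont k)).tendsto.mono_left nhdsWithin_le_nhds) ?_
      filter_upwards [nhdsWithin_le_nhds (h.mero.ev w), nhdsWithin_le_nhds (h'.mero.ev w),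
        self_mem_nhdsWithin] with z h1 h2 hz
      rw [Function.comp_apply, e _ ((h.inv γ hγ z).trans (h1 hz)) ((h'.inv γ hγ z).trans (h2 hz)),
        Pi.mul_apply, e _ (h1 hz) (h2 hz), h.law γ hγ, h'.law γ hγ, mul_mul_mul_comm, ← ee_add,
        ← Complex.ofReal_add, Pi.add_apply, Pi.add_apply, add_sub_add_comm]
    · rw [not_not.1 (mt (m.zero_iff _).2 k), not_not.1 (mt (m.zero_iff _).2 (i ▸ k)), mul_zero]

/-- **Row `REL`.** -/
theorem rel : REL := fun M n φ Ψ hM c h =>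
  ⟨h.neg, h.dv hM, h.mero.zero_iff, h.green, fun n' φ' Ψ' c' h' => h.mul h' c c'⟩

end Ar

end Vale.Agent.P004Z
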