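import Vale.Agent.P004Z.Ar.The
import Vale.Agent.P004Z.Ar.Rel

/-! # P004Z, rows PSI and DEG: the functions of the pull-backs, the degree -/

set_option autoImplicit false
set_option linter.all false

open UpperHalfPlane CongruenceSubgroup Filter Topology
open scoped MatrixGroups Classical Real ComplexConjugate

noncomputable section

namespace Vale.Agent.P004Z

open Vale.Agent.P022.H218.L3 Ar.Rl Ar.Te
open Vale.Agent.P027H (IsLat wp dwp mem_of_eq)

theorem Mero.mul' {n n' : ℍ → ℤ} {Ψ Ψ' : ℍ → ℂ} (h : Mero n Ψ) (h' : Mero n' Ψ')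
    (d : ∀ z, n z = 0 ∨ n' z = 0) : Mero (n + n') (Ψ * Ψ') := by
  obtain ⟨F, m, e⟩ := h.mul h'
  refine (funext fun z => ?_ : F = Ψ * Ψ') ▸ m
  by_cases k : (n + n') z = 0
  · have : n z + n' z = 0 := k
    exact e z (by rcases d z with q | q <;> omega) (by rcases d z with q | q <;> omega)
  · rw [not_not.1 (mt (m.zero_iff z).2 k), eq_comm, Pi.mul_apply, mul_eq_zero]
    by_contra q
    rw [not_or, ← ne_eq, ← ne_eq, ← h.zero_iff, ← h'.zero_iff] at q
    exact k (by rw [Pi.add_apply, q.1, q.2, add_zero])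

namespace Ar

theorem val_inv {Γ : Subgroup SL(2, ℤ)} {x : Mer} (hx : x ∈ MF Γ) {γ : SL(2, ℤ)} (hγ : γ ∈ Γ)
    (τ : ℍ) : ∀ᶠ z in 𝓝[≠] τ, ∀ c c', EF.Val z x c → EF.Val (γ • z) x c' → c = c' := by
  obtain ⟨k, g, h, hg, hh, h0, rfl⟩ := hx
  have v : ∀ z c, EF.Val z (inc g hg.hol / inc h hh.hol) c → g z = c * h z := by
    rintro z c ⟨g', h', n0, e1, e2⟩
    have e3 : inc g hg.hol / inc h hh.hol * inc h' h'.2 = inc g' g'.2 := e1
    rw [div_mul_eq_mul_div, div_eq_iff (mt (inc_eq_zero hh.hol).1 h0), ← inc_mul, ← inc_mul] at e3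
    have := congrFun (inc_injective _ _ e3) z
    simp only [Pi.mul_apply, e2] at this
    exact mul_right_cancel₀ n0 (by linear_combination this)
  filter_upwards [not_frequently.1 (mt (eq_zero_of_frequently hh.hol (τ := τ)) h0)]
    with z hz c c' h1 h2
  have e1 := congrFun (hg.slash γ hγ) z
  have e2 := congrFun (hh.slash γ hγ) z
  rw [ModularForm.SL_slash_apply] at e1 e2
  rw [v _ _ h1, v _ _ h2, mul_assoc, e2] at e1
  exact (mul_right_cancel₀ hz e1).symm

theorem Th.loc {Λ : Submodule ℤ ℂ} {θ : ℂ → ℂ} {b : ℝ} (h : Th Λ θ b) {l : ℂ} (hl : l ∈ Λ) :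
    ∃ k : ℂ → ℂ, Differentiable ℂ k ∧ k l ≠ 0 ∧ ∀ u, θ u = (u - l) * k u := by
  obtain ⟨η, n, e⟩ := h.law l hl
  have d := dsl h.an 0
  refine ⟨fun u => η * Complex.exp (b * conj l * (u - l + l / 2)) * dslope θ 0 (u - l),
    by fun_prop, ?_, fun u => ?_⟩
  · simp [h.d0, norm_ne_zero_iff.1 (n ▸ one_ne_zero)]
  · have := e (u - l)
    rw [sub_add_cancel, eq_dsl ((h.zero 0).2 Λ.zero_mem) (u - l), sub_zero] at this
    rw [this]
    ring

/-- the quotient of theta functions -/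
def ps (θ : ℂ → ℂ) (b : ℝ) (t s u : ℂ) : ℂ :=
  θ (u - (t + s)) * (θ (u - t))⁻¹ * Complex.exp (b * conj s * u)

theorem Th.ps_law {Λ : Submodule ℤ ℂ} {θ : ℂ → ℂ} {b : ℝ} (h : Th Λ θ b) (t s u : ℂ) {l : ℂ}
    (hl : l ∈ Λ) : ps θ b t s (u + l) = ee ((b / π * (conj s * l).im : ℝ) : ℂ) * ps θ b t s u := by
  obtain ⟨η, n, e⟩ := h.law l hl
  have n0 : η ≠ 0 := norm_ne_zero_iff.1 (n ▸ one_ne_zero)
  have p : (π : ℂ) ≠ 0 := by exact_mod_cast Real.pi_ne_zero
  have k : Complex.exp (b * conj l * (u - (t + s) + l / 2)) * Complex.exp (b * conj s * (u + l)) =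
      ee ((b / π * (conj s * l).im : ℝ) : ℂ) * Complex.exp (b * conj l * (u - t + l / 2)) *
        Complex.exp (b * conj s * u) := by
    have := Complex.sub_conj (conj s * l)
    rw [map_mul, Complex.conj_conj] at this
    generalize (conj s * l).im = r at this
    rw [ee, ← Complex.exp_add, ← Complex.exp_add, ← Complex.exp_add]
    congr 1
    push_cast at this ⊢
    field_simp
    linear_combination 2 * b * this
  have := Complex.exp_ne_zero (b * conj l * (u - t + l / 2))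
  rw [ps, ps, add_sub_right_comm, add_sub_right_comm, e, e, mul_inv, mul_inv]
  generalize Complex.exp (b * conj l * (u - t + l / 2)) = x at this k
  generalize Complex.exp (b * conj l * (u - (t + s) + l / 2)) = y at k
  generalize Complex.exp (b * conj s * u) = x' at k
  generalize Complex.exp (b * conj s * (u + l)) = y' at k
  generalize (θ (u - t))⁻¹ = w
  generalize ee _ = v at k
  field_simp
  linear_combination θ (u - (t + s)) * w * k

namespace Pz

variable {N : ℕ} {a : ℕ → ℤ} (D : Pz N a)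

theorem an (τ : ℍ) : AnalyticAt ℂ (fun z => D.I (ofComplex z)) τ :=
  (UpperHalfPlane.mdifferentiable_iff.1 D.hol).analyticAt (isOpen_upperHalfPlaneSet.mem_nhds τ.im_pos)

theorem cont : Continuous D.I := MDifferentiable.continuous D.hol

theorem ev_ne (τ : ℍ) (c : ℂ) : ∀ᶠ z in 𝓝[≠] τ, D.I z - c ≠ 0 :=
  not_frequently.1 fun k => D.nc c (sub_eq_zero.1
    (eq_zero_of_frequently (Hol.sub_mem D.hol (Hol.algebraMap_mem c)) k))

theorem loc (τ : ℍ) : ∃ g : ℂ → ℂ, AnalyticAt ℂ g τ ∧ g τ ≠ 0 ∧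
    ∀ᶠ z : ℍ in 𝓝 τ, D.I z - D.I τ = ((z : ℂ) - τ) ^ D.e τ * g z := by
  obtain ⟨g, h1, h2, h3⟩ := ((D.an τ).fun_sub analyticAt_const).analyticOrderAt_ne_top.1
    (fun k => by
      obtain ⟨z, k1, k2⟩ := ((D.ev_ne τ (D.I τ)).and (nhdsWithin_le_nhds
        (continuous_coe.continuousAt.eventually (analyticOrderAt_eq_top.1 k)))).exists
      exact k1 (by simpa using k2) : analyticOrderAt (fun z => D.I (ofComplex z) - D.I τ) τ ≠ ⊤)
  exact ⟨g, h1, h2, (continuous_coe.continuousAt.eventually h3).mono fun z e => by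
    simpa [Pz.e] using e⟩

theorem e_pos (τ : ℍ) : 0 < D.e τ := by
  obtain ⟨g, -, h2, h3⟩ := D.loc τ
  refine Nat.pos_of_ne_zero fun k => h2 ?_
  simpa [k] using h3.self_of_nhds.symm

theorem pb_ne {t : ℂ} {z : ℍ} : D.pb t z ≠ 0 ↔ D.I z - t ∈ D.Λ := by
  have := (D.e_pos z).ne'
  unfold pb
  split_ifs with h <;> simp [h, this]

theorem pb_nonneg (t : ℂ) (z : ℍ) : 0 ≤ D.pb t z := by
  unfold pb
  split_ifs <;> simp

theorem mero {θ : ℂ → ℂ} {b : ℝ} (h : Th D.Λ θ b) (t : ℂ) :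
    Mero (D.pb t) fun z => θ (D.I z - t) := fun w => by
  have a := (D.an w).sub (analyticAt_const (v := t))
  unfold pb
  split_ifs with k
  · obtain ⟨g, h1, h2, h3⟩ := D.loc w
    obtain ⟨f, k1, k2, k3⟩ := h.loc k
    refine ⟨fun z => g z * f (D.I (ofComplex z) - t), h1.mul ((k1.analyticAt _).comp a),
      mul_ne_zero h2 (by simpa using k2), h3.mono fun z e => ?_⟩
    simp only [ofComplex_apply]
    rw [k3, sub_sub_sub_cancel_right, e, zpow_natCast, mul_assoc]
  · exact ⟨fun z => θ (D.I (ofComplex z) - t), (h.an.analyticAt _).comp a,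
      by simpa using h.ne' k, .of_forall fun z => by simp⟩

theorem ev_nm (τ : ℍ) (t : ℂ) : ∀ᶠ z in 𝓝[≠] τ, D.I z - t ∉ D.Λ := by
  obtain ⟨θ, b, h⟩ := the _ D.par.lat
  filter_upwards [nhdsWithin_le_nhds ((D.mero h t).ev τ), self_mem_nhdsWithin] with z h1 hz
  exact fun k => D.pb_ne.2 k (h1 hz)

/-- the periods -/
theorem per {γ : SL(2, ℤ)} (hγ : γ ∈ Gamma0 N) (τ : ℍ) : D.I (γ • τ) - D.I τ ∈ D.Λ := by
  have c := cont_smul γ
  have hL := D.par.lat
  have cl : IsClosed (D.Λ : Set ℂ) := by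
    obtain ⟨L, e⟩ := hL
    exact e ▸ L.isClosed_lattice
  have t : Tendsto (fun z => γ • z) (𝓝[≠] τ) (𝓝[≠] (γ • τ)) :=
    tendsto_nhdsWithin_iff.2 ⟨(c.tendsto τ).mono_left nhdsWithin_le_nhds,
      eventually_mem_nhdsWithin.mono fun z hz e => hz (MulAction.injective γ e)⟩
  refine cl.mem_of_tendsto (b := 𝓝[≠] τ) ((((D.cont.comp c).sub D.cont).tendsto τ).mono_left
    nhdsWithin_le_nhds) ?_
  filter_upwards [D.ev_nm τ 0, t.eventually (D.ev_nm _ 0), val_inv D.par.xm hγ τ,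
    val_inv D.par.ym hγ τ] with z h1 h2 h3 h4
  rw [sub_zero] at h1 h2
  exact hL.sub_mem_of_eq h2 h1 (h3 _ _ (D.par.xv _ h1) (D.par.xv _ h2)).symm
    ((div_left_inj' two_ne_zero).1 (h4 _ _ (D.par.yv _ h1) (D.par.yv _ h2))).symm

theorem pi_sub (z : ℍ) (t : ℂ) : D.pi z - D.ex t = D.ex (D.I z - t) := (map_sub _ _ _).symm

end Pz

/-- **Row `PSI`.** -/
theorem psi : PSI := by
  intro N a D hN
  obtain ⟨θ, b, h⟩ := the _ D.par.lat
  refine ⟨b / π, div_ne_zero h.ne Real.pi_ne_zero, fun t s h1 h2 => ?_⟩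
  have lw : ∀ γ ∈ Gamma0 N, ∀ z, ps θ b t s (D.I (γ • z)) =
      ee ((b / π * (conj s * D.I (γ • z)).im - b / π * (conj s * D.I z).im : ℝ) : ℂ) *
        ps θ b t s (D.I z) := fun γ hγ z => by
    rw [← mul_sub, ← Complex.sub_im, ← mul_sub, ← h.ps_law t s _ (D.per hγ z), add_sub_cancel]
  by_cases hs : s ∈ D.Λ
  · have e : ∀ u, u - (t + s) ∈ D.Λ ↔ u - t ∈ D.Λ := fun u =>
      ⟨fun k => mem_of_eq (add_mem k hs) (by ring), fun k => mem_of_eq (sub_mem k hs) (by ring)⟩
    refine ⟨1, 0, ⟨fun w => ⟨1, analyticAt_const, one_ne_zero, .of_forall fun z => ?_⟩,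
      fun γ => ⟨1, 0, one_pos, by simp⟩, fun γ hγ z => ?_⟩, fun z _ _ => ?_⟩
    · simp [Pz.pb, e]
    · obtain ⟨η, n, k⟩ := h.law _ (neg_mem hs)
      obtain ⟨c, -, hc, -⟩ := D.par.lat.exists_two
      have v : ∀ u, u - t ∉ D.Λ → ps θ b t s u = η * Complex.exp (b * conj s * (t + s / 2)) :=
        fun u hu => by
          rw [ps, ← sub_sub, sub_eq_add_neg _ s, k, mul_inv_cancel_right₀ (h.ne' hu), mul_assoc,
            ← Complex.exp_add, map_neg]
          congr 2
          ring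
      have k1 := h.ps_law t s (c + t) (D.per hγ z)
      rw [v, v _ (by simpa using hc), mul_sub, Complex.sub_im, mul_sub] at k1
      · rw [Pi.one_apply, Pi.one_apply, mul_one]
        exact mul_right_cancel₀ (mul_ne_zero (norm_ne_zero_iff.1 (n ▸ one_ne_zero))
          (Complex.exp_ne_zero _)) ((one_mul _).trans k1)
      · exact fun q => hc (mem_of_eq (sub_mem q (D.per hγ z)) (by ring))
    · simp [(D.ker s).2 hs]
  · refine ⟨fun z => ps θ b t s (D.I z), -(b * (conj s * t).re + b * ‖s‖ ^ 2 / 2),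
      ⟨?_, fun γ => ?_, lw⟩, fun z k1 k2 => ?_⟩
    · have m0 : Mero 0 fun z => Complex.exp (b * conj s * D.I z) := fun w =>
        ⟨fun z => Complex.exp (b * conj s * D.I (ofComplex z)),
          (analyticAt_const.mul (D.an w)).cexp', Complex.exp_ne_zero _, .of_forall fun z => by simp⟩
      have m := ((D.mero h (t + s)).mul' (D.mero h t).inv fun z => by
        by_contra! q
        exact hs (mem_of_eq (sub_mem (D.pb_ne.1 (neg_ne_zero.1 q.2)) (D.pb_ne.1 q.1))
          (by ring))).mul' m0 fun z => Or.inr rfl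
      rwa [add_zero, ← sub_eq_add_neg] at m
    · obtain ⟨c, hc⟩ := D.lim γ
      have n1 := h.ne' (h1 γ c hc)
      have n2 := h.ne' (h2 γ c hc)
      have a := h.an.continuous
      have k : ContinuousAt (ps θ b t s) c := by
        unfold ps
        fun_prop (disch := exact n1)
      have p : 0 < ‖ps θ b t s c‖ :=
        norm_pos_iff.2 (mul_ne_zero (mul_ne_zero n2 (inv_ne_zero n1)) (Complex.exp_ne_zero _))
      have l := (k.tendsto.comp hc).norm
      generalize ‖ps θ b t s c‖ = r at p l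
      obtain ⟨y, hy⟩ := (atImInfty_mem _).1 ((l.eventually_const_le
        (inv_lt_of_inv_lt₀ p (by linarith : r⁻¹ < r + r⁻¹))).and
          (l.eventually_le_const (lt_add_of_pos_right r (inv_pos.2 p))))
      exact ⟨r + r⁻¹, y, by positivity, fun z hz => hy z hz.le⟩
    · have n1 := norm_ne_zero_iff.2 (h.ne' k1)
      have n2 := norm_ne_zero_iff.2 (h.ne' k2)
      dsimp only
      rw [D.pi_sub, D.pi_sub, D.lam_eq h k1, D.lam_eq h k2, ps, norm_mul, norm_mul, norm_inv,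
        Complex.norm_exp, Real.log_mul (mul_ne_zero n2 (inv_ne_zero n1)) (Real.exp_ne_zero _),
        Real.log_mul n2 (inv_ne_zero n1), Real.log_inv, Real.log_exp]
      simp only [Complex.sq_norm, Complex.normSq_apply]
      simp
      ring

namespace Pz

variable {N : ℕ} {a : ℕ → ℤ} (D : Pz N a)

/-- the points which are not `Nc` are countable -/
theorem cnt_nc : {t | ¬ D.Nc t}.Countable := by
  obtain ⟨C, hC⟩ := D.cv
  refine (C.countable_toSet.biUnion fun c _ => (cnt D.par.lat).image (· + c)).mono fun t ht => ?_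
  by_contra k
  exact ht (hC t fun c hc e => k (Set.mem_iUnion₂.2 ⟨c, hc, _, e, sub_add_cancel _ _⟩))

theorem dv (hN : 0 < N) {t : ℂ} (ht : D.Nc t) : Dv N (cs (D.pb t)) := by
  obtain ⟨s, hs⟩ := (((cnt D.par.lat).union (D.cnt_nc.image (· - t))).dense_compl ℂ).nonempty
  rw [Set.mem_compl_iff, Set.mem_union, not_or] at hs
  obtain ⟨b, -, h⟩ := psi N a D hN
  obtain ⟨Ψ, -, u, -⟩ := h t s ht (not_not.1 fun k => hs.2 ⟨_, k, add_sub_cancel_left _ _⟩)
  have e : ∀ z, D.pb t z = max (-(D.pb (t + s) - D.pb t) z) 0 := fun z => by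
    have h1 := D.pb_nonneg t z
    have h2 := D.pb_nonneg (t + s) z
    have h3 : D.pb (t + s) z = 0 ∨ D.pb t z = 0 := by
      by_contra! q
      exact hs.1 (mem_of_eq (sub_mem (D.pb_ne.1 q.2) (D.pb_ne.1 q.1)) (by ring))
    rw [Pi.sub_apply]
    omega
  obtain ⟨S, hS⟩ := (u.dv hN).fin
  refine ⟨fun γ hγ z => congrArg Int.cast (by rw [e, e, u.inv γ hγ]), S, fun z hz => hS z ?_⟩
  refine Int.cast_ne_zero.2 fun k => Int.cast_ne_zero.1 hz ?_
  rw [e, k, neg_zero, max_self]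

end Pz

theorem aff {m : ℤ → ℕ} (h : ∀ k, m (k + 1) + m (k - 1) = 2 * m k) : m 1 = m 0 := by
  have s : ∀ k : ℤ, (m (k + 1) : ℤ) - m k = m 1 - m 0 := fun k => by
    induction k using Int.induction_on with
    | zero => simp
    | succ k ih => have := h (k + 1); rw [add_sub_cancel_right] at this; omega
    | pred k ih => have := h (-k); rw [sub_add_cancel]; omega
  have t : ∀ k : ℤ, (m k : ℤ) = m 0 + k * (m 1 - m 0) := fun k => by
    induction k using Int.induction_on with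
    | zero => simp
    | succ k ih => linear_combination ih + s k
    | pred k ih => have := s (-k - 1); rw [sub_add_cancel] at this; linear_combination ih - this
  have h1 := t (m 0 + 1)
  have h2 := t (-(m 0 + 1))
  have h3 := Nat.cast_nonneg (α := ℤ) (m (m 0 + 1))
  have h4 := Nat.cast_nonneg (α := ℤ) (m (-(m 0 + 1)))
  have h5 := Nat.cast_nonneg (α := ℤ) (m 0)
  rcases lt_trichotomy (m 1 : ℤ) (m 0) with k | k | k
  · nlinarith
  · exact_mod_cast k
  · nlinarith

/-- **Row `DEG`.** -/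
theorem deg (hA : AE) (hW : WS) : DEG := by
  intro N a D hN
  obtain ⟨w1, w2, -, w4, w5, w6⟩ := hW (4 * N) (by omega)
  have d := fun t ht => w6 N _ (Dvd.intro_left 4 rfl) (D.dv hN (t := t) ht)
  have ex : ∀ t, ∃ m : ℕ, D.Nc t → ws (4 * N) (cs (D.pb t)) 1 = m ∧
      ∀ z, D.I z - t ∈ D.Λ → 0 < m := fun t => by
    by_cases ht : D.Nc t
    · obtain ⟨s, hs⟩ := w5 _ (d t ht)
      refine ⟨∑ z ∈ s, (D.pb t z).toNat, fun _ => ⟨?_, fun z hz => ?_⟩⟩
      · rw [w4 _ s 1 hs (fun γ hγ z => Int.cast_injective ((d t ht).inv γ hγ z)) fun _ _ _ => rfl,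
          evd, Nat.cast_sum]
        refine Finset.sum_congr rfl fun z _ => ?_
        rw [Pi.one_apply, mul_one, ← Int.cast_natCast, Int.toNat_of_nonneg (D.pb_nonneg t z)]
      · obtain ⟨γ, -, k⟩ := hs.ex z (D.pb_ne.2 hz)
        refine Finset.sum_pos (fun w hw => ?_) ⟨_, k⟩
        have := hs.sup w hw
        have := D.pb_nonneg t w
        omega
    · exact ⟨0, fun k => absurd k ht⟩
  choose m hm using ex
  obtain ⟨b, -, h⟩ := psi N a D hN
  have c : ∀ s, Continuous fun z => b * (conj s * D.I z).im := fun s => by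
    have := D.cont
    fun_prop
  have par : ∀ t s, D.Nc t → D.Nc (t + s) → D.Nc (t + -s) → m (t + s) + m (t + -s) = 2 * m t := by
    intro t s h0 h1 h2
    obtain ⟨Ψ, -, u, -⟩ := h t s h0 h1
    obtain ⟨Ψ', -, u', -⟩ := h t (-s) h0 h2
    obtain ⟨F, v, -⟩ := u.mul u' (c _) (c _)
    have k := (hA N a D _ F hN (by
      convert v using 1
      funext z
      simp
      ring)).1
    have e : cs (D.pb (t + s) - D.pb t + (D.pb (t + -s) - D.pb t)) =
        cs (D.pb (t + s)) + cs (D.pb (t + -s)) + (-2 : ℂ) • cs (D.pb t) := by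
      funext z
      simp only [cs, Pi.add_apply, Pi.sub_apply, Pi.smul_apply, smul_eq_mul]
      push_cast
      ring
    rw [e, (w1 _ _ (w1 _ _ (d _ h1) (d _ h2)).1 ((w2 _ _).1 (d _ h0))).2, (w1 _ _ (d _ h1) (d _ h2)).2,
      ((w2 _ _).2 _).1, (hm _ h0).1, (hm _ h1).1, (hm _ h2).1] at k
    have : ((m (t + s) + m (t + -s) : ℕ) : ℂ) = (2 * m t : ℕ) := by
      push_cast
      linear_combination k
    exact_mod_cast this
  have bad : ∀ t : ℂ, (⋃ k : ℤ, (fun v => t + (v - t) / k) '' {t | ¬ D.Nc t}).Countable := fun t =>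
    Set.countable_iUnion fun k => D.cnt_nc.image _
  have ln : ∀ t x, D.Nc t → x ∉ (⋃ k : ℤ, (fun v => t + (v - t) / k) '' {t | ¬ D.Nc t}) →
      m x = m t := fun t x ht hx => by
    have g : ∀ k : ℤ, D.Nc (t + k * (x - t)) := fun k => by
      by_cases q : k = 0
      · simpa [q] using ht
      · have : (k : ℂ) ≠ 0 := Int.cast_ne_zero.2 q
        exact not_not.1 fun e => hx (Set.mem_iUnion.2 ⟨k, _, e, by field_simp; ring⟩)
    have k := aff (m := fun k => m (t + k * (x - t))) fun k => by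
      have e1 : t + (k + 1 : ℤ) * (x - t) = t + k * (x - t) + (x - t) := by push_cast; ring
      have e2 : t + (k - 1 : ℤ) * (x - t) = t + k * (x - t) + -(x - t) := by push_cast; ring
      rw [e1, e2]
      exact par _ _ (g k) (e1 ▸ g _) (e2 ▸ g _)
    simpa using k
  obtain ⟨z, hz⟩ : ∃ z, D.Nc (D.I z) := by
    by_contra! q
    have k := D.cnt_nc.isTotallyDisconnected _ (Set.range_subset_iff.2 q)
      (isPreconnected_range D.cont)
    exact D.nc (D.I I) (funext fun z => k ⟨z, rfl⟩ ⟨I, rfl⟩)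
  refine ⟨m (D.I z), (hm _ hz).2 z (by simp), fun t ht => ⟨D.dv hN ht, ?_⟩⟩
  obtain ⟨x, hx⟩ := (((bad t).union (bad (D.I z))).dense_compl ℂ).nonempty
  rw [Set.mem_compl_iff, Set.mem_union, not_or] at hx
  rw [(hm t ht).1, ← ln t x ht hx.1, ln _ x hz hx.2]

end Ar

end Vale.Agent.P004Z
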