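import Vale.Agent.P004Z.Ar.Abl0
import Vale.Agent.P004Z.Ar.Psi
import Vale.Agent.P004Z.Ar.Prt

/-! # P004Z, row ABL: the hard half of Abel's theorem -/

set_option autoImplicit false
set_option linter.all false

open UpperHalfPlane CongruenceSubgroup Filter Topology
open scoped MatrixGroups Classical Real ComplexConjugate Manifold

noncomputable section

namespace Vale.Agent.P004Z.Ar

open Rl P004N P004N.H461 Vale.Agent.P027M.ES

variable {N : ℕ}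

/-- `A` is the divisor of a function whose multiplier is given by the periods of `c` -/
def Gd (N : ℕ) (A : ℍ → ℂ) (c : ℕ → ℂ) : Prop := ∃ n Ψ g F, A = cs n ∧ S2 N g ∧ QE g c ∧ Prim g F ∧
  Un N n (fun z => (F z).re) Ψ

theorem cre {g F : ℍ → ℂ} (h : Prim g F) : Continuous fun z => (F z).re :=
  Complex.continuous_re.comp (MDifferentiable.continuous h.hol)

theorem Gd.add {A A' : ℍ → ℂ} {c c' : ℕ → ℂ} (h : Gd N A c) (h' : Gd N A' c') :
    Gd N (A + A') (c + c') := by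
  obtain ⟨n, Ψ, g, F, rfl, h1, h2, h3, h4⟩ := h
  obtain ⟨n', Ψ', g', F', rfl, k1, k2, k3, k4⟩ := h'
  obtain ⟨G, e, -⟩ := h4.mul k4 (cre h3) (cre k3)
  exact ⟨n + n', G, g + g', F + F', funext fun z => (Int.cast_add _ _).symm,
    EF.s2_of ((EF.cf_of h1).add (EF.cf_of k1)), QE.add h2 k2, h3.add k3, e⟩

theorem Gd.zsmul {A : ℍ → ℂ} {c : ℕ → ℂ} (h : Gd N A c) (r : ℤ) : Gd N (r • A) (r • c) := by
  obtain ⟨n, Ψ, g, F, rfl, h1, h2, h3, h4⟩ := h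
  have k : ∃ G, Un N (r • n) (fun z => (((r : ℂ) • F) z).re) G := by
    obtain ⟨k, rfl | rfl⟩ := r.eq_nat_or_neg
    · exact ⟨_, (h4.pow k).congr 0 (by simp)⟩
    · exact ⟨_, neg_smul (k : ℤ) n ▸ (h4.pow k).neg.congr 0 (by simp)⟩
  obtain ⟨G, e⟩ := k
  refine ⟨r • n, G, (r : ℂ) • g, (r : ℂ) • F, funext fun z => by simp [cs],
    EF.s2_of ((EF.cf_of h1).smul r), ?_, h3.smul r, e⟩
  simpa [funext_iff, Pi.smul_def] using QE.smul h2 r

theorem Gd.hecke {A : ℍ → ℂ} {c : ℕ → ℂ} (h : Gd N A c) {l : ℕ} (hl : l.Prime) (hN : ¬ l ∣ N) :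
    Gd N (Tdiv l A) (TcL l c) := by
  obtain ⟨n, Ψ, g, F, rfl, h1, h2, h3, h4⟩ := h
  obtain ⟨G, e⟩ := h4.hecke (cre h3) hl hN
  refine ⟨_, G, Tp l g, (EF.cor_T hl hN).T F, funext fun z => by simp [Tdiv_eq hl, cs],
    S2.tp hl hN h1, qe_T h2 l hl.pos, (EF.cor_T hl hN).prim h3, e.congr 0 fun z => ?_⟩
  simp only [EF.Cor.T, Finset.sum_apply, Complex.re_sum, add_zero, mb, dif_pos (al_pos hl _)]

theorem Gd.lift {S : ℕ} (hS : N ∣ S) (P : FreeAlgebra ℤ (PA S)) : ∀ A c, Gd N A c →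
    Gd N (FreeAlgebra.lift ℤ (fun l : PA S => Tdiv l.1) P A)
      (FreeAlgebra.lift ℤ (fun l : PA S => TcL l.1) P c) := by
  induction P using FreeAlgebra.induction with
  | grade0 r => exact fun A c h => by simpa using h.zsmul r
  | grade1 l => exact fun A c h => by simpa using h.hecke l.2.1 fun k => l.2.2 (k.trans hS)
  | mul a b ha hb => exact fun A c h => by simpa using ha _ _ (hb A c h)
  | add a b ha hb => exact fun A c h => by simpa using (ha A c h).add (hb A c h)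

theorem gd_of (hU : UNI) (hN : 0 < N) {n : ℍ → ℤ} {Φ : ℍ → ℂ} (h : Green (Gamma0 N) (cs n) Φ) :
    ∃ (k : ℕ) (c : ℕ → ℂ), 0 < k ∧ Gd N (cs ((k : ℤ) • n)) c := by
  haveI : NeZero N := ⟨hN.ne'⟩
  have : Group.FG SL(2, ℤ) := Group.fg_iff.2 ⟨{ModularGroup.S, ModularGroup.T},
    SpecialLinearGroup.SL2Z_generators, Set.toFinite _⟩
  obtain ⟨Ψ, χ, h1, h2, -, h3⟩ := hU _ n Φ h
  obtain ⟨y, hy⟩ := h2.ne 1
  obtain ⟨z, hz⟩ : ∃ z, Ψ z ≠ 0 := ⟨_, hy ⟨(|y| + 1 : ℝ) * Complex.I, by simp; positivity⟩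
    (by simpa using (le_abs_self y).trans_lt (lt_add_one _))⟩
  obtain ⟨k, φ, k0, k1, k2, k3⟩ := lift (Γ := Gamma0 N) (MonoidHom.mk'
    (fun γ => (⟨χ γ, mem_sphere_zero_iff_norm.2 (h3 γ γ.2).1⟩ : Circle)) fun γ δ =>
      Circle.ext (mul_right_cancel₀ hz (by
        show χ (γ * δ : SL(2, ℤ)) * _ = χ γ * χ δ * _
        rw [← (h3 _ (mul_mem γ.2 δ.2)).2, mul_smul, (h3 _ γ.2).2, (h3 _ δ.2).2, mul_assoc])))
  obtain ⟨f, g, F, G, s1, s2, p1, p2, e⟩ := EF.es0 hN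
    (φ := fun γ => if h : γ ∈ Gamma0 N then (φ ⟨γ, h⟩ : ℝ) else 0)
    (fun γ hγ δ hδ => by
      simp only [dif_pos hγ, dif_pos hδ, dif_pos (mul_mem hγ hδ)]
      exact_mod_cast k1 ⟨γ, hγ⟩ ⟨δ, hδ⟩)
    fun γ m hm hγ => by
      rw [dif_pos hγ, k2 ⟨_, hγ⟩ (Circle.ext (parab h1 h2 γ hm (h3 _ hγ).1 (h3 _ hγ).2)),
        Complex.ofReal_zero]
  have s := EF.s2_of ((EF.cf_of s1).add (EF.cf_of s2))
  obtain ⟨c, hc, -⟩ := s.qe
  refine ⟨k, c, k0, _, Ψ ^ k, _, _, rfl, s, hc, p1.add p2, h1.pow k, h2.pow k, fun γ hγ z => ?_⟩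
  have q := congrArg Complex.re (e γ hγ z)
  simp only [dif_pos hγ, per, Complex.ofReal_re, Complex.add_re, Complex.sub_re, Complex.conj_re] at q
  rw [Pi.pow_apply, (h3 γ hγ).2, mul_pow, show ((F + G) (γ • z)).re - ((F + G) z).re = φ ⟨γ, hγ⟩ by
    simp only [q, Pi.add_apply, Complex.add_re]; ring, k3]
  rfl

/-- **Row `ABL`.** -/
theorem abl (hU : UNI) : ABL := by
  intro N G a D S P h hS hP n n' Φ hΦ e
  obtain ⟨k, c, k0, g0⟩ := gd_of hU h.pos hΦ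
  obtain ⟨m, Ψ, g, F, e1, -, h2, h3, h4⟩ := Gd.lift hS P _ _ g0
  obtain ⟨-, -, g1, -, -, s1, q1, -⟩ := g0
  obtain ⟨κ, hκ⟩ := hP g1 c s1 q1
  have e2 : m = (k : ℤ) • n' := funext fun z => Int.cast_injective (α := ℂ) (by
    have := congrFun e1 z
    rw [show cs ((k : ℤ) • n) = (k : ℂ) • cs n from funext fun z => by simp [cs], map_smul,
      ← e] at this
    simpa [cs] using this.symm)
  rw [hκ] at h2
  rw [QE.ext h2 (QE.smul h.qe κ)] at h3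
  obtain ⟨C, hC⟩ := h3.exists_sub ((EF.prim_Pr h.qe (c_zero h.s2 h.qe)).smul κ)
  obtain ⟨b, hb, hp⟩ := psi N a D h.pos
  refine ⟨k, conj (Complex.I * κ * D.w / b), k0, fun t h5 h6 => ?_⟩
  obtain ⟨Ψ', -, u, -⟩ := hp t _ h5 h6
  obtain ⟨H, v, -⟩ := h4.mul u.neg (cre h3) (by have := D.cont; fun_prop)
  refine ⟨H, by
    rw [e2, ← sub_eq_add_neg] at v
    refine v.congr (-C.re) fun z => ?_
    have w0 : (D.w : ℂ) ≠ 0 := Nat.cast_ne_zero.2 D.par.wpos.ne'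
    have b0 : (b : ℂ) ≠ 0 := Complex.ofReal_ne_zero.2 hb
    have e3 : b * (Complex.I * κ * D.w / b * D.I z) = (F z - C) * Complex.I := by
      rw [D.par.I_eq, ← hC z, Pi.smul_apply, smul_eq_mul]
      field_simp
      ring
    simp only [Pi.add_apply, Pi.neg_apply, Pi.zero_apply, Complex.conj_conj]
    rw [← Complex.im_ofReal_mul, e3, Complex.mul_I_im, Complex.sub_re]
    ring⟩

end Vale.Agent.P004Z.Ar
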