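import Vale.Agent.P004Z.Ar.St
import Vale.Agent.P004Z.EF.Gen
import Vale.Agent.P004K.Tr
import Vale.Agent.P004K.Hg.Ft

/-! # P004Z, row ACT -/

set_option autoImplicit false

open UpperHalfPlane CongruenceSubgroup
open scoped MatrixGroups NumberTheorySymbols

noncomputable section

namespace Vale.Agent.P004Z.Ar

open Vale.Agent.P022.H218.L3 Vale.Agent.P022.H236.L3 P004K P027M.M

theorem ex_aut0 {N : ℕ} (hN : 0 < N) (σ : ℂ ≃+* ℂ) :
    ∀ x ∈ MF (Gamma0 N), ∃ y ∈ MF (Gamma0 N), IsAut 1 σ x y := fun x hx => by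
  obtain ⟨s, hs⟩ := MF_le_EF (N := 1) (Γ := Gamma0 N)
    (mem_G0.2 (by rw [pow_one]; exact dvd_zero _)) hx
  obtain ⟨y, hy, e⟩ := EF.conj_ex N hN x hx s hs σ
  exact ⟨y, hy, s, hs, e⟩

theorem act_row : ACT := fun N _ δ ok σ => by
  have hN := NeZero.pos N
  have hδ : 0 < δ := by have := ok.one; omega
  obtain ⟨c, hc⟩ := ex_aut one_pos (ex_aut0 hN) σ
  obtain ⟨k, hk⟩ := ex_cy σ hδ
  choose s hs using ex_cj0 σ hN
  have cop := Int.isCoprime_iff_gcd_eq_one.1 (hk.cop hδ)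
  have z := fun τ => zg trx cj0 N δ ok σ k τ (s τ) hk (hs τ)
  refine ⟨c, s, J(k | δ), jacobiSym.eq_one_or_neg_one cop, fun e => ?_,
    fun a => Subtype.ext (aut_uniq one_pos (hc _) (Bc.aut_const 1 σ a)),
    fun f t ht hr => Subtype.ext (aut_uniq one_pos (hc f) (aut_rat ht hr σ)), fun τ' => ?_,
    fun τ τ' => ?_, fun τ f => ((hs τ).rl hN _ f.2 _ (c f).2 (hc f)).1,
    fun τ f => ((hs τ).rl hN _ f.2 _ (c f).2 (hc f)).2, fun n r τ => ?_,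
    fun n r τ θ h e => (z τ n r θ (by rw [h])).2.1 e⟩
  · have e1 : ee (1 / δ) = ze δ 1 := by
      rw [ee, ze, mul_div_assoc, Int.cast_one]
    rw [e1] at e
    rw [jacobiSym.mod_left' (a₂ := 1) (Int.modEq_iff_dvd.2 (hk.uniq e hδ)).symm, jacobiSym.one_left]
  · obtain ⟨τ, h⟩ := ex_cj0 σ⁻¹ hN τ'
    exact ⟨τ, ((hs τ).tgt hN).1 (by simpa using h.symm hN)⟩
  · rw [← (hs τ).tgt hN, (hs τ').src hN]
    constructor <;> rintro ⟨γ, h, rfl⟩ <;> exact ⟨γ⁻¹, inv_mem h, inv_smul_smul _ _⟩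
  · obtain ⟨θ, h⟩ := IsAlgClosed.exists_pow_nat_eq (-((δ : ℂ) * n)) two_pos
    exact (z τ n r θ h).1

end Vale.Agent.P004Z.Ar
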