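import Vale.Agent.P004Z.Ar.Ws
import Vale.Agent.P004N.H461.Op

/-! # P004Z, row ADJ: the Hecke operators on divisors are self adjoint -/

set_option autoImplicit false
set_option linter.all false

open UpperHalfPlane CongruenceSubgroup P004N.H461
open scoped MatrixGroups Classical

noncomputable section

namespace Vale.Agent.P004Z.Ar

variable {M l : ℕ} {A F : ℍ → ℂ} {m n : M2} {z : ℍ} {γ : SL(2, ℤ)}

/-- stabilisers -/
theorem stab (h : γ • z = z) : (γ = 1 ∨ γ = -1) ∨ γ 1 0 ≠ 0 ∧ (γ 0 0 + γ 1 1) ^ 2 < 4 ∧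
    evq (γ 1 0, γ 1 1 - γ 0 0, -γ 0 1) z = 0 := by
  have d := Hd.det' γ
  have e : evq (γ 1 0, γ 1 1 - γ 0 0, -γ 0 1) z = 0 := by
    have := (eq_div_iff (Hd.den_ne γ z)).1 (h ▸ Hd.coe_sm γ z :)
    simp only [evq]
    push_cast
    linear_combination this
  by_cases c : γ 1 0 = 0
  · have b : -γ 0 1 = 0 := congrArg (·.2.2) (Hd.root_zero e c)
    have a : γ 1 1 - γ 0 0 = 0 := congrArg (·.2.1) (Hd.root_zero e c)
    rw [c, mul_zero, sub_zero] at d
    refine .inl ((Int.eq_one_or_neg_one_of_mul_eq_one' d).imp (fun k => ?_) fun k => ?_) <;>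
      ext i j <;> fin_cases i <;> fin_cases j <;> simp [k.1, k.2, c, neg_eq_zero.1 b]
  · have := Hd.root_neg e c
    simp only [disc] at this
    exact .inr ⟨c, by nlinarith, e⟩

theorem stab4 (hM : 4 ∣ M) (a : γ ∈ Gamma0 M) (h : γ • z = z) : γ = 1 ∨ γ = -1 :=
  (stab h).resolve_right fun ⟨_, b, _⟩ => by
    obtain ⟨c, hc⟩ : (4 : ℤ) ∣ γ 1 0 := Hd.g0_dvd.1 (g0_le hM a)
    have d := Hd.det' γ
    rw [hc] at d
    have e : γ 0 0 + γ 1 1 = 0 ∨ γ 0 0 + γ 1 1 = 1 ∨ γ 0 0 + γ 1 1 = -1 := by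
      have := abs_lt_of_sq_lt_sq' (b := (2 : ℤ)) b zero_le_two
      omega
    obtain ⟨k, e' | e'⟩ := Int.even_or_odd' (γ 0 0)
    · have : 2 * (k * γ 1 1 - γ 0 1 * (2 * c)) = 1 := by linear_combination d - γ 1 1 * e'
      omega
    · rcases e with e | e | e
      · have : 2 * (-(k * k) - k - γ 0 1 * c) = 1 := by
          have e2 : γ 1 1 = -(2 * k + 1) := by omega
          rw [e', e2] at d
          linarith
        omega
      · have : 2 * (-(k * γ 0 0) - γ 0 1 * (2 * c)) = 1 := by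
          linear_combination d - γ 0 0 * (e - e')
        omega
      · have : 2 * (-((k + 1) * γ 0 0) - γ 0 1 * (2 * c)) = 1 := by
          linear_combination d - γ 0 0 * (e - e')
        omega

/-- the action of integer matrices -/
def mb (m : M2) (z : ℍ) : ℍ := if h : 0 < m.det then gl m h • z else z

theorem coe_mb (h : 0 < m.det) (z : ℍ) :
    (mb m z : ℂ) = (m 0 0 * z + m 0 1) / (m 1 0 * z + m 1 1) := by
  rw [mb, dif_pos h, coe_smul_gl]

theorem mb_mul (a : 0 < m.det) (b : 0 < n.det) (z : ℍ) : mb (m * n) z = mb m (mb n z) := by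
  have h : 0 < (m * n).det := by rw [Matrix.det_mul]; positivity
  rw [mb, mb, mb, dif_pos h, dif_pos a, dif_pos b, gl_mul m n a b, mul_smul]

theorem mb_SL (γ : SL(2, ℤ)) (z : ℍ) : mb γ.1 z = γ • z :=
  UpperHalfPlane.ext ((coe_mb (by simp) z).trans (Hd.coe_sm γ z).symm)

theorem det_adj (m : M2) : m.adjugate.det = m.det := by simp [Matrix.det_adjugate]

theorem mb_adj (h : 0 < m.det) (z : ℍ) : mb m.adjugate (mb m z) = z := by
  have h' : (m.det : ℂ) ≠ 0 := Int.cast_ne_zero.2 h.ne'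
  rw [← mb_mul (det_adj m ▸ h) h, Matrix.adjugate_mul]
  refine UpperHalfPlane.ext ((coe_mb (by
    rw [Matrix.det_smul, Matrix.det_one, mul_one]; positivity) z).trans ?_)
  simp [h']

theorem al_pos (hl : l.Prime) (j : Option (Fin l)) : 0 < (al l j).det := by
  rw [al_det]
  exact_mod_cast hl.pos

theorem mb_al (hl : l.Prime) (γ : SL(2, ℤ)) (j : Option (Fin l)) (z : ℍ) :
    mb (γ.1 * al l j) z = γ • mb (al l j) z := by
  rw [mb_mul (by simp) (al_pos hl j), mb_SL]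

theorem Tdiv_eq (hl : l.Prime) (F : ℍ → ℂ) (z : ℍ) :
    Tdiv l F z = ∑ j : Option (Fin l), F (mb (al l j) z) := by
  have k : ∀ j (w : ℂ), (mb (al l j) z : ℂ) = w → ofComplex w = mb (al l j) z := fun j w e => by
    rw [← e, ofComplex_apply]
  rw [Fintype.sum_option, ← k none (l * z) (by rw [coe_mb (al_pos hl _)]; simp [al])]
  refine (add_right_inj _).2 ((Finset.sum_range _).trans (Finset.sum_congr rfl fun j _ => ?_))
  rw [k (some j) _ (by rw [coe_mb (al_pos hl _)]; simp [al])]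

/-- the coset of `al l j` -/
def Cs (M l : ℕ) (j : Option (Fin l)) (m : M2) : Prop := ∃ γ ∈ Gamma0 M, m = γ.1 * al l j

theorem Cs.det {j : Option (Fin l)} (h : Cs M l j m) : m.det = l := by
  obtain ⟨γ, -, rfl⟩ := h
  rw [Matrix.det_mul, γ.2, one_mul, al_det]

theorem ex_cs (hl : l.Prime) (hM : ¬ l ∣ M) (d : m.det = l) (c : (M : ℤ) ∣ m 1 0) :
    ∃ j, Cs M l j m := by
  obtain ⟨j, δ, a, b⟩ := al_rep hl hM m d c
  exact ⟨j, ⟨δ, a.1⟩, (G0_iff _ _).2 a, b⟩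

theorem Cs.adj (hl : l.Prime) (hM : ¬ l ∣ M) {j : Option (Fin l)} (h : Cs M l j m) :
    ∃ j, Cs M l j m.adjugate := ex_cs hl hM ((det_adj m).trans h.det) (by
  obtain ⟨γ, a, rfl⟩ := h
  have := Hd.g0_dvd.1 a
  cases j <;> simp [Matrix.adjugate_fin_two, al, Matrix.mul_apply, this, this.mul_right])

theorem cs_inj (hl : l.Prime) {i j : Option (Fin l)} {γ γ' : SL(2, ℤ)}
    (h : γ.1 * al l i = γ'.1 * al l j) : i = j :=
  al_inj hl i j (γ⁻¹ * γ').1 (γ⁻¹ * γ').2 (by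
    rw [Matrix.SpecialLinearGroup.coe_mul, mul_assoc, ← h, ← mul_assoc,
      ← Matrix.SpecialLinearGroup.coe_mul, inv_mul_cancel, Matrix.SpecialLinearGroup.coe_one,
      one_mul])

theorem Inv.tdiv (hl : l.Prime) (hM : ¬ l ∣ M) (h : Inv M F) : Inv M (Tdiv l F) := fun γ a z => by
  have := Hd.g0_dvd.1 a
  choose P g g1 g2 using fun j => ex_cs (m := al l j * γ.1) hl hM
    (by rw [Matrix.det_mul, γ.2, mul_one, al_det])
    (by cases j <;> simp [al, Matrix.mul_apply, this, this.mul_left])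
  rw [Tdiv_eq hl, Tdiv_eq hl]
  refine Fintype.sum_bijective P (Finite.injective_iff_bijective.1 fun i j e => cs_inj hl
    (γ := (g i)⁻¹) (γ' := (g j)⁻¹) (mul_right_cancel_det (g := γ.1) (by simp) ?_)) _ _ fun j => ?_
  · rw [mul_assoc, mul_assoc, g2, g2, e, ← mul_assoc, ← mul_assoc,
      ← Matrix.SpecialLinearGroup.coe_mul, ← Matrix.SpecialLinearGroup.coe_mul, inv_mul_cancel,
      inv_mul_cancel]
  · rw [← mb_SL, ← mb_mul (al_pos hl j) (by simp), g2, mb_al hl, h _ (g1 j)]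

theorem Dv.tdiv (hl : l.Prime) (hM : ¬ l ∣ M) (h : Dv M A) : Dv M (Tdiv l A) := by
  obtain ⟨s, hs⟩ := h.fin
  refine ⟨h.inv.tdiv hl hM, (s ×ˢ Finset.univ).image fun i => mb (al l i.2) i.1, fun z hz => ?_⟩
  obtain ⟨j, -, e⟩ := Finset.exists_ne_zero_of_sum_ne_zero (Tdiv_eq hl A z ▸ hz)
  obtain ⟨γ, a, b⟩ := hs _ e
  have c : Cs M l j _ := ⟨γ, a, rfl⟩
  obtain ⟨i, g, d, f⟩ := c.adj hl hM
  refine ⟨g⁻¹, inv_mem d, Finset.mem_image.2 ⟨(_, i), Finset.mem_product.2 ⟨b, Finset.mem_univ _⟩,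
    ?_⟩⟩
  rw [eq_inv_smul_iff, ← mb_al hl, ← f, ← mb_al hl, mb_adj (c.det ▸ Int.natCast_pos.2 hl.pos)]

/-- the correspondence -/
def Co (M l : ℕ) (p p' : Qo M × Option (Fin l)) : Prop :=
  ∃ m, Cs M l p.2 m ∧ Cs M l p'.2 m.adjugate ∧ mb m p.1.out = p'.1.out

theorem Co.symm (hl : l.Prime) {p p' : Qo M × Option (Fin l)} (h : Co M l p p') : Co M l p' p := by
  obtain ⟨m, a, b, c⟩ := h
  refine ⟨_, b, ?_, by rw [← c, mb_adj (a.det ▸ Int.natCast_pos.2 hl.pos)]⟩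
  rwa [Matrix.adjugate_adjugate _ (by simp), Fintype.card_fin, pow_zero, one_smul]

theorem Co.uniq (hl : l.Prime) (h4 : 4 ∣ M) {p p' p'' : Qo M × Option (Fin l)} (h : Co M l p p')
    (h' : Co M l p p'') : p' = p'' := by
  obtain ⟨_, ⟨γ, a, rfl⟩, ⟨g, -, b⟩, c⟩ := h
  obtain ⟨_, ⟨γ', a', rfl⟩, ⟨g', -, b'⟩, c'⟩ := h'
  rw [mb_al hl] at c c'
  have e : (γ * γ'⁻¹) • p''.1.out = p'.1.out := by rw [← c, ← c', mul_smul, inv_smul_smul]
  have e1 : p'.1 = p''.1 := by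
    rw [← cl_out p'.1, ← cl_out p''.1]
    exact cl_eq.2 ⟨_, mul_mem a (inv_mem a'), e⟩
  refine Prod.ext e1 ?_
  rcases stab4 h4 (mul_mem a (inv_mem a')) (e1 ▸ e) with k | k
  · rw [mul_inv_eq_one.1 k] at b
    exact cs_inj hl (b.symm.trans b')
  · refine cs_inj hl (γ := g) (γ' := -g') ?_
    rw [← b, mul_inv_eq_iff_eq_mul.1 k, neg_one_mul, Matrix.SpecialLinearGroup.coe_neg,
      Matrix.SpecialLinearGroup.coe_neg, neg_mul, neg_mul, ← b']
    simp [Matrix.adjugate_fin_two]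

theorem adj : ADJ := fun M l _ hl hM => ⟨fun _ => Inv.tdiv hl hM, fun A hA => ⟨hA.tdiv hl hM,
    fun h4 F hF => by
  choose σ hσ using fun p : Qo M × Option (Fin l) => show ∃ p', Co M l p p' by
    obtain ⟨γ, a, b⟩ := ex_out M (mb (al l p.2) p.1.out)
    have c : Cs M l p.2 _ := ⟨γ, a, rfl⟩
    obtain ⟨i, d⟩ := c.adj hl hM
    exact ⟨(_, i), _, c, d, (mb_al hl _ _ _).trans b⟩
  have iv : Function.Involutive σ := fun p => (hσ _).uniq hl h4 ((hσ p).symm hl)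
  have e : ∀ p : Qo M × Option (Fin l), A (mb (al l p.2) p.1.out) * F p.1.out =
      A (σ p).1.out * F (mb (al l (σ p).2) (σ p).1.out) := fun p => by
    obtain ⟨_, ⟨γ, a, rfl⟩, -, c⟩ := hσ p
    obtain ⟨_, ⟨γ', a', rfl⟩, -, c'⟩ := (hσ p).symm hl
    rw [mb_al hl] at c c'
    rw [← hA.inv γ a, c, ← hF γ' a' (mb _ _), c']
  have f : (Function.support fun p : Qo M × Option (Fin l) =>
      A p.1.out * F (mb (al l p.2) p.1.out)).Finite :=
    (hA.sup.prod Set.finite_univ).subset fun p hp => ⟨left_ne_zero_of_mul hp, trivial⟩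
  have f' : (Function.support fun p : Qo M × Option (Fin l) =>
      A (mb (al l p.2) p.1.out) * F p.1.out).Finite :=
    (f.preimage iv.injective.injOn).subset fun p hp => (e p).symm.trans_ne hp
  have := (finsum_curry _ f').symm.trans ((finsum_eq_of_bijective σ iv.bijective e).trans
    (finsum_curry _ f))
  simpa only [ws, Tdiv_eq hl, Finset.sum_mul, Finset.mul_sum, finsum_eq_sum_of_fintype]
    using this⟩⟩

end Vale.Agent.P004Z.Ar
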