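import Vale.Agent.P004Z.Ar.St
import Vale.Agent.P004Z.Hd.Dv

/-! # P004Z, row WS: sums over orbits -/

set_option autoImplicit false
set_option linter.all false

open UpperHalfPlane CongruenceSubgroup
open scoped MatrixGroups Classical

noncomputable section

namespace Vale.Agent.P004Z.Ar

variable {M N : ℕ} {A A' F F' : ℍ → ℂ}

/-- the orbits -/
abbrev Qo (M : ℕ) : Type := MulAction.orbitRel.Quotient (Gamma0 M) ℍ

/-- the orbit of a point -/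
def cl (M : ℕ) (z : ℍ) : Qo M := Quotient.mk _ z

theorem cl_eq {z w : ℍ} : cl M z = cl M w ↔ ∃ γ ∈ Gamma0 M, γ • w = z :=
  Quotient.eq.trans ⟨fun ⟨γ, e⟩ => ⟨γ, γ.2, e⟩, fun ⟨γ, h, e⟩ => ⟨⟨γ, h⟩, e⟩⟩

theorem cl_out (q : Qo M) : cl M q.out = q := Quotient.out_eq q

theorem ex_out (M : ℕ) (z : ℍ) : ∃ γ ∈ Gamma0 M, γ • z = (cl M z).out := cl_eq.1 (cl_out _)

theorem Inv.out {X : Type} {F : ℍ → X} (h : Inv M F) (z : ℍ) : F (cl M z).out = F z := by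
  obtain ⟨γ, a, e⟩ := ex_out M z
  rw [← e, h γ a]

theorem Dv.sup (h : Dv M A) : {q : Qo M | A q.out ≠ 0}.Finite := by
  obtain ⟨s, hs⟩ := h.fin
  refine (s.finite_toSet.image (cl M)).subset fun q hq => ?_
  obtain ⟨γ, a, b⟩ := hs _ hq
  exact ⟨_, b, (cl_eq.2 ⟨γ, a, rfl⟩).trans (cl_out q)⟩

theorem Dv.sup' (h : Dv M A) (F : ℍ → ℂ) :
    (Function.support fun q : Qo M => A q.out * F q.out).Finite :=
  h.sup.subset fun _ hq => left_ne_zero_of_mul hq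

/-- the sum over any parametrisation of the orbits -/
theorem ws_eq (hA : Inv M A) (hF : Inv M F) {ι : Type} {T : Finset ι} {p : ι → ℍ}
    (ex : ∀ z, A z ≠ 0 → ∃ i ∈ T, ∃ γ ∈ Gamma0 M, γ • z = p i)
    (uq : ∀ i ∈ T, ∀ j ∈ T, A (p i) ≠ 0 → ∀ γ ∈ Gamma0 M, γ • p i = p j → i = j) :
    ws M A F = ∑ i ∈ T, A (p i) * F (p i) := by
  rw [← Finset.sum_filter_of_ne (s := T) (p := fun i => A (p i) ≠ 0) fun i _ h =>
    left_ne_zero_of_mul h, ws, finsum_eq_sum_of_support_subset _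
      (s := (T.filter fun i => A (p i) ≠ 0).image fun i => cl M (p i)) fun q hq => ?_,
    Finset.sum_image fun i a j b e => ?_]
  · exact Finset.sum_congr rfl fun i _ => by rw [hA.out, hF.out]
  · obtain ⟨γ, c, d⟩ := cl_eq.1 e.symm
    have a' := Finset.mem_filter.1 a
    exact uq i a'.1 j (Finset.mem_filter.1 b).1 a'.2 γ c d
  · have h := left_ne_zero_of_mul hq
    obtain ⟨i, a, γ, b, c⟩ := ex _ h
    exact Finset.mem_coe.2 (Finset.mem_image.2 ⟨i, Finset.mem_filter.2 ⟨a, by rwa [← c, hA γ b]⟩,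
      (cl_eq.2 ⟨γ, b, c⟩).trans (cl_out q)⟩)

theorem g0_le (h : N ∣ M) : Gamma0 M ≤ Gamma0 N := fun _ a =>
  Hd.g0_dvd.2 ((Int.natCast_dvd_natCast.2 h).trans (Hd.g0_dvd.1 a))

theorem Inv.mono {X : Type} {F : ℍ → X} (h : N ∣ M) (hF : Inv N F) : Inv M F := fun γ a =>
  hF γ (g0_le h a)

/-- coset representatives -/
theorem cosets (hM : 0 < M) (h : N ∣ M) : ∃ R : Finset SL(2, ℤ), (∀ g ∈ R, g ∈ Gamma0 N) ∧
    (∀ γ ∈ Gamma0 N, ∃ g ∈ R, g * γ ∈ Gamma0 M) ∧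
    ∀ g ∈ R, ∀ g' ∈ R, g' * g⁻¹ ∈ Gamma0 M → g = g' := by
  haveI : NeZero M := ⟨hM.ne'⟩
  haveI := Fintype.ofFinite (SL(2, ℤ) ⧸ Gamma0 M)
  refine ⟨(Finset.univ.filter fun c : SL(2, ℤ) ⧸ Gamma0 M => c.out ∈ Gamma0 N).image
    fun c => c.out⁻¹, Finset.forall_mem_image.2 fun c a => inv_mem (Finset.mem_filter.1 a).2,
    fun γ a => ?_, Finset.forall_mem_image.2 fun c _ => Finset.forall_mem_image.2 fun c' _ e => ?_⟩
  · have e := QuotientGroup.eq.1 (QuotientGroup.out_eq' (γ : SL(2, ℤ) ⧸ Gamma0 M))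
    exact ⟨_, Finset.mem_image_of_mem _ (Finset.mem_filter.2 ⟨Finset.mem_univ _, by
      simpa using mul_mem a (inv_mem (g0_le h e))⟩), e⟩
  · rw [inv_inv, ← QuotientGroup.eq, QuotientGroup.out_eq', QuotientGroup.out_eq'] at e
    rw [e]

theorem Dv.mono (hM : 0 < M) (h : N ∣ M) (hA : Dv N A) : Dv M A := by
  obtain ⟨R, _, b, _⟩ := cosets hM h
  obtain ⟨s, hs⟩ := hA.fin
  refine ⟨hA.inv.mono h, (R ×ˢ s).image fun i => i.1 • i.2, fun z hz => ?_⟩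
  obtain ⟨γ, c, d⟩ := hs z hz
  obtain ⟨g, e, f⟩ := b γ c
  exact ⟨_, f, Finset.mem_image.2 ⟨(g, γ • z), Finset.mem_product.2 ⟨e, d⟩, (mul_smul _ _ _).symm⟩⟩

theorem Dv.add (h : Dv M A) (h' : Dv M A') : Dv M (A + A') := by
  obtain ⟨s, hs⟩ := h.fin
  obtain ⟨t, ht⟩ := h'.fin
  refine ⟨fun γ a z => by rw [Pi.add_apply, h.inv γ a, h'.inv γ a, Pi.add_apply], s ∪ t,
    fun z hz => ?_⟩
  by_cases e : A z = 0
  · obtain ⟨γ, a, b⟩ := ht z fun e' => hz (by rw [Pi.add_apply, e, e', add_zero])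
    exact ⟨γ, a, Finset.mem_union_right _ b⟩
  · obtain ⟨γ, a, b⟩ := hs z e
    exact ⟨γ, a, Finset.mem_union_left _ b⟩

theorem ws_add (h : Dv M A) (h' : Dv M A') (F : ℍ → ℂ) :
    ws M (A + A') F = ws M A F + ws M A' F := by
  simp only [ws, Pi.add_apply, add_mul]
  exact finsum_add_distrib (h.sup' F) (h'.sup' F)

theorem Dv.smul (k : ℂ) (h : Dv M A) : Dv M (k • A) :=
  ⟨fun γ a z => by rw [Pi.smul_apply, h.inv γ a, Pi.smul_apply],
    h.fin.imp fun _ hs z hz => hs z (right_ne_zero_of_mul hz)⟩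

theorem ws_smul (k : ℂ) : ws M (k • A) F = k * ws M A F := by
  simp only [ws, Pi.smul_apply, smul_eq_mul, mul_assoc, mul_finsum]

theorem ws_smul' (k : ℂ) : ws M A (k • F) = k * ws M A F := by
  simp only [ws, Pi.smul_apply, smul_eq_mul, mul_left_comm _ k, mul_finsum]

theorem ws_congr (h : ∀ z, A z ≠ 0 → F z = F' z) : ws M A F = ws M A F' :=
  finsum_congr fun q => by
    by_cases e : A q.out = 0
    · rw [e, zero_mul, zero_mul]
    · rw [h _ e]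

theorem ws_reps {n : ℍ → ℤ} {s : Finset ℍ} (hs : Reps (Gamma0 M) n s) (hn : Inv M n)
    (hF : Inv M F) : ws M (cs n) F = evd s n F :=
  ws_eq (p := id) (fun γ a z => congrArg Int.cast (hn γ a z)) hF
    (fun z hz => by
      obtain ⟨γ, a, b⟩ := hs.ex z (Int.cast_ne_zero.1 hz)
      exact ⟨_, b, γ, a, rfl⟩) fun i a j b _ γ c d => hs.uq i a j b γ c d

theorem Dv.reps {n : ℍ → ℤ} (h : Dv M (cs n)) : ∃ s, Reps (Gamma0 M) n s := by
  obtain ⟨s, hs⟩ := h.fin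
  exact Hd.ex_reps (fun γ a z => Int.cast_injective (h.inv γ a z)) s.finite_toSet fun z hz =>
    hs z (Int.cast_ne_zero.2 hz)

theorem ws_row : WS := fun _ hM => ⟨fun _ _ h h' => ⟨h.add h', ws_add h h'⟩,
  fun k _ => ⟨Dv.smul k, fun _ => ⟨ws_smul k, ws_smul' k⟩⟩, fun _ _ _ _ _ _ => ws_congr,
  fun _ _ _ => ws_reps, fun _ => Dv.reps, fun _ _ => Dv.mono hM⟩

end Vale.Agent.P004Z.Ar
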