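import Vale.Agent.P004Z.Ar.Ae0
import Vale.Agent.P004Z.Ar.Ws
import Vale.Agent.P004Z.Ar.Rel
import Vale.Agent.P004Z.EF.Quot

/-! # P004Z, row AE: the easy half of the theorem of Abel -/

set_option autoImplicit false
set_option linter.all false

open UpperHalfPlane CongruenceSubgroup Filter Topology
open scoped MatrixGroups

noncomputable section

namespace Vale.Agent.P004Z.Ar

open Vale.Agent.P022.H218.L3 Vale.Agent.P022K.F0.Cf
open Vale.Agent.P019P (CFF Plk ord dv dv_apply dg_dv dg)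
open Vale.Agent.P027H (IsLat wp dwp g2 g3)
open Vale.Agent.P297Y (Jac.ev_eq Jac.mem_of_sub Jac.mem_iff)

namespace Ae

theorem val_ev {τ : ℍ} {x : Mer} {c : ℂ} (h : EF.Val τ x c) : Reg τ x ∧ ev τ x = c := by
  obtain ⟨g, k, k0, e, e'⟩ := h
  exact ⟨⟨g, k, k0, e⟩, by rw [ev_eq k0 e, div_eq_iff k0]; exact e'⟩

theorem cont {g : ℍ → ℂ} (hg : g ∈ Hol) : Continuous g := MDifferentiable.continuous hg

theorem ev_loc {τ : ℍ} {x : Mer} (h : Reg τ x) : ∃ φ : ℍ → ℂ, ContinuousAt φ τ ∧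
    ∀ᶠ σ in 𝓝 τ, ev σ x = φ σ := by
  obtain ⟨g, k, k0, e⟩ := h
  exact ⟨_, (cont g.2).continuousAt.div (cont k.2).continuousAt k0,
    ((cont k.2).continuousAt.eventually_ne k0).mono fun σ h => ev_eq h e⟩

theorem ev_hol {g : ℍ → ℂ} (hg : g ∈ Hol) (τ : ℍ) (c : ℂ) :
    (g = fun _ => c) ∨ ∀ᶠ σ in 𝓝[≠] τ, g σ ≠ c := by
  refine ((EF.Qt.an hg τ).eventually_eq_or_eventually_ne (g := fun _ => c)
    analyticAt_const).imp (fun h => funext fun σ => ?_) fun h => ?_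
  · simpa using AnalyticOnNhd.eqOn_of_preconnected_of_eventuallyEq (U := {z : ℂ | 0 < z.im})
      (fun z hz => EF.Qt.an hg ⟨z, hz⟩) analyticOnNhd_const
      (convex_halfSpace_im_gt 0).isPreconnected τ.im_pos h σ.im_pos
  · have := (continuous_coe.continuousWithinAt.tendsto_nhdsWithin (s := {τ}ᶜ) (t := {(τ : ℂ)}ᶜ)
      fun σ k e => k (UpperHalfPlane.ext e)).eventually h
    simpa using this

variable {N : ℕ} {a : ℕ → ℤ} (D : Pz N a)

theorem tend (τ : ℍ) : Tendsto (fun σ => D.I σ - D.I τ) (𝓝[≠] τ) (𝓝[≠] 0) :=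
  tendsto_nhdsWithin_iff.2 ⟨by
    simpa using (((cont D.hol).tendsto τ).sub_const (D.I τ)).mono_left nhdsWithin_le_nhds,
    ((ev_hol D.hol τ _).resolve_left (D.nc _)).mono fun σ => sub_ne_zero.2⟩

theorem ev_not (τ : ℍ) : ∀ᶠ σ in 𝓝[≠] τ, D.I σ ∉ D.Λ := by
  by_cases h : D.I τ ∈ D.Λ
  · exact ((tend D τ).eventually D.par.lat.notMem_zero).mono fun σ k e => k (sub_mem e h)
  · exact (((cont D.hol).tendsto τ).eventually (D.par.lat.notMem_nhds h)).filter_mono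
      nhdsWithin_le_nhds

instance (τ : ℍ) : (𝓝[≠] τ).NeBot := by
  refine ⟨fun e => ?_⟩
  have := isOpenEmbedding_coe.map_nhdsWithin_preimage_eq {(τ : ℂ)}ᶜ τ
  rw [show UpperHalfPlane.coe ⁻¹' {(τ : ℂ)}ᶜ = {τ}ᶜ by ext; simp, e,
    Filter.map_bot] at this
  exact NeBot.ne inferInstance this.symm

theorem pole {τ : ℍ} (h : D.I τ ∈ D.Λ) : ¬ Reg τ D.x := fun k => by
  obtain ⟨φ, c, e⟩ := ev_loc k
  have t := tend D τ
  refine one_ne_zero ((tendsto_nhds_unique_of_eventuallyEq (D.par.lat.tendsto_wp.comp t)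
    (((t.mono_right nhdsWithin_le_nhds).pow 2).mul (c.tendsto.mono_left nhdsWithin_le_nhds)) ?_).trans
    (by simp))
  filter_upwards [e.filter_mono nhdsWithin_le_nhds, ev_not D τ] with σ e n
  rw [← e, (val_ev (D.par.xv σ n)).2, Function.comp,
    D.par.lat.wp_congr (w := D.I σ) (by simpa using h)]

theorem cubic : 2 * D.y * (2 * D.y) = 4 * (D.x * D.x * D.x) - algebraMap ℂ Mer (g2 D.Λ) * D.x -
    algebraMap ℂ Mer (g3 D.Λ) := by
  have c : ∀ (τ : ℍ) (c : ℂ), Reg τ (algebraMap ℂ Mer c) := fun τ c => jm_const c ▸ reg_jm τ _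
  have k : ∀ τ, D.I τ ∉ D.Λ → ∃ r, r = algebraMap ℂ Mer (-4) * (D.y * D.y) + (algebraMap ℂ Mer 4 *
      (D.x * D.x * D.x) + (algebraMap ℂ Mer (-g2 D.Λ) * D.x + algebraMap ℂ Mer (-g3 D.Λ))) ∧
      Reg τ r ∧ ev τ r = 0 := fun τ n => by
    obtain ⟨x1, x2⟩ := val_ev (D.par.xv τ n)
    obtain ⟨y1, y2⟩ := val_ev (D.par.yv τ n)
    have k1 := (c τ (-4)).mul (y1.mul y1)
    have k2 := (c τ 4).mul ((x1.mul x1).mul x1)
    have k3 := (c τ (-g2 D.Λ)).mul x1
    refine ⟨_, rfl, k1.add (k2.add (k3.add (c τ _))), ?_⟩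
    rw [ev_add k1 (k2.add (k3.add (c τ _))), ev_add k2 (k3.add (c τ _)), ev_add k3 (c τ _),
      ev_mul (c τ _) (y1.mul y1), ev_mul y1 y1, ev_mul (c τ _) ((x1.mul x1).mul x1),
      ev_mul (x1.mul x1) x1, ev_mul x1 x1, ev_mul (c τ _) x1, x2, y2]
    simp only [ev_const]
    linear_combination -D.par.lat.ode n
  obtain ⟨τ, n⟩ := (ev_not D I).exists
  obtain ⟨r, e, ⟨g, h, h0, e1⟩, -⟩ := k τ n
  have g0 : g = 0 := Subtype.ext ((ev_hol g.2 τ 0).resolve_right fun l => by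
    obtain ⟨σ, l1, l2, l3⟩ := (l.and ((ev_not D τ).and (((cont h.2).continuousAt.eventually_ne
      h0).filter_mono nhdsWithin_le_nhds))).exists
    obtain ⟨_, rfl, -, l4⟩ := k σ l2
    rw [← e, ev_eq l3 e1] at l4
    exact div_ne_zero l1 l3 l4)
  rw [g0, jm, jm, map_zero, mul_eq_zero, or_iff_left (jm_ne' h0), e] at e1
  simp only [map_neg, map_ofNat] at e1
  linear_combination -e1

end Ae

open Ae

/-- **Abel, the easy half** -/
theorem ae (hP : PLC) (hF : FUN) : AE := fun N a D n Ψ hN hU => by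
  have M0 : 0 < 4 * N := by positivity
  have le : Gamma0 (4 * N) ≤ Gamma0 N := g0_le (dvd_mul_left N 4)
  have hU' : Un (4 * N) n 0 Ψ := ⟨hU.mero, hU.cus, fun γ h => hU.law γ (le h)⟩
  obtain ⟨_, pt, o, q, j⟩ := hP _ M0 (dvd_mul_right 4 N)
  obtain ⟨h, h0, c, hn⟩ := (hF _ M0).1 n Ψ hU'
  let x : MF (Gamma0 (4 * N)) := ⟨D.x, MF_mono le D.par.xm⟩
  let y : MF (Gamma0 (4 * N)) := ⟨D.y, MF_mono le D.par.ym⟩
  obtain ⟨u, u1, u2, u3⟩ := abel D.par.lat (x := x) (y := 2 * y) (Subtype.ext (cubic D))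
  have val : ∀ τ (f : MF (Gamma0 (4 * N))) c, EF.Val τ (f : Mer) c →
      f - algebraMap ℂ _ c ∈ P019P.Mge (pt τ) 1 := fun τ f c k => by
    obtain ⟨k1, k2⟩ := val_ev k
    refine (eq_or_ne _ 0).imp_right fun e => ?_
    have r : Reg τ (algebraMap ℂ Mer (-c)) := jm_const (-c) ▸ reg_jm τ _
    have e1 : ((f - algebraMap ℂ _ c : MF (Gamma0 (4 * N))) : Mer) = f + algebraMap ℂ Mer (-c) := by
      rw [map_neg, ← sub_eq_add_neg]; rfl
    rw [o]
    refine (ev_eq_zero (fun k => e (Subtype.ext k)) (e1 ▸ k1.add r)).1 ?_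
    rw [e1, ev_add k1 r, k2, ev_const, add_neg_cancel]
  have hu : ∀ τ, D.I τ - u (pt τ) ∈ D.Λ := fun τ => by
    by_cases k : D.I τ ∈ D.Λ
    · refine sub_mem k (u2 _ fun l => pole D k (reg_iff.2 ?_))
      exact ((P019P.mem_iff_ord _ _).1 l).imp (congrArg Subtype.val) fun l => o τ x ▸ l
    · have k1 := val τ x _ (D.par.xv τ k)
      have k2 := val τ y _ (D.par.yv τ k)
      obtain ⟨l1, l2, l3⟩ := u1 _ (Jac.mem_of_sub k1)
      refine D.par.lat.sub_mem_of_eq k l1 (by rw [l2, Jac.ev_eq k1]) ?_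
      rw [l3, two_mul, P297Y.Jac.ev_add (Jac.mem_of_sub k2) (Jac.mem_of_sub k2), Jac.ev_eq k2,
        add_halves]
  choose! p hp using fun P => (j P).1
  have hp' : ∀ Q ∈ (dv ℂ h).support, pt (p Q) = Q := fun Q k => hp Q (by
    by_contra l
    have k1 := ((P019P.mem_iff_ord _ _).1 (c Q l).1).resolve_left h0
    have k2 := ((P019P.mem_iff_ord _ _).1 (c Q l).2).resolve_left (inv_ne_zero h0)
    rw [P019P.ord_inv] at k2
    exact Finsupp.mem_support_iff.1 k ((dv_apply h Q).trans (by omega)))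
  have key : ∀ F, Inv (4 * N) F →
      ws (4 * N) (cs n) F = ∑ Q ∈ (dv ℂ h).support, dv ℂ h Q * F (p Q) := fun F hF => by
    rw [ws_eq (T := (dv ℂ h).support) (p := p) (fun γ k z => congrArg Int.cast (hU'.inv γ k z)) hF
      (fun z k => ?_) fun P k Q l _ γ g e => ?_]
    · exact Finset.sum_congr rfl fun Q k => by rw [cs, ← (hn _).1, ← o, hp' Q k, dv_apply]
    · have : pt z ∈ (dv ℂ h).support := Finsupp.mem_support_iff.2 (by
        rw [dv_apply, o, (hn z).1]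
        exact Int.cast_ne_zero.1 k)
      exact ⟨_, this, (q _ _).1 (hp' _ this).symm⟩
    · rw [← hp' P k, (q _ _).2 ⟨γ, g, e⟩, hp' Q l]
  refine ⟨?_, fun l hl => ?_⟩
  · rw [key 1 fun _ _ _ => rfl]
    have := dg_dv (k := ℂ) h
    rw [dg, Finsupp.liftAddHom_apply] at this
    simp only [Pi.one_apply, mul_one]
    exact_mod_cast this
  · rw [key _ fun γ k z => sub_eq_zero.1 ((map_sub l _ _).symm.trans (hl _ (D.inv γ (le k) z))),
      ← hl _ (u3 h h0), Finsupp.sum, map_sum]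
    refine Finset.sum_congr rfl fun Q k => ?_
    have := hl _ (hu (p Q))
    rw [map_sub, sub_eq_zero, hp' Q k] at this
    rw [map_zsmul, zsmul_eq_mul, Function.comp, this]

end Vale.Agent.P004Z.Ar
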