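import Vale.Agent.P004Z.Ar.Ao0
import Vale.Agent.P004Z.Gl.Lin

/-! # P004Z, rows TORS and AREG: torsion, the even case -/

set_option autoImplicit false
set_option linter.all false

open UpperHalfPlane CongruenceSubgroup
open scoped MatrixGroups Classical NumberTheorySymbols

noncomputable section

namespace Vale.Agent.P004Z.Ar

theorem evd_comp (s : Finset ℍ) (B : ℍ → ℤ) (l : ℂ →+ ℂ) (F : ℍ → ℂ) :
    evd s B (l ∘ F) = l (evd s B F) := by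
  simp only [evd, map_sum, ← zsmul_eq_mul, map_zsmul, Function.comp]

theorem Pz.Ki.inv {N : ℕ} {a : ℕ → ℤ} {D : Pz N a} {l : ℂ →+ ℂ} (h : D.Ki l) : Inv N (l ∘ D.I) :=
  fun γ g z => sub_eq_zero.1 ((l.map_sub _ _).symm.trans (h _ (D.inv γ g z)))

theorem Pz.ex_evd {N : ℕ} {a : ℕ → ℤ} (D : Pz N a) (s : Finset ℍ) (B : ℍ → ℤ) (k : ℕ) :
    k • ∑ b ∈ s, B b • D.pi b = 0 ↔ k * evd s B D.I ∈ D.Λ := by
  simp only [← D.ker, evd, ← zsmul_eq_mul, ← nsmul_eq_mul, map_nsmul, map_sum, map_zsmul, Pz.pi]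

theorem tors (hW : WN) : TORS := by
  intro N _ a D L δ δ' β s hL hd hs ⟨k, hk, e⟩ t ht
  obtain ⟨i, hi, h⟩ := hW N δ δ' β hd
  obtain ⟨m, hm, e'⟩ := lq (Λ := D.Λ) (u := evd t (Bd N δ δ' β) D.I) fun l hl => by
    have h1 := hl _ ((D.ex_evd _ _ _).1 e)
    have h2 := (h t _ ht (Pz.Ki.inv hl)).1.symm.trans (h s _ hs (Pz.Ki.inv hl)).1
    rw [← nsmul_eq_mul, map_nsmul, smul_eq_zero_iff_right hk.ne'] at h1
    rw [evd_comp, evd_comp, h1, mul_zero] at h2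
    exact (mul_eq_zero.1 h2).resolve_left (Nat.cast_ne_zero.2 hi.ne')
  obtain ⟨γ, hγ, e1⟩ := (D.par.per _).1 e'
  obtain ⟨w, hw, e2⟩ := hL.1 γ hγ
  have w0 : (D.w : ℂ) ≠ 0 := Nat.cast_ne_zero.2 D.par.wpos.ne'
  refine ⟨m, hm, ?_⟩
  have e3 := e1 UpperHalfPlane.I
  simp only [D.par.I_eq, evd, ← sub_div, e2, ← mul_div_assoc, ← Finset.sum_div,
    div_left_inj' w0] at e3
  exact e3 ▸ hw

theorem areg : AREG := by
  intro hD _ hG hU hP hW hX hT N _ G a L δ δ' β ε hR hL hd hA hε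
  obtain ⟨D⟩ := hU N G a hR
  obtain ⟨s, hs⟩ := (hD N δ hd.ok (δ * δ') ((β * δ : ℤ) : ZMod (2 * N))).2.2.2 _ inferInstance le_rfl
  have g := fun l hl => ((hX N _ G a D hR (hG N δ δ' β hd).1.ok1).2 l hl).1
  by_cases h : ∀ l, D.Ki l → l (evd s (Bd N δ δ' β) D.I) = 0
  · obtain ⟨k, hk, e⟩ := lq h
    exact ⟨_, g 0 fun _ _ => rfl, fun _ =>
      hT N a D L δ δ' β s hL hd hs ⟨k, hk, (D.ex_evd _ _ _).2 e⟩⟩
  push Not at h
  obtain ⟨l, hl, h⟩ := h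
  refine ⟨_, g l hl, fun e => absurd e ?_⟩
  obtain ⟨i, hi, h1⟩ := hW N δ δ' β hd
  obtain ⟨C, hC⟩ := (hP.2 N G a D hR).2 ε hA
  have hm : (eps δ * J(N | δ)) * (eps δ * J(N | δ)) = 1 := by
    rw [mul_mul_mul_comm, Gl.eps_sq, ← sq, jacobiSym.sq_one (by simpa using hd.ok.cop), one_mul]
  generalize eps δ * J(N | δ) = m at *
  obtain rfl : ε = (-m : ℤ) := by
    have : (m : ℝ) * m = 1 := by exact_mod_cast hm
    push_cast
    linear_combination m * hε - ε * this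
  rw [((h1 s _ hs hl.inv).2 (-m : ℤ) (l C) fun z z' e => by
    simp only [Function.comp, hC z z' e, Complex.ofReal_intCast, ← zsmul_eq_mul, map_add,
      map_zsmul]).2, evd_comp, ← Int.cast_mul, neg_mul, hm]
  simp [hi.ne', h]

end Vale.Agent.P004Z.Ar
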