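import Vale.Agent.P004Z.Ar.Fun0
import Vale.Agent.P004Z.Ar.The

/-! # P004Z, rows FUN and PK -/

set_option autoImplicit false

open UpperHalfPlane CongruenceSubgroup Filter Topology Function.Periodic
open scoped MatrixGroups Classical

noncomputable section

namespace Vale.Agent.P004Z.Ar

open Vale.Agent.P022.H218.L3 Vale.Agent.P022.H236.L3 Vale.Agent.P004H.H666
open Vale.Agent.P022K.F0.Cf hiding MF
open Vale.Agent.P004Z.Bo (MAt)
open Vale.Agent.P027H (IsLat wp)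

namespace Fn

theorem ex_T (Γ : Subgroup SL(2, ℤ)) [Γ.FiniteIndex] : ∃ n : ℕ, 0 < n ∧ ∀ g : SL(2, ℤ),
    ∃ γ ∈ Γ, ∀ τ : ℍ, g • ModularGroup.T ^ n • τ = γ • g • τ := by
  obtain ⟨n, hn, -, hT⟩ := Subgroup.exists_pow_mem_of_index_ne_zero
    (Subgroup.FiniteIndex.index_ne_zero (H := Γ.normalCore)) ModularGroup.T
  exact ⟨n, hn, fun g => ⟨_, Γ.normalCore_le (Γ.normalCore_normal.conj_mem _ hT g), fun τ => by
    rw [mul_smul, mul_smul, inv_smul_smul]⟩⟩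

theorem ev_im (y : ℝ) : ∀ᶠ z : ℍ in atImInfty, y < z.im :=
  tendsto_comap.eventually (eventually_gt_atTop y)

theorem fun1 {N : ℕ} [NeZero N] {n : ℍ → ℤ} {Ψ : ℍ → ℂ} (h : Un N n 0 Ψ) :
    ∃ x : MF (Gamma0 N), x ≠ 0 ∧ CuM x ∧ ∀ τ, od τ (x : Mer) = n τ ∧ ev τ (x : Mer) = Ψ τ := by
  have i : ∀ γ ∈ Gamma0 N, ∀ τ, Ψ (γ • τ) = Ψ τ := fun γ m τ => by simpa [ee] using h.law γ m τ
  obtain ⟨M, hM, hT⟩ := ex_T (Gamma0 N)
  have c : ∀ g : SL(2, ℤ), (∀ᶠ τ : ℍ in atImInfty, n (g • τ) = 0) ∧ ∃ φ, AnalyticAt ℂ φ 0 ∧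
      φ 0 ≠ 0 ∧ ∀ τ : ℍ, Ψ (g • τ) = φ (qParam M τ) := fun g => by
    obtain ⟨C, y, C0, k⟩ := h.cus g
    obtain ⟨γ, m, e⟩ := hT g
    have a : ∀ᶠ τ : ℍ in atImInfty, n (g • τ) = 0 := (ev_im y).mono fun τ b =>
      (MAt.val (h.mero _)).1 (norm_pos_iff.1 ((inv_pos.2 C0).trans_le (k τ b).1))
    obtain ⟨φ, b, d⟩ := cusp (F := fun τ => Ψ (g • τ)) hM (fun τ => by rw [e, i γ m])
      (a.mono fun τ b => (MAt.an (MAt.smul (b ▸ h.mero (g • τ)))).differentiableAt)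
      (Asymptotics.IsBigO.of_bound C ((ev_im y).mono fun τ b => by simpa using (k τ b).2))
    refine ⟨a, φ, b, norm_pos_iff.1 ((inv_pos.2 C0).trans_le (ge_of_tendsto
      (b.continuousAt.tendsto.comp (qParam_tendsto_atImInfty (h := M) (by exact_mod_cast hM))).norm
      ((ev_im y).mono fun τ b => ?_))), d⟩
    rw [Function.comp_apply, ← d]
    exact (k τ b).1
  obtain ⟨x, hx, v⟩ := EF.quot (Gamma0 N) Ψ i (fun τ => MAt.mero (h.mero τ)) fun g =>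
    (c g).2.elim fun φ k => ⟨M, φ, hM, k.1.meromorphicAt, k.2.2⟩
  have o := fun τ => od_of (y := x) (h.mero τ) ((Bo.iso h.mero τ).mono fun z a b =>
    (val_ev (v z (MAt.an (a b ▸ h.mero z)))).2)
  refine ⟨⟨x, hx⟩, fun e => (o I).1 (congrArg Subtype.val e), cum_iff.2 fun g => ?_,
    fun τ => (o τ).2⟩
  obtain ⟨a, φ, b, d, e⟩ := c g
  have t : Tendsto (fun τ => ev τ (act g⁻¹ x)) atImInfty (𝓝 (φ 0)) := by
    simp only [ev_act, (o _).2.2, e]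
    exact b.continuousAt.tendsto.comp (qParam_tendsto_atImInfty (h := M) (by exact_mod_cast hM))
  refine ⟨⟨a.mono fun τ k => reg_iff.2 (.inr ?_), _, t⟩, a.mono fun τ k => reg_iff.2 (.inr ?_),
    _, (t.inv₀ d).congr fun τ => by rw [act_inv, ev_inv]⟩
  · rw [od_act, (o _).2.1, k]
  · rw [od_act, od_inv, (o _).2.1, k, neg_zero]

theorem fun2 {N : ℕ} [NeZero N] {x : MF (Gamma0 N)} (h0 : x ≠ 0) (h : CuM x) :
    Un N (fun τ => od τ (x : Mer)) 0 fun τ => ev τ (x : Mer) := by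
  have x0 : (x : Mer) ≠ 0 := fun e => h0 (Subtype.ext e)
  refine ⟨mat_ev x0, fun g => ?_, fun γ m τ => by rw [ev_MF x.2 m]; simp [ee]⟩
  obtain ⟨⟨a, c, b⟩, a', c', b'⟩ := cum_iff.1 h g
  simp only [reg_act] at a a'
  simp only [ev_act, ev_inv, reg_iff, od_inv, inv_eq_zero, x0, false_or] at a a' b b'
  obtain ⟨y, hy⟩ := (atImInfty_mem _).1 ((a.and a').and
    ((b.norm.eventually (gt_mem_nhds (lt_add_one _))).and
      (b'.norm.eventually (gt_mem_nhds (lt_add_one _)))))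
  have := norm_nonneg c
  have := norm_nonneg c'
  refine ⟨‖c‖ + ‖c'‖ + 1, y, by positivity, fun z hz => ?_⟩
  obtain ⟨⟨k1, k2⟩, k3, k4⟩ := hy z hz.le
  rw [norm_inv] at k4
  exact ⟨inv_le_of_inv_le₀ (norm_pos_iff.2 ((mat_ev x0 _).val.2 (by omega))) (by linarith),
    by linarith⟩

theorem th_loc {Λ : Submodule ℤ ℂ} {θ : ℂ → ℂ} {b : ℝ} (h : Th Λ θ b) (u m : ℂ) :
    ∃ s, AnalyticAt ℂ s u ∧ s u ≠ 0 ∧
      ∀ z, θ (z - m) = (z - u) ^ (if u - m ∈ Λ then 1 else 0 : ℤ) * s z := by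
  have a := h.an
  split_ifs with k
  · obtain ⟨η, n, e⟩ := h.law _ k
    have d := Te.dsl a 0
    refine ⟨fun z => η * Complex.exp (b * (starRingEnd ℂ) (u - m) * (z - u + (u - m) / 2)) *
      dslope θ 0 (z - u), Differentiable.analyticAt (by fun_prop) u, ?_, fun z => ?_⟩
    · simp only [sub_self, dslope_same, h.d0, mul_one]
      exact mul_ne_zero (norm_ne_zero_iff.1 (by simp [n])) (Complex.exp_ne_zero _)
    · rw [show z - m = z - u + (u - m) by ring, e, Te.eq_dsl ((h.zero 0).2 Λ.zero_mem) (z - u)]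
      simp only [zpow_one, sub_zero]
      ring
  · exact ⟨fun z => θ (z - m), Differentiable.analyticAt (by fun_prop) u, h.ne' k,
      fun z => by simp⟩

end Fn

open Fn

theorem fun_row : FUN := fun N hN =>
  have : NeZero N := ⟨hN.ne'⟩
  ⟨fun _ _ => fun1, fun _ => fun2⟩

namespace Pz

variable {N : ℕ} {a : ℕ → ℤ} (D : Pz N a)

theorem loc_I (τ : ℍ) : 0 < D.e τ ∧ ∃ w : ℂ → ℂ, AnalyticAt ℂ w τ ∧ w τ ≠ 0 ∧
    ∀ᶠ z : ℍ in 𝓝 τ, D.I z - D.I τ = ((z : ℂ) - τ) ^ D.e τ * w z := by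
  have h := fun σ => (an ⟨D.I, D.hol⟩ σ).sub (analyticAt_const (v := D.I τ))
  have h1 : analyticOrderAt (fun z => D.I (ofComplex z) - D.I τ) τ ≠ ⊤ := fun k =>
    D.nc (D.I τ) (funext fun σ => by
      simpa [sub_eq_zero] using AnalyticOnNhd.eqOn_zero_of_preconnected_of_eventuallyEq_zero
        (U := {z : ℂ | 0 < z.im}) (fun z hz => h ⟨z, hz⟩)
        (convex_halfSpace_im_gt 0).isPreconnected τ.im_pos (analyticOrderAt_eq_top.1 k) σ.im_pos)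
  obtain ⟨w, b, c, d⟩ := (AnalyticAt.analyticOrderAt_ne_top (h τ)).1 h1
  have e : ∀ᶠ z : ℍ in 𝓝 τ, D.I z - D.I τ = ((z : ℂ) - τ) ^ D.e τ * w z :=
    (Bo.ev_coe.1 d).mono fun z k => by simpa using! k
  refine ⟨Nat.pos_of_ne_zero fun k => c ?_, w, b, c, e⟩
  simpa [k] using e.self_of_nhds.symm

theorem tend_I (τ : ℍ) {p : ℂ → Prop} (h : ∀ᶠ u in 𝓝[≠] (D.I τ), p u) :
    ∀ᶠ z in 𝓝 τ, z ≠ τ → p (D.I z) := by
  obtain ⟨-, w, b, c, d⟩ := D.loc_I τ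
  filter_upwards [d, Bo.ev_coe.1 (b.continuousAt.eventually_ne c),
    (cont ⟨D.I, D.hol⟩).continuousAt.eventually (eventually_nhdsWithin_iff.1 h)] with z k1 k2 k3 k4
  exact k3 (sub_ne_zero.1 (k1 ▸ mul_ne_zero (pow_ne_zero _ (sub_ne k4)) k2))

theorem od_comp (τ : ℍ) {y : Mer} {G v : ℂ → ℂ} {k : ℤ} (hv : AnalyticAt ℂ v (D.I τ))
    (v0 : v (D.I τ) ≠ 0) (hG : ∀ᶠ u in 𝓝[≠] (D.I τ), G u = (u - D.I τ) ^ k * v u)
    (hy : ∀ᶠ z in 𝓝 τ, z ≠ τ → ev z y = G (D.I z)) : y ≠ 0 ∧ od τ y = D.e τ * k := by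
  obtain ⟨-, w, b, c, d⟩ := D.loc_I τ
  have := od_of (y := y) (τ := τ) (k := D.e τ * k)
    (Ψ := fun z => ((z : ℂ) - τ) ^ (D.e τ * k) * (w z ^ k * v (D.I (ofComplex z))))
    ⟨fun z => w z ^ k * v (D.I (ofComplex z)), (b.zpow c).mul
      (AnalyticAt.comp (g := v) (by simpa using hv) (an ⟨D.I, D.hol⟩ τ)),
      mul_ne_zero (zpow_ne_zero _ c) (by simpa using v0), .of_forall fun _ => rfl⟩ (by
    filter_upwards [d, hy, D.tend_I τ hG] with z k1 k2 k3 k4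
    rw [k2 k4, k3 k4, k1, ofComplex_apply, mul_zpow, zpow_mul, zpow_natCast, mul_assoc])
  exact ⟨this.1, this.2.1⟩

/-- the expansion at the cusps -/
theorem cusp_I [NeZero N] (g : SL(2, ℤ)) : ∃ (n : ℕ) (φ : ℂ → ℂ), 0 < n ∧ AnalyticAt ℂ φ 0 ∧
    ∀ τ : ℍ, D.I (g • τ) = φ (qParam n τ) := by
  obtain ⟨n, hn, hT⟩ := ex_T (Gamma0 N)
  obtain ⟨γ, m, e⟩ := hT g
  obtain ⟨c, hc⟩ := D.lim g
  have h1 := comp_mem g D.hol
  refine ⟨n, (cusp hn (fun τ => sub_eq_zero.1 (congrFun (ExL.hol_zero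
    (Hol.sub_mem (comp_mem (ModularGroup.T ^ n) h1) h1) ((ExL.zero 1).congr ?_)) τ))
    (.of_forall fun τ => (an ⟨_, h1⟩ τ).differentiableAt) (hc.isBigO_one ℝ)).imp fun _ k => ⟨hn, k⟩⟩
  have t : Tendsto (fun τ : ℍ => ModularGroup.T ^ n • τ) atImInfty atImInfty :=
    tendsto_comap_iff.2 (tendsto_comap.congr fun τ => by
      rw [Function.comp_apply, ← zpow_natCast, ModularGroup.im_T_zpow_smul])
  have := (hc.comp t).sub hc
  rw [sub_self] at this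
  filter_upwards [this.eventually (eventually_nhdsWithin_iff.1 D.par.lat.notMem_zero)] with τ k
  refine (not_not.1 fun z => k z ?_).symm
  rw [Function.comp_apply, e]
  exact D.inv γ m _

theorem ex_xm [NeZero N] (m : ℂ) : ∃ x ∈ MF (Gamma0 N), ∀ τ, D.I τ - m ∉ D.Λ →
    EF.Val τ x (wp D.Λ (D.I τ - m)) := by
  have hL := D.par.lat
  have w : ∀ z, MeromorphicAt (wp D.Λ) z := by
    obtain ⟨L, e⟩ := hL
    rw [← e]
    exact L.meromorphic_weierstrassP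
  have h := fun τ => (an ⟨D.I, D.hol⟩ τ).sub (analyticAt_const (v := m))
  obtain ⟨x, h1, h2⟩ := EF.quot (Gamma0 N) (fun τ => wp D.Λ (D.I τ - m))
    (fun γ k τ => hL.wp_congr (by simpa using D.inv γ k τ))
    (fun τ => (w _).comp_analyticAt (h τ)) fun g => by
      obtain ⟨n, φ, b, c, d⟩ := D.cusp_I g
      exact ⟨n, _, b, (w _).comp_analyticAt (c.sub (analyticAt_const (v := m))), fun τ => by
        rw [d]; rfl⟩
  exact ⟨x, h1, fun τ k => h2 τ (AnalyticAt.comp (g := wp D.Λ)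
    (hL.analyticAt_wp (by simpa using k)) (h τ))⟩

theorem pi_iff (τ : ℍ) (m : ℂ) : D.pi τ = D.ex m ↔ D.I τ - m ∈ D.Λ := by
  rw [← D.ker, map_sub, sub_eq_zero, pi]

theorem od_xm {m ζ : ℂ} {x : Mer} (hx : ∀ τ, D.I τ - m ∉ D.Λ → EF.Val τ x (wp D.Λ (D.I τ - m)))
    (hζ : ζ ∉ D.Λ) (τ : ℍ) : (∀ᶠ z in 𝓝 τ, z ≠ τ → D.I z - m ∉ D.Λ) ∧
    x - algebraMap ℂ Mer (wp D.Λ ζ) ≠ 0 ∧ od τ (x - algebraMap ℂ Mer (wp D.Λ ζ)) = D.e τ *
      ((if D.I τ - (m + ζ) ∈ D.Λ then 1 else 0) + (if D.I τ - (m - ζ) ∈ D.Λ then 1 else 0) -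
        if D.I τ - m ∈ D.Λ then 2 else 0) := by
  obtain ⟨θ, b, h⟩ := the _ D.par.lat
  obtain ⟨s0, a0, b0, c0⟩ := th_loc h (D.I τ) m
  obtain ⟨s1, a1, b1, c1⟩ := th_loc h (D.I τ) (m + ζ)
  obtain ⟨s2, a2, b2, c2⟩ := th_loc h (D.I τ) (m - ζ)
  have z0 := h.ne' hζ
  have n : ∀ᶠ u in 𝓝[≠] (D.I τ), u - D.I τ ≠ 0 ∧ s0 u ≠ 0 :=
    (eventually_mem_nhdsWithin.mono fun u k => sub_ne_zero.2 k).and
      (nhdsWithin_le_nhds (a0.continuousAt.eventually_ne b0))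
  have n' : ∀ᶠ u in 𝓝[≠] (D.I τ), u - m ∉ D.Λ := n.mono fun u k e =>
    mul_ne_zero (zpow_ne_zero _ k.1) k.2 ((c0 u).symm.trans ((h.zero _).2 e))
  refine ⟨D.tend_I τ n', D.od_comp τ (G := fun u => wp D.Λ (u - m) - wp D.Λ ζ)
    (v := fun u => -(s2 u * s1 u) / (s0 u ^ 2 * θ ζ ^ 2))
    ((a2.mul a1).neg.div ((a0.pow 2).mul analyticAt_const) (by simp [b0, z0])) (by simp [*]) ?_ ?_⟩
  · filter_upwards [n, n'] with u k1 k2
    have := k1.1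
    have := k1.2
    rw [h.sub D.par.lat k2 hζ, show u - m + ζ = u - (m - ζ) by ring, sub_sub u m ζ, c0, c1, c2]
    split_ifs <;> norm_num [zpow_ofNat] <;> field_simp
  · filter_upwards [D.tend_I τ n'] with z k1 k2
    obtain ⟨r, e⟩ := val_ev (hx z (k1 k2))
    rw [ev_sub r (reg_const z _), ev_const, e]

end Pz

theorem pk : PK := fun N a D hN => by
  have : NeZero N := ⟨hN.ne'⟩
  have k : ∀ M : D.E, ∃ m x, D.ex m = M ∧ x ∈ MF (Gamma0 N) ∧ (M = 0 → x = D.x) ∧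
      ∀ τ, D.I τ - m ∉ D.Λ → EF.Val τ x (wp D.Λ (D.I τ - m)) := fun M => by
    by_cases h : M = 0
    · exact ⟨0, D.x, (map_zero _).trans h.symm, D.par.xm, fun _ => rfl, by
        simpa only [sub_zero] using D.par.xv⟩
    · obtain ⟨m, e⟩ := D.surj M
      obtain ⟨x, b, c⟩ := D.ex_xm m
      exact ⟨m, x, e, b, fun z => absurd z h, c⟩
  choose m x h1 h2 h3 h4 using k
  refine ⟨x, ⟨D.hD, h2, fun M τ e => ?_, fun M c e => ?_, fun M Z τ z => ?_⟩, h3 0 rfl,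
    fun τ => (D.loc_I τ).1⟩
  · rw [← h1 M, Ne, D.pi_iff] at e
    rw [← congrArg (fun P => xp (D.pi τ - P)) (h1 M), Pz.pi, ← map_sub, D.xp_ex e]
    exact val_ev (h4 M τ e)
  · obtain ⟨v, -, hv, -⟩ := D.par.lat.exists_two
    obtain ⟨z, b, d⟩ := ((Bo.fr_ne I).and_eventually (D.od_xm (h4 M) hv I).1).exists
    refine (D.od_xm (h4 M) (d b) I).2.1 ?_
    rw [← (val_ev (h4 M z (d b))).2, e, ev_const, sub_self]
  · obtain ⟨ζ, rfl⟩ := D.surj Z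
    have hζ := mt (D.ker ζ).2 z
    rw [D.xp_ex hζ, (D.od_xm (h4 M) hζ τ).2.2]
    simp only [← D.pi_iff, map_add, map_sub, h1]

end Vale.Agent.P004Z.Ar
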