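import Vale.Agent.P004Z.Ar.Ws
import Vale.Agent.P004Z.Gl.Lin

/-! # P004Z, row GENX: generating series of Heegner points -/

set_option autoImplicit false
set_option linter.all false

open UpperHalfPlane CongruenceSubgroup
open scoped MatrixGroups Classical NumberTheorySymbols

noncomputable section

namespace Vale.Agent.P004Z.Ar

namespace Gx

theorem dv_zero (M : ℕ) : Dv M 0 := ⟨fun _ _ _ => rfl, ∅, fun _ h => absurd rfl h⟩

theorem ws_zero (M : ℕ) (F : ℍ → ℂ) : ws M 0 F = 0 := by simp [ws]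

variable {N : ℕ} [NeZero N] {δ : ℕ}

variable (N δ) in
/-- `Zc` as a linear map -/
def ZL : PP N →ₗ[ℂ] (ℍ → ℂ) := Finsupp.linearCombination ℂ fun i => cs (Zd N δ i.1 i.2)

omit [NeZero N] in
theorem Zc_eq (c : PP N) : Zc δ c = ZL N δ c := funext fun z => by
  simp [Zc, ZL, Finsupp.linearCombination_apply, Finsupp.sum]

theorem Zd_eq (hD : DIVS) (o : Ok N δ) (n : ℕ) (r : ZMod (2 * N)) :
    cs (Zd N δ n r) = cs (Zp N δ n r) + (eps δ : ℂ) • cs (Zp N δ n (-r)) := funext fun z => by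
  simp [cs, (hD N δ o n r).2.1]

theorem dv_Zp (hD : DIVS) (o : Ok N δ) (n : ℕ) (r : ZMod (2 * N)) : Dv N (cs (Zp N δ n r)) := by
  obtain ⟨h1, -, -, h4⟩ := hD N δ o n r
  obtain ⟨s, hs⟩ := h4 _ inferInstance le_rfl
  exact ⟨fun γ a z => congrArg Int.cast (h1 γ a z), s, fun z e => hs.ex z (Int.cast_ne_zero.1 e)⟩

theorem dv_Zd (hD : DIVS) (o : Ok N δ) (n : ℕ) (r : ZMod (2 * N)) : Dv N (cs (Zd N δ n r)) :=
  Zd_eq hD o n r ▸ (dv_Zp hD o n r).add ((dv_Zp hD o n _).smul _)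

theorem four : 0 < 4 * N := Nat.mul_pos four_pos (NeZero.pos N)

theorem dv_ws (hD : DIVS) (o : Ok N δ) (c : PP N) : Dv N (ZL N δ c) ∧
    ∀ F, pr (fun n r => ws (4 * N) (cs (Zd N δ n r)) F) c = ws (4 * N) (ZL N δ c) F := by
  induction c using Finsupp.induction_linear with
  | zero => simp only [map_zero, Gl.pr_zero, ws_zero, dv_zero, implies_true, and_self]
  | add c c' h h' =>
    rw [map_add]
    exact ⟨h.1.add h'.1, fun F => by rw [Gl.pr_add, h.2, h'.2,
      ws_add (h.1.mono four (dvd_mul_left _ _)) (h'.1.mono four (dvd_mul_left _ _))]⟩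
  | single i k =>
    rw [ZL, Finsupp.linearCombination_single]
    exact ⟨(dv_Zd hD o _ _).smul k, fun F => by rw [Gl.pr_single, ws_smul]⟩

theorem tdiv_comp (p : ℕ) (l : ℂ →+ ℂ) (F : ℍ → ℂ) : Tdiv p (l ∘ F) = l ∘ Tdiv p F :=
  funext fun z => by simp [Tdiv]

end Gx

open Gx in
theorem genx (hH : HDIV) (hD : DIVS) (hA : ADJ) (hE : AE) (hP : PRT) : GENX := by
  intro N _ δ G a D hG o
  simp only [Zc_eq]
  refine ⟨fun c => (dv_ws hD o c).1, fun l hl => ?_⟩
  have inv : Inv N (l ∘ D.I) := fun γ h z => sub_eq_zero.1 ((l.map_sub _ _).symm.trans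
    (hl _ (D.inv γ h z)))
  have w := fun c => (dv_ws hD o c).2 (l ∘ D.I)
  have hd : ∀ p : ℕ, p.Prime → ¬ p ∣ 2 * N * δ → ∀ c,
      ZL N δ (Tt δ p c) = Tdiv p (ZL N δ c) := fun p hp h c => by
    rw [← Zc_eq, hH N δ p o hp h, Zc_eq]
  have tt : ∀ p : ℕ, p.Prime → ¬ p ∣ 2 * N * δ → ∀ c, ws (4 * N) (ZL N δ (Tt δ p c)) (l ∘ D.I) =
      a p * ws (4 * N) (ZL N δ c) (l ∘ D.I) := fun p hp h c => by
    have h4 : ¬ p ∣ 4 * N := fun e => h <| ((hp.dvd_mul.1 (show p ∣ 2 * (2 * N) by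
      rwa [← mul_assoc])).elim (·.mul_right _) id).mul_right _
    rw [hd p hp h, ((hA _ p four hp h4).2 _ ((dv_ws hD o c).1.mono four (dvd_mul_left _ _))).2
      (dvd_mul_right _ _) _ (inv.mono (dvd_mul_left _ _)), tdiv_comp,
      (hP.2 N G a D hG).1 p hp fun e => h4 (e.mul_left _), ← ws_smul']
    congr 1
    funext z
    simp only [Function.comp, Pi.smul_apply, smul_eq_mul, ← zsmul_eq_mul, map_zsmul]
  have z0 : ∀ (n : ℕ) r, (0 < n → ¬ In N δ n r) → Zd N δ n r = 0 := fun n r h => funext fun z => by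
    have k : ∀ s, (In N δ n s → In N δ n r) → Zp N δ n s z = 0 := fun s e => by_contra fun b =>
      h ((hD N δ o n s).2.2.1 z b).1 (e ((hD N δ o n s).2.2.1 z b).2.1)
    simp [(hD N δ o n r).2.1, k r id, k _ Gl.in_neg.1]
  refine ⟨⟨fun r => ?_, fun n r h => by_contra fun e => h ?_, fun n r => ?_, fun c _ h => ?_,
    fun p hp h => ?_⟩, w, fun P => ?_⟩
  · simp [z0 0 r (by simp), ws, cs]
  · simp [z0 n r fun _ => e, ws, cs]
  · rw [← ws_smul, Zd_eq hD o, Zd_eq hD o, neg_neg, smul_add, smul_smul, Gl.eps_sqC, one_smul,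
      add_comm]
  · obtain ⟨k, n, Ψ, hk, e, h1, h2, h3⟩ := h
    have := (hE N a D n Ψ (NeZero.pos N) ⟨h1, h2, fun γ h z => by rw [h3 γ h]; simp [ee]⟩).2 l hl
    rw [show cs n = (k : ℂ) • Zc δ c from funext e, ws_smul, Zc_eq, ← w] at this
    exact (mul_eq_zero.1 this).resolve_left (Nat.cast_ne_zero.2 hk.ne')
  · funext n r
    have := tt p hp h (Finsupp.single (n, r) 1)
    rwa [← w, ← w, Gl.pr_tt, Gl.pr_single, Gl.pr_single, one_mul, one_mul] at this
  · induction P using FreeAlgebra.induction with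
    | grade0 k => intro c; simp [← Int.cast_smul_eq_zsmul ℂ, ws_smul]
    | grade1 p =>
      intro c
      simp only [FreeAlgebra.lift_ι_apply, hd p p.2.1 p.2.2, true_and]
      rw [← hd p p.2.1 p.2.2, tt p p.2.1 p.2.2]
    | mul P Q hP hQ =>
      intro c
      simp only [map_mul, Module.End.mul_apply]
      exact ⟨by rw [(hP _).1, (hQ _).1], by rw [(hP _).2, (hQ _).2, Int.cast_mul, ← mul_assoc]⟩
    | add P Q hP hQ =>
      intro c
      simp only [map_add (FreeAlgebra.lift ℤ _), LinearMap.add_apply]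
      exact ⟨by rw [map_add, (hP _).1, (hQ _).1],
        by rw [← w, Gl.pr_add, w, w, (hP _).2, (hQ _).2, Int.cast_add, add_mul]⟩

end Vale.Agent.P004Z.Ar
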