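import Vale.Agent.P004Z.Ar.Fun0
import Vale.Agent.P004Z.EF.Gen
import Vale.Agent.P004K.Lt
import Vale.Agent.P004K.Gm.Jh
import Vale.Agent.P027M.M.Pre

/-! # P004Z: the points of `Y₀(M)` are places -/

set_option autoImplicit false

open UpperHalfPlane CongruenceSubgroup Filter Topology Polynomial
open scoped MatrixGroups IntermediateField

noncomputable section

namespace Vale.Agent.P004Z.Ar

open Vale.Agent.P022.H218.L3 Vale.Agent.P022.H236.L3 Vale.Agent.P019P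
open Vale.Agent.P022K.F0.Cf hiding MF

namespace Fn

variable {x y : Mer} {τ τ' : ℍ} {Γ : Subgroup SL(2, ℤ)} {P : Hol} {γ : SL(2, ℤ)}

theorem j_inj (h : jf τ = jf τ') : ∃ γ : SL(2, ℤ), γ • τ = τ' := by
  obtain ⟨c, e⟩ := (P004K.jh _ _ (P027M.M.isLat τ') (P027M.M.isLat τ)).1 (by
    rw [P004K.jL_lat, P004K.jL_lat, h])
  obtain ⟨γ, e, -⟩ := P004K.hom_lat e
  exact ⟨γ, e⟩

theorem fin_mv {K L : Set ℍ} (hK : IsCompact K) (hL : IsCompact L) :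
    {γ : SL(2, ℤ) | ∃ z ∈ K, γ • z ∈ L}.Finite :=
  (((Subgroup.properlyDiscontinuousSMul_iff 𝒮ℒ).1 inferInstance hK hL).preimage
    Matrix.SpecialLinearGroup.mapGL_injective.injOn).subset
    fun γ ⟨z, a, b⟩ => ⟨⟨γ, rfl⟩, _, ⟨z, a, rfl⟩, b⟩

theorem ev_ne (h : x ≠ y) (τ : ℍ) : ∀ᶠ z in 𝓝 τ, z ≠ τ → ev z x ≠ ev z y := by
  filter_upwards [ev_reg τ x, ev_reg τ y, (mat_ev (sub_ne_zero.2 h) τ).ev_ne] with z c d f a b
  exact f a (by rw [ev_sub (c a) (d a), b, sub_self])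

theorem od_one (h : (dH P).1 τ ≠ 0) : jm P - algebraMap ℂ Mer (P.1 τ) ≠ 0 ∧
    od τ (jm P - algebraMap ℂ Mer (P.1 τ)) = 1 := by
  have d : DM (jm P - algebraMap ℂ Mer (P.1 τ)) = jm (dH P) := by
    rw [map_sub, Derivation.map_algebraMap, sub_zero, DM_jm]
  have n : jm P - algebraMap ℂ Mer (P.1 τ) ≠ 0 := fun z => jm_ne' h (by rw [← d, z, map_zero])
  have p := (reg_jm τ P).sub_ev (by rwa [ev_jm])
  rw [ev_jm] at p
  have := od_D p.ne'
  rw [d, od_unit h] at this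
  exact ⟨n, by omega⟩

theorem val_aeval (P : Hol) (p : ℂ[X]) (z : ℍ) : (aeval P p).1 z = p.eval (P.1 z) :=
  (aeval_algHom_apply ((Pi.evalAlgHom ℂ (fun _ => ℂ) z).comp Hol.val) P p).symm

theorem fr_eq (h : (dH P).1 τ' ≠ 0) (e : P.1 τ = P.1 τ') :
    ∃ᶠ p : ℍ × ℍ in 𝓝 τ ×ˢ 𝓝 τ', p.1 ≠ τ ∧ P.1 p.2 = P.1 p.1 := fun k => by
  obtain ⟨U, hU, V, hV, k⟩ := eventually_prod_iff.1 k
  have m : map P.1 (𝓝 τ') = 𝓝 (P.1 τ) := by
    have := ((an P τ').hasStrictDerivAt).map_nhds_eq h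
    rw [← isOpenEmbedding_coe.map_nhds_eq, map_map] at this
    simpa [Function.comp_def, e] using this
  have : ∀ᶠ z in 𝓝 τ, P.1 z ∈ P.1 '' {w | V w} :=
    (cont P).continuousAt.eventually (m ▸ image_mem_map hV)
  obtain ⟨z, a, b, w, c, d⟩ := ((Bo.fr_ne τ).and_eventually (hU.and this)).exists
  exact k b c ⟨a, d⟩

theorem ex_mv (hd : (dH P).1 τ' ≠ 0) (hj : jM ∈ ℂ⟮jm P⟯) (e : P.1 τ = P.1 τ') :
    ∃ γ : SL(2, ℤ), γ • τ = τ' ∧ act γ⁻¹ (jm P) = jm P := by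
  obtain ⟨p, q, h⟩ := (IntermediateField.mem_adjoin_simple_iff _ _).1 hj
  rw [aeval_algebraMap_apply, aeval_algebraMap_apply] at h
  have q0 : jm (aeval P q) ≠ 0 := fun n => jM_ne_const 0 (by
    rw [h, map_zero, div_eq_zero_iff]
    exact .inr n)
  have v : ∀ z, q.eval (P.1 z) ≠ 0 → jf z = p.eval (P.1 z) / q.eval (P.1 z) := fun z n => by
    rw [← ev_j, ← val_aeval, ← val_aeval]
    exact ev_eq (by rwa [val_aeval]) (by rw [h]; exact div_mul_cancel₀ _ q0)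
  obtain ⟨K, hK, K0⟩ := exists_compact_mem_nhds τ
  obtain ⟨L, hL, L0⟩ := exists_compact_mem_nhds τ'
  by_contra! n
  have k : ∀ γ : SL(2, ℤ), ∀ᶠ s : ℍ × ℍ in 𝓝 τ ×ˢ 𝓝 τ',
      s.1 ≠ τ → P.1 s.2 = P.1 s.1 → γ • s.1 ≠ s.2 := fun γ => by
    by_cases c : γ • τ = τ'
    · filter_upwards [tendsto_fst.eventually (ev_ne (n γ c) τ)] with s a b d f
      exact a b (by rw [ev_act, ev_jm, ev_jm, f, d])
    · rw [← nhds_prod_eq]
      have o : IsOpen {s : ℍ × ℍ | γ • s.1 ≠ s.2} :=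
        isOpen_ne_fun (f := fun s : ℍ × ℍ => γ • s.1) ((cont_sm γ).comp continuous_fst) continuous_snd
      filter_upwards [o.mem_nhds c] with s a _ _ using a
  obtain ⟨s, ⟨a, b⟩, c, d, f, g⟩ := ((fr_eq hd e).and_eventually
    (((eventually_all_finite (fin_mv hK hL)).2 fun γ _ => k γ).and
    ((tendsto_fst.eventually (ev_ne q0 τ)).and
    ((tendsto_fst.eventually K0).and (tendsto_snd.eventually L0))))).exists
  have d := d a
  rw [ev_jm, ev_zero, val_aeval] at d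
  obtain ⟨γ, m⟩ := j_inj (τ := s.1) (τ' := s.2) (by rw [v _ d, v _ (by rwa [b]), b])
  exact c γ ⟨_, f, by rwa [m]⟩ a b m

theorem ord_of [CFF ℂ (MF Γ)] (hP : jm P ∈ MF Γ) (hd : (dH P).1 τ ≠ 0) (f : MF Γ) :
    ord (pt Γ τ) f = od τ (f : Mer) := by
  have h1 : IsOrd (pt Γ τ).1 fun y : MF Γ => od τ y.1 :=
    { zero := od_zero τ
      mul := fun x z hx hz => od_mul τ (fun e => hx (Subtype.ext e)) fun e => hz (Subtype.ext e)
      add := fun x z hx hz h => od_add τ (fun e => hx (Subtype.ext e))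
        (fun e => hz (Subtype.ext e)) fun e => h (Subtype.ext e)
      mem := fun x => by rw [mem_pt, reg_iff, ZeroMemClass.coe_eq_zero]
      one := ⟨⟨jm P, hP⟩ - algebraMap ℂ _ (P.1 τ), (od_one hd).2⟩ }
  exact congrFun ((ord_spec _).unique h1) f

theorem val_pt (e : pt Γ τ = pt Γ τ') (hx : x ∈ MF Γ) (h : Reg τ x) : ev τ' x = ev τ x := by
  have r : ∀ y ∈ MF Γ, Reg τ y ↔ Reg τ' y := fun y m => by
    rw [← mem_pt (x := ⟨y, m⟩), e, mem_pt]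
  by_cases n : x - algebraMap ℂ Mer (ev τ x) = 0
  · rw [sub_eq_zero.1 n, ev_const, ev_const]
  have a := h.sub_ev n
  have b := r _ (inv_mem (sub_mem hx (algebraMap_mem _ (ev τ x))))
  rw [reg_iff, reg_iff, od_inv, od_inv, inv_eq_zero, or_iff_right n, or_iff_right n] at b
  have c := (r _ hx).1 h
  have := (ev_eq_zero n ((pl τ').sub_mem c (reg_const _ _))).2 (by omega)
  rwa [ev_sub c (reg_const _ _), ev_const, sub_eq_zero] at this

theorem fix_of (hP : jm P ∈ MF Γ) (hd : (dH P).1 τ ≠ 0) (e : pt Γ τ = pt Γ (γ • τ))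
    (ht : act γ⁻¹ (jm P) = jm P) (hy : y ∈ MF Γ) : act γ⁻¹ y = y := by
  obtain ⟨n0, o⟩ := od_one hd
  have m : jm P - algebraMap ℂ Mer (P.1 τ) ∈ MF Γ := sub_mem hP (algebraMap_mem _ _)
  have a : act γ⁻¹ (jm P - algebraMap ℂ Mer (P.1 τ)) = jm P - algebraMap ℂ Mer (P.1 τ) := by
    rw [map_sub, ht, AlgEquiv.commutes]
  generalize jm P - algebraMap ℂ Mer (P.1 τ) = π at *
  have k : ∀ n : ℕ, ∀ y ∈ MF Γ, Reg τ y → Reg τ ((act γ⁻¹ y - y) / π ^ n) := fun n => by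
    induction n with
    | zero =>
      intro y hy r
      rw [pow_zero, div_one]
      exact (pl τ).sub_mem ((reg_act γ τ y).2 ((mem_pt (x := ⟨y, hy⟩)).1 (e ▸ r))) r
    | succ n ih =>
      intro y hy r
      have := ih ((y - algebraMap ℂ Mer (ev τ y)) / π) (div_mem (sub_mem hy (algebraMap_mem _ _)) m) (by
        by_cases c : y - algebraMap ℂ Mer (ev τ y) = 0
        · rw [c, zero_div]
          exact reg_iff.2 (.inl rfl)
        · have := r.sub_ev c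
          exact reg_iff.2 (.inr (by rw [od_div τ c n0]; omega)))
      rwa [map_div₀, map_sub, AlgEquiv.commutes, a, ← sub_div, sub_sub_sub_cancel_right, div_div,
        ← pow_succ'] at this
  have k' : ∀ y ∈ MF Γ, Reg τ y → act γ⁻¹ y = y := fun y hy r => by
    by_contra c
    have c := sub_ne_zero.2 c
    have := k ((od τ (act γ⁻¹ y - y)).toNat + 1) y hy r
    rw [reg_iff, or_iff_right (div_ne_zero c (pow_ne_zero _ n0)), od_div τ c (pow_ne_zero _ n0),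
      od_pow, o] at this
    omega
  rcases (pl τ).mem_or_inv_mem y with r | r
  · exact k' y hy r
  · exact inv_injective ((map_inv₀ _ _).symm.trans (k' _ (inv_mem hy) r))

/-- the Hauptmodul of `Γ₀(4)` -/
theorem ex_t : ∃ P : Hol, MF (Gamma0 4) = ℂ⟮jm P⟯ ∧ ∀ τ, (dH P).1 τ ≠ 0 := by
  obtain ⟨X⟩ := P027M.M.prem
  obtain ⟨P, hP, e, hd, -⟩ := X.hol
  exact ⟨⟨P, hP⟩, X.baseC.trans (by rw [e]; rfl), hd⟩

theorem ord_pt [CFF ℂ (MF Γ)] (h : Γ ≤ Gamma0 4) (τ : ℍ) (f : MF Γ) :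
    ord (pt Γ τ) f = od τ (f : Mer) := by
  obtain ⟨P, b, d⟩ := ex_t
  exact ord_of (MF_mono h (b ▸ IntermediateField.mem_adjoin_simple_self _ _)) (d τ) f

theorem pt_fix (h : Γ ≤ Gamma0 4) (e : pt Γ τ = pt Γ τ') :
    ∃ γ : SL(2, ℤ), γ • τ = τ' ∧ ∀ y ∈ MF Γ, act γ⁻¹ y = y := by
  obtain ⟨P, b, d⟩ := ex_t
  have m : jm P ∈ MF Γ := MF_mono h (b ▸ IntermediateField.mem_adjoin_simple_self _ _)
  obtain ⟨γ, rfl, a⟩ := ex_mv (τ := τ) (d τ') (b ▸ MF_mono le_top jM_mem) (by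
    rw [← ev_jm, ← val_pt e m (reg_jm τ P), ev_jm])
  exact ⟨γ, rfl, fun y => fix_of m (d τ) e a⟩

theorem pt_mv (m : γ ∈ Γ) (τ : ℍ) : pt Γ τ = pt Γ (γ • τ) :=
  Subtype.ext (ValuationSubring.ext _ _ fun y => by
    rw [mem_pt, mem_pt, ← reg_act, act_eq_self y.2 (inv_mem m)])

end Fn

open Fn

theorem plc : PLC := fun M hM h4 => by
  have : NeZero M := ⟨hM.ne'⟩
  have h : Gamma0 M ≤ Gamma0 4 := by
    obtain ⟨k, rfl⟩ := h4
    exact mul_comm k 4 ▸ EF.g0_le 4 k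
  have c := cff (Gamma0 M)
  refine ⟨c, pt _, ord_pt h, fun τ τ' => ⟨fun e => ?_, ?_⟩, j_mem⟩
  · obtain ⟨γ, a, b⟩ := pt_fix h e
    exact ⟨γ, inv_mem_iff.1 (EF.Gn.stab hM (b _ (EF.Gn.jN_mem hM))), a⟩
  · rintro ⟨γ, m, rfl⟩
    exact pt_mv m τ

end Vale.Agent.P004Z.Ar
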