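import Vale.Agent.P004Z.Ar.St

/-! # P004Z, row RATL: local heights of algebraic points are rational -/

set_option autoImplicit false
set_option linter.all false

open Real Polynomial
open scoped Classical IntermediateField

noncomputable section

namespace Vale.Agent.P004Z.Ar

open Vale.Agent.P004H.H666 Vale.Agent.P004M.TE Vale.Agent.P004Z.H
open Vale.Agent.P004Z.Fin (Ov)

namespace Rt

variable {V : AbsoluteValue ℂ ℝ} {p : ℕ} (h : Ov V p)
include h

theorem int_le (n : ℤ) : V n ≤ 1 := h.na.apply_intCast_le_one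

theorem nat_mem (n : ℕ) : log (V n) ∈ ℚ ∙ log (V p) := by
  induction n using induction_on_primes with
  | zero => simp
  | one => simp
  | prime_mul q a hq ih =>
    rcases eq_or_ne a 0 with rfl | a0
    · simp
    rw [Nat.cast_mul, map_mul, log_mul (V.pos (Nat.cast_ne_zero.2 hq.ne_zero)).ne'
      (V.pos (Nat.cast_ne_zero.2 a0)).ne']
    refine add_mem ?_ ih
    rcases eq_or_ne p q with rfl | e
    · exact Submodule.mem_span_singleton_self _
    obtain ⟨s, t, e⟩ := Nat.isCoprime_iff_coprime.2 ((Nat.coprime_primes h.prime hq).2 e)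
    have e1 := congrArg (fun n : ℤ => V n) e
    simp only [Int.cast_add, Int.cast_mul, Int.cast_one, map_one, Int.cast_natCast] at e1
    have e2 : 1 ≤ max (V p) (V q) := by
      refine e1.symm.trans_le ((h.na _ _).trans (max_le_max ?_ ?_)) <;> rw [map_mul] <;>
        exact mul_le_of_le_one_left (V.nonneg _) (int_le h _)
    rw [le_antisymm (by simpa using int_le h q) ((le_max_iff.1 e2).resolve_left h.lt.not_ge)]
    simp

theorem int_mem (n : ℤ) : log (V n) ∈ ℚ ∙ log (V p) := by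
  obtain ⟨m, rfl | rfl⟩ := n.eq_nat_or_neg <;> simpa using nat_mem h m

theorem alg_mem {z : ℂ} (hz : IsAlgebraic ℚ z) : log (V z) ∈ ℚ ∙ log (V p) := by
  rcases eq_or_ne z 0 with rfl | z0
  · simp
  obtain ⟨f, f0, e⟩ := (IsFractionRing.isAlgebraic_iff ℤ ℚ ℂ).2 hz
  rw [aeval_def, eval₂_eq_sum, sum_def] at e
  simp only [eq_intCast] at e
  obtain ⟨i, hi, hm⟩ := f.support.exists_max_image (fun i => V (f.coeff i * z ^ i))
    (support_nonempty.2 f0)
  have n : ∀ i ∈ f.support, V (f.coeff i) ≠ 0 := fun i hi =>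
    (V.pos (Int.cast_ne_zero.2 (mem_support_iff.1 hi))).ne'
  have n' : ∀ i, V z ^ i ≠ 0 := fun i => pow_ne_zero _ (V.pos z0).ne'
  rw [← Finset.add_sum_erase _ _ hi, add_eq_zero_iff_eq_neg] at e
  obtain ⟨j, hj, e2⟩ := h.na.finset_image_add_of_nonempty (fun i => (f.coeff i : ℂ) * z ^ i)
    (t := f.support.erase i) (Finset.nonempty_of_ne_empty fun e1 => by
      rw [e1, Finset.sum_empty, neg_zero] at e
      exact mul_ne_zero (n i hi) (n' i) (by rw [← map_pow, ← map_mul, e, map_zero]))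
  obtain ⟨j1, j2⟩ := Finset.mem_erase.1 hj
  rw [← V.map_neg, ← e] at e2
  have e3 := congrArg log (le_antisymm e2 (hm j j2))
  simp only [map_mul, map_pow] at e3
  rw [log_mul (n i hi) (n' i), log_mul (n j j2) (n' j), log_pow, log_pow] at e3
  rw [← Submodule.smul_mem_iff _ (sub_ne_zero.2 (Nat.cast_injective.ne j1) : (j : ℚ) - i ≠ 0)]
  convert sub_mem (int_mem h (f.coeff i)) (int_mem h (f.coeff j)) using 1
  rw [Rat.smul_def]
  push_cast
  linarith

theorem close (K : IntermediateField ℚ ℂ) [FiniteDimensional ℚ K] (x : ℕ → K)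
    (hx : ∀ i, V (x i) ≤ 1) {ε : ℝ} (hε : 0 < ε) : ∃ i j, i ≠ j ∧ V (x i - x j) < ε := by
  obtain ⟨k, hk⟩ := exists_pow_lt_of_lt_one hε h.lt
  haveI : NeZero (p ^ k) := ⟨pow_ne_zero _ h.prime.ne_zero⟩
  let y : Fin ((p ^ k) ^ Module.finrank ℚ K + 1) → K := fun i => x i
  let M := Submodule.span ℤ (Set.range y)
  haveI : Module.Finite ℤ M := Module.Finite.span_of_finite ℤ (Set.finite_range y)
  have r : Module.finrank ℤ M ≤ Module.finrank ℚ K := by
    rw [← Nat.cast_le (α := Cardinal), Module.finrank_eq_rank, Module.finrank_eq_rank,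
      IsFractionRing.rank_right_eq ℤ ℚ]
    exact M.rank_le
  haveI := Fintype.ofFinite (ModN M (p ^ k))
  obtain ⟨i, j, e, e1⟩ := Fintype.exists_ne_map_eq_of_card_lt (fun i => ModN.mkQ (p ^ k)
    (⟨y i, Submodule.subset_span ⟨i, rfl⟩⟩ : M)) (by
      rw [Fintype.card_eq_nat_card, ModN.natCard_eq, Fintype.card_fin]
      exact Nat.lt_succ_of_le (Nat.pow_le_pow_right (NeZero.pos _) r))
  obtain ⟨⟨u, hu⟩, e2⟩ := (Submodule.Quotient.eq _).1 e1
  have e3 : ((p ^ k : ℕ) : ℂ) * u = x i - x j := by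
    simpa [y] using congrArg (fun u : M => ((u : K) : ℂ)) e2
  have : V u ≤ 1 := by
    clear e2 e3
    induction hu using Submodule.span_induction with
    | mem _ e => obtain ⟨i, rfl⟩ := e; exact hx i
    | zero => simp
    | add a b _ _ ha hb => exact (h.na _ _).trans (max_le ha hb)
    | smul a b _ hb => simpa using mul_le_one₀ (int_le h a) (V.nonneg _) hb
  refine ⟨i, j, Fin.val_injective.ne e, ?_⟩
  rw [← e3, map_mul, Nat.cast_pow, map_pow]
  exact (mul_le_of_le_one_right (pow_nonneg (V.nonneg _) _) this).trans_lt hk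

omit h in
theorem ff_mem {A B : ℤ} {K : IntermediateField ℚ ℂ} {x : Fin 3 → ℂ} (hx : ∀ i, x i ∈ K) (i : Fin 3) :
    FF (A : ℂ) B x i ∈ K := by
  have a := intCast_mem K A
  have b := intCast_mem K B
  have c := ofNat_mem K 2
  have d := ofNat_mem K 4
  fin_cases i
  exacts [sub_mem (pow_mem (sub_mem (hx 0) (mul_mem a (hx 2))) 2)
      (mul_mem (mul_mem (mul_mem d b) (hx 1)) (hx 2)),
    add_mem (mul_mem (mul_mem c (add_mem (hx 0) (mul_mem a (hx 2)))) (hx 1))
      (mul_mem (mul_mem d b) (pow_mem (hx 2) 2)),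
    sub_mem (pow_mem (hx 1) 2) (mul_mem (mul_mem d (hx 0)) (hx 2))]

variable {A B : ℤ} (hD : 16 * (4 * (A : ℂ) ^ 3 + 27 * (B : ℂ) ^ 2) ≠ 0)
include hD

theorem near {x : Fin 3 → ℂ} (h1 : V (x 1) < V (x 0)) (h2 : V (x 2) < V (x 0)) :
    La V A B x = log (V (x 0)) := by
  obtain ⟨C, hC⟩ := La_bd V hD
  have k : ∀ x : Fin 3 → ℂ, V (x 1) < V (x 0) ∧ V (x 2) < V (x 0) →
      V (FF (A : ℂ) B x 0) = V (x 0) ^ 2 ∧ V (FF (A : ℂ) B x 1) < V (x 0) ^ 2 ∧
        V (FF (A : ℂ) B x 2) < V (x 0) ^ 2 := fun x ⟨h1, h2⟩ => by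
    have s : ∀ (k : ℤ) a b, V a ≤ V (x 0) → V b < V (x 0) → V (k * a * b) < V (x 0) ^ 2 :=
      fun k a b ha hb => by
        rw [map_mul, map_mul, sq]
        exact mul_lt_mul' ((mul_le_of_le_one_left (V.nonneg _) (int_le h k)).trans ha) hb
          (V.nonneg _) ((V.nonneg _).trans_lt hb)
    have t : ∀ {a b}, V a < V (x 0) ^ 2 → V b < V (x 0) ^ 2 → V (a + b) < V (x 0) ^ 2 :=
      fun ha hb => (h.na _ _).trans_lt (max_lt ha hb)
    refine ⟨?_, ?_, ?_⟩
    · have := t (t (s (-2 * A) _ _ le_rfl h2) (s (A ^ 2) _ _ h2.le h2)) (s (-4 * B) _ _ h1.le h2)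
      rw [← map_pow] at this ⊢
      rw [← max_eq_left this.le, ← IsNonarchimedean.add_eq_max_of_ne' V h.na
        (fun a => (V.map_neg a).symm) this.ne']
      exact congrArg V (by simp [FF]; ring)
    · convert t (t (s 2 _ _ le_rfl h1) (s (2 * A) _ _ h2.le h1)) (s (4 * B) _ _ h2.le h2) using 2
      simp [FF]
      ring
    · convert t (s 1 _ _ h1.le h1) (s (-4) _ _ le_rfl h2) using 2
      simp [FF]
      ring
  refine sub_eq_zero.1 (bdd_zero (f := FF (A : ℂ) B) (C := C) (d := 2)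
    (S := {x | V (x 1) < V (x 0) ∧ V (x 2) < V (x 0)}) (D := fun x => La V A B x - log (V (x 0)))
    le_rfl (fun x hx => ?_) (fun x hx => ?_) (fun x hx => ?_) x ⟨h1, h2⟩)
  · exact ⟨(k x hx).2.1.trans_eq (k x hx).1.symm, (k x hx).2.2.trans_eq (k x hx).1.symm⟩
  · simp only [La_FF hD, (k x hx).1, log_pow]
    push_cast
    ring
  · simpa only [H.nm, max_eq_left (max_le hx.1.le hx.2.le)] using hC x

theorem lam_mem (P : (crv (A : ℂ) (B : ℂ)).Point) (hP : IsAlgebraic ℚ (xp P)) :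
    lam V P ∈ ℚ ∙ log (V p) := by
  let K := ℚ⟮xp P⟯
  haveI : FiniteDimensional ℚ K := IntermediateField.adjoin.finiteDimensional hP.isIntegral
  have hK := IntermediateField.mem_adjoin_simple_self ℚ (xp P)
  have al : ∀ z ∈ K, log (V z) ∈ ℚ ∙ log (V p) := fun z hz => alg_mem h
    (IntermediateField.isAlgebraic_iff.1 (IsAlgebraic.of_finite ℚ (⟨z, hz⟩ : K)))
  obtain ⟨u, u0, u1, u2⟩ : ∃ u, u ≠ 0 ∧ u ^ 2 ∈ K ∧ P004M.TE.In K.toSubfield u P := by
    rcases P with _ | ⟨x, y, e⟩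
    · exact ⟨1, one_ne_zero, by simp, trivial⟩
    · rcases eq_or_ne y 0 with rfl | y0
      · exact ⟨1, one_ne_zero, by simp, hK, by simp⟩
      · exact ⟨y, y0, (eqn e).symm ▸ add_mem (add_mem (pow_mem hK 3)
          (mul_mem (intCast_mem K A) hK)) (intCast_mem K B), hK, by simp [y0]⟩
  have m : ∀ k : ℕ, xp (k • P) ∈ K ∧ zp (k • P) ∈ K := fun k => by
    have h1 : P004M.TE.In K.toSubfield u (k • P) := by
      induction k with
      | zero => rw [zero_nsmul]; trivial
      | succ k ih => exact succ_nsmul P k ▸ ih.add u0 u1 (intCast_mem K A) u2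
    generalize k • P = Q at h1
    rcases Q with _ | ⟨x, y, h⟩
    exacts [⟨K.one_mem, K.zero_mem⟩, ⟨h1.1, K.one_mem⟩]
  have q : ∀ k : ℕ, lam V (k • P) - k ^ 2 * lam V P ∈ ℚ ∙ log (V p) := fun k => by
    induction k using Nat.twoStepInduction with
    | zero => simp [lam_zero hD]
    | one => simp
    | more k a b =>
      have e := par (v := V) hD ((k + 1) • P) P
      have c : cc ((k + 1) • P) P ∈ K := by
        obtain ⟨m1, m2⟩ := m (k + 1)
        obtain ⟨m3, m4⟩ := m 1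
        rw [one_nsmul] at m3 m4
        exact ff_mem (fun i => by fin_cases i <;> simp [st, mul_mem, add_mem, m1, m2, m3, m4]) _
      rw [← succ_nsmul, succ_nsmul P k, add_sub_cancel_right, ← succ_nsmul] at e
      convert sub_mem (sub_mem (add_mem b b) a) (Submodule.smul_mem _ (1 / 2 : ℚ) (al _ c)) using 1
      rw [Rat.smul_def]
      push_cast
      linarith
  obtain ⟨k, k0, hk⟩ : ∃ k : ℕ, 0 < k ∧ V (zp (k • P)) < V (xp (k • P)) := by
    by_contra! e
    obtain ⟨C, hC⟩ := lam_bd V hD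
    have n : ∀ k : ℕ, 0 < k → k • P ≠ 0 := fun k k0 e1 => by simpa [e1, zero_lt_one.not_ge] using e k k0
    have b : ∀ k : ℕ, 0 < k → |lam V (k • P)| ≤ C := fun k k0 => by
      have := hC (k • P)
      rwa [H.nh, max_eq_right (e k k0), zp_one (n k k0), map_one, log_one, zero_div, sub_zero] at this
    obtain ⟨i, j, e1, e2⟩ := close h K (fun i => ⟨_, (m (i + 1)).1⟩) (fun i => by
      simpa [zp_one (n _ i.succ_pos)] using e _ i.succ_pos) (exp_pos (-(6 * C)))
    wlog l : j < i generalizing i j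
    · exact this j i e1.symm (by rwa [V.map_sub]) (e1.lt_or_gt.resolve_right l)
    obtain ⟨d, rfl⟩ := Nat.exists_eq_add_of_lt l
    have s : (j + d + 1 + 1) • P - (j + 1) • P = (d + 1) • P := by
      rw [sub_eq_iff_eq_add, ← add_nsmul]
      exact congrArg (· • P) (by ring)
    have e3 := par (v := V) hD ((j + d + 1 + 1) • P) ((j + 1) • P)
    have e4 := cc_ne hD ((j + d + 1 + 1) • P) ((j + 1) • P)
    rw [cc_aff (n _ (by omega)) (n _ (by omega)) (add_nsmul P _ _ ▸ n _ (by omega))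
      (s ▸ n _ (by omega))] at e3 e4
    rw [s, ← add_nsmul, map_pow, log_pow] at e3
    have := (log_lt_iff_lt_exp (V.pos (pow_ne_zero_iff two_ne_zero |>.1 e4))).2 e2
    push_cast at e3
    linarith [(abs_le.1 (b (j + d + 1 + 1) (by omega))).1, (abs_le.1 (b (j + 1) (by omega))).1,
      (abs_le.1 (b (d + 1) (by omega))).2, (abs_le.1 (b (j + d + 1 + 1 + (j + 1)) (by omega))).2]
  have e : lam V (k • P) = log (V (xp (k • P))) / 2 := by
    rw [H.lam, near h hD (by simpa [st] using hk) (by simpa [st] using (V.nonneg _).trans_lt hk)]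
    simp [st]
  rw [← Submodule.smul_mem_iff _ (pow_ne_zero 2 (Nat.cast_ne_zero.2 k0.ne') : (k : ℚ) ^ 2 ≠ 0)]
  convert sub_mem (Submodule.smul_mem _ (1 / 2 : ℚ) (al _ (m k).1)) (q k) using 1
  rw [Rat.smul_def, Rat.smul_def, e]
  push_cast
  ring

end Rt

theorem ratl : RATL := fun V p h => by
  have k : ∀ x ∈ ℚ ∙ log (V p), ∃ q : ℚ, x = q * log (V p) := fun x hx =>
    (Submodule.mem_span_singleton.1 hx).imp fun q e => by rw [← e, Rat.smul_def]
  exact ⟨fun z hz => k _ (Rt.alg_mem h hz), fun A B P hD hP => k _ (Rt.lam_mem h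
    (mul_ne_zero (by norm_num) (by exact_mod_cast hD)) P hP)⟩

end Vale.Agent.P004Z.Ar
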