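import Vale.Agent.P004Z.Ar.Adj
import Vale.Agent.P004Z.Hd.Kl

/-! # P004Z, row WN: the Fricke involution on Heegner divisors -/

set_option autoImplicit false
set_option linter.all false

open UpperHalfPlane CongruenceSubgroup P004N.H461
open scoped MatrixGroups NumberTheorySymbols Classical

noncomputable section

namespace Vale.Agent.P004Z.Ar

open Hd

variable {M N δ n : ℕ} {z : ℍ}

/-- change of level -/
def Ix (M N i : ℕ) : Prop := ∀ (A F : ℍ → ℂ) (T : Finset ℍ) (p : ℍ → ℍ), Inv N A → Inv N F →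
  (∀ z, A z ≠ 0 → ∀ γ : SL(2, ℤ), γ • z = z → γ = 1 ∨ γ = -1) →
  (∀ z, A z ≠ 0 → ∃ w ∈ T, ∃ γ ∈ Gamma0 N, γ • z = p w) →
  (∀ z ∈ T, ∀ w ∈ T, ∀ γ ∈ Gamma0 N, γ • p z = p w → z = w) →
  ws M A F = i * ∑ z ∈ T, A (p z) * F (p z)

theorem ex_ix (hM : 0 < M) (h : N ∣ M) : ∃ i, 0 < i ∧ Ix M N i := by
  obtain ⟨R, a, b, c⟩ := cosets hM h
  refine ⟨R.card, Finset.card_pos.2 ((b 1 (one_mem _)).imp fun _ e => e.1),
    fun A F T p hA hF fr ex uq => ?_⟩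
  rw [ws_eq (hA.mono h) (hF.mono h) (T := R ×ˢ T) (p := fun i => i.1 • p i.2) (fun z hz => ?_)
    fun i hi j hj e γ d k => ?_, Finset.sum_product, ← nsmul_eq_mul, ← Finset.sum_const]
  · exact Finset.sum_congr rfl fun g hg => Finset.sum_congr rfl fun z _ => by
      rw [hA g (a g hg), hF g (a g hg)]
  · obtain ⟨w, d, γ, e, k⟩ := ex z hz
    obtain ⟨g, u, v⟩ := b γ e
    exact ⟨(g, w), Finset.mem_product.2 ⟨u, d⟩, _, v, by rw [mul_smul, k]⟩
  · obtain ⟨i1, i2⟩ := Finset.mem_product.1 hi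
    obtain ⟨j1, j2⟩ := Finset.mem_product.1 hj
    have k' : (j.1⁻¹ * γ * i.1) • p i.2 = p j.2 := by rw [mul_smul, mul_smul, k, inv_smul_smul]
    have u := uq _ i2 _ j2 _ (mul_mem (mul_mem (inv_mem (a _ j1)) (g0_le h d)) (a _ i1)) k'
    refine Prod.ext (c _ i1 _ j1 ?_) u
    rcases fr _ (hA _ (a _ i1) _ ▸ e) _ (k'.trans (congrArg p u.symm)) with v | v <;>
      rw [mul_assoc, inv_mul_eq_iff_eq_mul, ← eq_mul_inv_iff_mul_eq] at v
    · rwa [v, mul_one] at d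
    · rw [v, Gamma0_mem] at d
      simpa [Gamma0_mem] using d

/-- points with trivial stabiliser -/
theorem free {l : Fm} {y d : ℤ} (hy : y ≠ 0) (hd : d % 8 = 7) (h : disc l = -(y ^ 2 * d))
    (e : evq l z = 0) (γ : SL(2, ℤ)) (k : γ • z = z) : γ = 1 ∨ γ = -1 :=
  (stab k).resolve_right fun ⟨a, b, c⟩ => by
    have s : ∀ u D : ℤ, u ^ 2 = D * (y * γ 1 0) ^ 2 → D % 8 ≠ 5 ∧ D % 8 ≠ 7 := fun u D f => by
      obtain ⟨w, rfl⟩ := (Int.pow_dvd_pow_iff two_ne_zero).1 (Dvd.intro_left _ f.symm)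
      rw [← mul_right_cancel₀ (pow_ne_zero 2 (mul_ne_zero hy a)) (show w ^ 2 * _ = D * _ by
        rw [← f]; ring), sq, Int.mul_emod]
      have := Int.emod_nonneg w (b := 8) (by simp)
      have := Int.emod_lt_of_pos w (b := 8) (by simp)
      generalize w % 8 = t at *
      interval_cases t <;> simp
    have r := root_sq e c
    rw [h, show disc _ = (γ 0 0 + γ 1 1) ^ 2 - 4 by
      simp only [disc]; linear_combination -4 * det' γ] at r
    have := abs_lt_of_sq_lt_sq' (b := (2 : ℤ)) b zero_le_two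
    generalize γ 0 0 + γ 1 1 = t at *
    obtain ⟨_, _⟩ := this
    interval_cases t
    · exact (s (3 * l.1) (3 * d) (by linear_combination -3 * r)).1 (by omega)
    · exact (s (2 * l.1) d (by linear_combination -r)).2 hd
    · exact (s (3 * l.1) (3 * d) (by linear_combination -3 * r)).1 (by omega)

variable [NeZero N]

/-- the Fricke involution -/
def fr (N : ℕ) : ℍ → ℍ := mb !![0, -1; N, 0]

theorem fr_det : 0 < (!![0, -1; N, 0] : M2).det := by simpa using NeZero.pos N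

theorem coe_fr (z : ℍ) : (fr N z : ℂ) = -1 / (N * z) := by
  rw [fr, coe_mb fr_det]
  simp

theorem fr_fr (z : ℍ) : fr N (fr N z) = z := UpperHalfPlane.ext (by
  have := z.ne_zero
  have := NeZero.ne (N : ℂ)
  rw [coe_fr, coe_fr]
  field_simp)

theorem fr_g0 {γ : SL(2, ℤ)} (h : γ ∈ Gamma0 N) :
    ∃ g ∈ Gamma0 N, ∀ z, g • fr N z = fr N (γ • z) := by
  obtain ⟨c, hc⟩ := g0_dvd.1 h
  refine ⟨Hd.mk (γ 1 1) (-c) (-(N * γ 0 1)) (γ 0 0) (by linear_combination det' γ + γ 0 1 * hc),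
    g0_dvd.2 (by simp [Hd.mk]), fun z => ?_⟩
  rw [← mb_SL, ← mb_SL, fr, ← mb_mul (by simp) fr_det, ← mb_mul fr_det (by simp)]
  congr 1
  ext i j
  fin_cases i <;> fin_cases j <;> simp [Hd.mk, Matrix.mul_apply, hc, mul_comm]

theorem fr_form {a b c : ℤ} (e : evq (N * a, b, c) z = 0) (p : 0 < N * a) :
    evq (N * c, -b, a) (fr N z) = 0 ∧ 0 < N * c := by
  have := z.ne_zero
  have := NeZero.ne (N : ℂ)
  refine ⟨?_, mul_pos (Int.natCast_pos.2 (NeZero.pos N)) (Int.cast_pos (R := ℝ).1 ?_)⟩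
  · simp only [evq, coe_fr] at e ⊢
    push_cast at e ⊢
    field_simp
    linear_combination e
  · have := z.im_pos
    exact (root_c e).symm ▸ mul_pos (Int.cast_pos.2 p) (by positivity)

theorem ph_fr (h : Ok N δ) (r : ZMod (2 * N)) (a b c : ℤ) :
    ph N δ (-r) (N * c, -b, a) = J(N | δ) * ph N δ r (N * a, b, c) := by
  have d : disc (N * c, -b, a) = disc (N * a, b, c) := by simp only [disc]; ring
  simp only [ph, d, Int.cast_neg, neg_inj, dvd_mul_right, mul_ite, mul_zero]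
  refine if_ctx_congr Iff.rfl (fun e => ?_) fun _ => rfl
  rw [← gc_fa h.odd e.2.2 (Hd.mk 0 (-1) 1 0 (by simp)), J_prod h.sq, gc_def, gc_def,
    ← Finset.prod_mul_distrib]
  refine Finset.prod_congr rfl fun p hp => ?_
  have q := Nat.prime_of_mem_primeFactors hp
  have k := ndvd hp (Nat.isCoprime_iff_coprime.2 h.cop)
  have := jacobiSym.sq_one (gcd_one q k)
  simp [gp, fa_mk, val, (Nat.prime_iff_prime_int.1 q).dvd_mul, k, jacobiSym.mul_left, ← mul_assoc,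
    ← sq, this]

theorem Zp_fr (h : Ok N δ) (r : ZMod (2 * N)) (z : ℍ) :
    Zp N δ n (-r) (fr N z) = J(N | δ) * Zp N δ n r z := by
  have d : ∀ a b c : ℤ, disc (N * c, -b, a) = disc (N * a, b, c) := fun a b c => by
    simp only [disc]; ring
  by_cases H : ∃ a b c : ℤ, disc (N * a, b, c) = -((δ : ℤ) * n) ∧ evq (N * a, b, c) z = 0 ∧ 0 < N * a
  · obtain ⟨a, b, c, h1, h2, h3⟩ := H
    rw [Zp_eq h1 h2 h3, Zp_eq ((d a b c).trans h1) (fr_form h2 h3).1 (fr_form h2 h3).2, ph_fr h]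
  · have k : ∀ r z, Zp N δ n r z ≠ 0 → ∃ a b c : ℤ, disc (N * a, b, c) = -((δ : ℤ) * n) ∧
        evq (N * a, b, c) z = 0 ∧ 0 < N * a := fun r z e => by
      obtain ⟨⟨_, b, c⟩, h1, h2, h3, h4⟩ := Zp_ne e
      obtain ⟨a, rfl : _ = _⟩ := (ph_ne h4).1
      exact ⟨a, b, c, h1, h2, h3⟩
    rw [of_not_not fun e => H (k r z e), mul_zero]
    by_contra e
    obtain ⟨a, b, c, h1, h2, h3⟩ := k _ _ e
    exact H ⟨c, -b, a, (d a b c).trans h1, fr_fr (N := N) z ▸ fr_form h2 h3⟩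

theorem Zp_dv (h : Ok N δ) (r : ZMod (2 * N)) : Dv (4 * N) (cs (Zp N δ n r)) := by
  have := g0_le (dvd_mul_left N 4)
  obtain ⟨s, hs⟩ := (divs N δ h n r).2.2.2 _ inferInstance this
  exact ⟨fun γ a z => congrArg Int.cast (Zp_inv h.odd (this a) z), s, fun z hz =>
    hs.ex z (Int.cast_ne_zero.1 hz)⟩

theorem wn0 {i : ℕ} (I : Ix (4 * N) N i) (h : Ok N δ) {r : ZMod (2 * N)} {y d : ℤ} (hy : y ≠ 0)
    (hd : d % 8 = 7) (e : (δ : ℤ) * n = y ^ 2 * d) {s : Finset ℍ} {F : ℍ → ℂ}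
    (hs : Reps (Gamma0 N) (Zp N δ n r) s) (hF : Inv N F) :
    ws (4 * N) (cs (Zp N δ n r)) F = i * evd s (Zp N δ n r) F ∧ (∑ z ∈ s, Zp N δ n r z = 0 →
      ∀ η C : ℂ, (∀ z z' : ℍ, (z' : ℂ) = -1 / (N * z) → F z' = η * F z + C) →
        ws (4 * N) (cs (Zd N δ n r)) F =
          i * (1 + η * (eps δ * J(N | δ) : ℤ)) * evd s (Zp N δ n r) F) := by
  have iv : ∀ r, Inv N (cs (Zp N δ n r)) := fun r γ a z => congrArg Int.cast (Zp_inv h.odd a z)
  have f : ∀ r z, cs (Zp N δ n r) z ≠ 0 → ∀ γ : SL(2, ℤ), γ • z = z → γ = 1 ∨ γ = -1 :=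
    fun r z hz => by
      obtain ⟨l, a, b, -⟩ := Zp_ne (Int.cast_ne_zero.1 hz)
      exact free hy hd (e ▸ a) b
  have k := I _ F s id (iv r) hF (f r) (fun z hz => by
    obtain ⟨γ, a, b⟩ := hs.ex z (Int.cast_ne_zero.1 hz)
    exact ⟨_, b, γ, a, rfl⟩) hs.uq
  refine ⟨k, fun dg η C hC => ?_⟩
  have k' := I _ F s (fr N) (iv (-r)) hF (f _) (fun z hz => by
    rw [← fr_fr (N := N) z, cs, Zp_fr h] at hz
    obtain ⟨γ, a, b⟩ := hs.ex _ (right_ne_zero_of_mul (Int.cast_ne_zero.1 hz))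
    obtain ⟨g, c, u⟩ := fr_g0 a
    exact ⟨_, b, g, c, by rw [← u, fr_fr]⟩) fun z a w b γ c u => by
      obtain ⟨g, c', u'⟩ := fr_g0 c
      exact hs.uq z a w b g c' (by rw [← fr_fr (N := N) z, u', u, fr_fr])
  have dg' : ∑ z ∈ s, (Zp N δ n r z : ℂ) = 0 := by exact_mod_cast dg
  rw [show cs (Zd N δ n r) = cs (Zp N δ n r) + (eps δ : ℂ) • cs (Zp N δ n (-r)) from
    funext fun z => by simp [cs, Zd_eq h], ws_add (Zp_dv h r) ((Zp_dv h _).smul _), ws_smul, k, k']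
  simp only [cs, Zp_fr h, hC _ _ (coe_fr _), evd, id, Int.cast_mul, mul_add, mul_assoc,
    Finset.sum_add_distrib, mul_left_comm _ η, ← Finset.mul_sum, ← Finset.sum_mul, dg']
  ring

theorem wn (G : GAU) : WN := fun N _ δ δ' β h => by
  obtain ⟨i, hi, I⟩ := ex_ix (mul_pos four_pos (NeZero.pos N)) (dvd_mul_left N 4)
  obtain ⟨g, -, -, e1, e2, -⟩ := G N δ δ' β h
  obtain ⟨b1, b2, -⟩ := bdv N δ δ' β h
  have d0 : δ ≠ 0 := h.ok.sq.ne_zero
  have d1 : (δ : ℤ) ≠ 0 := Int.natCast_ne_zero.2 d0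
  have d8 : (δ' : ℤ) % 8 = 7 := by exact_mod_cast h.m8
  refine ⟨i, hi, fun s F hs hF => ?_⟩
  have k := wn0 I h.ok d1 d8 (by push_cast; ring) hs hF
  have k' := wn0 I g.ok1 d1 d8 (by push_cast; ring) (b1 ▸ hs) hF
  refine ⟨k.1, fun η C hC => ⟨k.2 (b2 s hs) η C hC, ?_⟩⟩
  rw [k'.2 (b1 ▸ b2 s hs) η C hC, ← b1, eps, jacobiSym.mul_right' _ d0 h.sq.ne_zero,
    jacobiSym.mul_right' _ d0 h.sq.ne_zero, e2, ← eps, ← eps, e1]
  push_cast
  ring

end Vale.Agent.P004Z.Ar
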