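import Vale.Agent.P004Z.Ar.Aro
import Vale.Agent.P004Z.Ar.Ratl
import Vale.Agent.P004Z.Ar.Ae
import Vale.Agent.P004Z.Ar.Plc
import Vale.Agent.P004Z.Ar.Unf
import Vale.Agent.P004Z.Ar.Abl
import Vale.Agent.P004Z.Ar.Act
import Vale.Agent.P004Z.Ar.Areg
import Vale.Agent.P004Z.Ar.Genx
import Vale.Agent.P004Z.Ar.Fun
import Vale.Agent.P004Z.Ar.Adj
import Vale.Agent.P004Z.Ar.Wn
import Vale.Agent.P004Z.Fin.Core
import Vale.Agent.P004Z.Fin.R2
import Vale.Agent.P004Z.Hd.He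
import Vale.Agent.P004Z.Hd.Kl
import Vale.Agent.P004Z.W2.Proj
import Vale.Agent.P004Z.Th.Gau
import Vale.Agent.P004Z.EF.All
import Vale.Agent.P004Z.Bo.Gu

/-! # P004Z, rows ARE and ARO -/

set_option autoImplicit false

namespace Vale.Agent.P004Z.Ar

theorem are_aro : ARE ∧ ARO :=
  have a := ae plc fun_row
  have g := genx hdiv divs adj a prt
  have w := wn gau_row
  ⟨areg divs bdv gau_row (unf EF.par) prt w g (tors w),
    aro divs bdv proj Bo.gu (unf EF.par) prt w g (tors w) rel fun_row cst pk a psi (deg a ws_row)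
      (abl Bo.uni1) act_row ratl Fin.ext Fin.off Fin.fn⟩

end Vale.Agent.P004Z.Ar
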