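import Vale.Agent.P004Z.Ar.Rel
import Vale.Agent.P004Z.Ar.Adj

/-! # P004Z, row ABL: pull-back, Hecke operators, parabolic elements, lifting of characters -/

set_option autoImplicit false
set_option linter.all false

open UpperHalfPlane CongruenceSubgroup Filter Topology
open scoped MatrixGroups Classical Real ComplexConjugate Manifold

noncomputable section

namespace Vale.Agent.P004Z

open Ar.Rl P004N.H461

variable {M : ℕ} {n : ℍ → ℤ} {φ φ' : ℍ → ℝ} {Ψ : ℍ → ℂ}

theorem Mero.pow (h : Mero n Ψ) (k : ℕ) : Mero ((k : ℤ) • n) (Ψ ^ k) := fun w => by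
  obtain ⟨u, a, h0, e⟩ := h w
  exact ⟨u ^ k, a.pow k, pow_ne_zero k h0, e.mono fun z e => by
    rw [Pi.pow_apply, e, mul_pow, Pi.smul_apply, smul_eq_mul, mul_comm (k : ℤ), zpow_mul,
      zpow_natCast, Pi.pow_apply]⟩

theorem Cus.pow (h : Cus Ψ) (k : ℕ) : Cus (Ψ ^ k) := fun γ => by
  obtain ⟨C, y, h0, e⟩ := h γ
  refine ⟨C ^ k, y, pow_pos h0 k, fun z hz => ?_⟩
  rw [Pi.pow_apply, norm_pow, ← inv_pow]
  exact ⟨pow_le_pow_left₀ (inv_pos.2 h0).le (e z hz).1 k,
    pow_le_pow_left₀ (norm_nonneg _) (e z hz).2 k⟩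

theorem Mero.aff (h : Mero n Ψ) {A : ℍ → ℍ} {a b : ℂ} (ha : a ≠ 0) (e : ∀ z, (A z : ℂ) = a * z + b) :
    Continuous A ∧ Mero (fun z => n (A z)) fun z => Ψ (A z) := by
  have c : Continuous A := isEmbedding_coe.continuous_iff.2 (by
    rw [show ((↑) : ℍ → ℂ) ∘ A = fun z : ℍ => a * z + b from funext e]
    fun_prop)
  refine ⟨c, fun w => ?_⟩
  obtain ⟨u, h1, h0, k⟩ := h (A w)
  rw [e] at h1 h0
  refine ⟨fun z => a ^ n (A w) * u (a * z + b), analyticAt_const.mul
    (h1.comp_of_eq (f := fun z => a * z + b) (by fun_prop) rfl), mul_ne_zero (zpow_ne_zero _ ha) h0,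
    (c.continuousAt.eventually k).mono fun z q => ?_⟩
  dsimp only
  rw [q, e, e, add_sub_add_right_eq_sub, ← mul_sub, mul_zpow]
  ring

theorem Mero.law (h : Mero n Ψ) (γ : SL(2, ℤ)) {f : ℍ → ℂ} (c : Continuous f) (u : ∀ z, ‖f z‖ = 1)
    (e : ∀ w, ∀ᶠ z in 𝓝[≠] w, Ψ (γ • z) = f z * Ψ z) (w : ℍ) : Ψ (γ • w) = f w * Ψ w := by
  have i := h.eq γ ((e w).mono fun z q => by rw [q, norm_mul, u, one_mul])
  by_cases k : n w = 0
  · exact tendsto_nhds_unique_of_eventuallyEq (l := 𝓝[≠] w)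
      (((h.cont (i.trans k)).comp (cont_smul γ).continuousAt).tendsto.mono_left nhdsWithin_le_nhds)
      ((c.continuousAt.mul (h.cont k)).tendsto.mono_left nhdsWithin_le_nhds) (e w)
  · rw [not_not.1 (mt (h.zero_iff _).2 k), not_not.1 (mt (h.zero_iff _).2 (i ▸ k)), mul_zero]

theorem Mero.prod {ι : Type} (s : Finset ι) {n : ι → ℍ → ℤ} {Ψ : ι → ℍ → ℂ}
    (h : ∀ i, Mero (n i) (Ψ i)) : ∃ F, Mero (∑ i ∈ s, n i) F ∧
      ∀ z, (∀ i, n i z = 0) → F z = ∏ i ∈ s, Ψ i z := by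
  induction s using Finset.induction_on with
  | empty => exact ⟨1, fun w => ⟨1, analyticAt_const, one_ne_zero, by simp⟩, by simp⟩
  | insert i s hi ih =>
    obtain ⟨F, h1, h3⟩ := ih
    obtain ⟨G, k1, k3⟩ := (h i).mul h1
    exact ⟨G, by rwa [Finset.sum_insert hi], fun z hz => by
      rw [Finset.prod_insert hi, k3 z (hz i) (by simp [hz]), h3 z hz]⟩

theorem Cus.prod {ι : Type} (s : Finset ι) {Ψ : ι → ℍ → ℂ} (h : ∀ i, Cus (Ψ i)) :
    Cus (∏ i ∈ s, Ψ i) := by
  refine Finset.prod_induction _ Cus (fun F G h h' γ => ?_) (fun γ => ⟨1, 0, one_pos, by simp⟩)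
    fun i _ => h i
  obtain ⟨C, y, h0, k⟩ := h γ
  obtain ⟨C', y', h0', k'⟩ := h' γ
  refine ⟨C * C', max y y', mul_pos h0 h0', fun z hz => ?_⟩
  obtain ⟨k1, k2⟩ := k z (lt_of_le_of_lt (le_max_left _ _) hz)
  obtain ⟨k3, k4⟩ := k' z (lt_of_le_of_lt (le_max_right _ _) hz)
  rw [Pi.mul_apply, norm_mul, mul_inv]
  exact ⟨mul_le_mul k1 k3 (inv_pos.2 h0').le (norm_nonneg _),
    mul_le_mul k2 k4 (norm_nonneg _) h0.le⟩

theorem Cus.congr (h : Cus Ψ) {F : ℍ → ℂ} (e : ∀ z, Ψ z ≠ 0 → F z = Ψ z) : Cus F := fun γ => by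
  obtain ⟨C, y, h0, k⟩ := h γ
  exact ⟨C, y, h0, fun z hz => by
    rw [e _ (norm_pos_iff.1 ((inv_pos.2 h0).trans_le (k z hz).1))]; exact k z hz⟩

theorem Cus.mb (h : Cus Ψ) {m : M2} (hm : 0 < m.det) : Cus fun z => Ψ (Ar.mb m z) := fun γ => by
  obtain ⟨g, a, b, d, p, e⟩ := hermite (m * γ.1) (by simpa using hm)
  obtain ⟨C, y, h0, k⟩ := h g
  have p1 : 0 < (!![a, b; 0, d] : M2).det := by simpa [Matrix.det_fin_two_of] using p
  have d0 : (d : ℝ) ≠ 0 := Int.cast_ne_zero.2 (right_ne_zero_of_mul p.ne')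
  have p2 : (0 : ℝ) < a / d := div_pos_iff.2 (mul_pos_iff.1 (by exact_mod_cast p))
  refine ⟨C, y / (a / d), h0, fun z hz => ?_⟩
  dsimp only
  rw [← Ar.mb_SL, ← Ar.mb_mul hm (by simp), e, Ar.mb_mul (by simp) p1, Ar.mb_SL]
  refine k _ (((div_lt_iff₀ p2).1 hz).trans_eq ?_)
  rw [← coe_im (Ar.mb _ z), Ar.coe_mb p1]
  simp [Complex.div_intCast_im]
  ring

namespace Ar

theorem Un.congr (h : Un M n φ Ψ) (c : ℝ) (e : ∀ z, φ' z = φ z + c) : Un M n φ' Ψ :=
  ⟨h.mero, h.cus, fun γ hγ z => by rw [e, e, add_sub_add_right_eq_sub]; exact h.law γ hγ z⟩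

theorem ee_sum {ι : Type} (s : Finset ι) (f : ι → ℂ) : ee (∑ i ∈ s, f i) = ∏ i ∈ s, ee (f i) := by
  rw [ee, Finset.mul_sum, Complex.exp_sum]
  rfl

/-- the Hecke operators on unitary functions -/
theorem Un.hecke (h : Un M n φ Ψ) (c : Continuous φ) {l : ℕ} (hl : l.Prime) (hM : ¬ l ∣ M) :
    ∃ F, Un M (fun z => ∑ j, n (mb (al l j) z)) (fun z => ∑ j, φ (mb (al l j) z)) F := by
  have l0 : (l : ℂ) ≠ 0 := Nat.cast_ne_zero.2 hl.ne_zero
  have a : ∀ j, Continuous (mb (al l j)) ∧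
      Mero (fun z => n (mb (al l j) z)) fun z => Ψ (mb (al l j) z) := fun j => by
    rcases j with _ | j
    · exact h.mero.aff (b := 0) l0 fun z => by rw [coe_mb (al_pos hl _)]; simp [al]
    · exact h.mero.aff (b := (j : ℕ) / l) (inv_ne_zero l0) fun z => by
        rw [coe_mb (al_pos hl _)]; simp [al]; ring
  obtain ⟨F, h1, h2⟩ := Mero.prod Finset.univ fun j => (a j).2
  rw [show (∑ j, fun z => n (mb (al l j) z)) = fun z => ∑ j, n (mb (al l j) z) from
    funext fun z => Finset.sum_apply _ _ _] at h1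
  refine ⟨F, h1, (Cus.prod Finset.univ fun j => h.cus.mb (al_pos hl j)).congr fun z hz => ?_,
    fun γ hγ => h1.law γ ?_ (fun z => norm_ee _) fun w => ?_⟩
  · rw [Finset.prod_apply] at hz ⊢
    exact h2 z fun j => (h.mero.zero_iff _).2 (Finset.prod_ne_zero_iff.1 hz j (Finset.mem_univ j))
  · have := fun j => (a j).1
    have := cont_smul γ
    unfold ee
    fun_prop
  · obtain ⟨σ, δ, hσ, k⟩ := (EF.cor_T hl hM).2 γ hγ
    have e : ∀ j z, mb (al l j) (γ • z) = δ j • mb (al l (σ j)) z := fun j z => by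
      rw [← mb_SL, ← mb_mul (al_pos hl j) (by simp), (k j).2, mb_al hl]
    have b := Finite.injective_iff_bijective.1 hσ
    filter_upwards [eventually_all.2 fun j => nhdsWithin_le_nhds ((a j).2.ev w),
      self_mem_nhdsWithin] with z h3 hz
    rw [h2 z fun j => h3 j hz, h2 _ fun j => by rw [e, h.inv _ (k j).1]; exact h3 _ hz,
      ← b.sum_comp fun j => φ (mb (al l j) z), ← b.prod_comp fun j => Ψ (mb (al l j) z),
      ← Finset.sum_sub_distrib, Complex.ofReal_sum, ee_sum, ← Finset.prod_mul_distrib]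
    exact Finset.prod_congr rfl fun j _ => by rw [e, h.law _ (k j).1]

theorem Un.pow (h : Un M n φ Ψ) (k : ℕ) : Un M ((k : ℤ) • n) ((k : ℝ) • φ) (Ψ ^ k) :=
  ⟨h.mero.pow k, h.cus.pow k, fun γ hγ z => by
    rw [Pi.pow_apply, h.law γ hγ, mul_pow, ee, ← Complex.exp_nat_mul, ee]
    congr 2
    simp
    ring⟩

/-- the multiplier of a parabolic element is trivial -/
theorem parab (h : Mero n Ψ) (hc : Cus Ψ) (γ : SL(2, ℤ)) {m : ℕ} (hm : 0 < m) {χ : ℂ} (u : ‖χ‖ = 1)
    (e : ∀ z, Ψ ((γ * ModularGroup.T ^ m * γ⁻¹) • z) = χ * Ψ z) : χ = 1 := by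
  by_contra q
  obtain ⟨α, a0, a1, ea⟩ : ∃ α : ℝ, 0 < α ∧ α < 1 ∧ χ = ee α := by
    have p := Real.pi_pos
    have k := Complex.norm_mul_exp_arg_mul_I χ
    rw [u, Complex.ofReal_one, one_mul] at k
    have k1 : χ = ee (Int.fract (χ.arg / (2 * π)) : ℝ) := by
      have : (π : ℂ) ≠ 0 := by exact_mod_cast p.ne'
      rw [Int.fract, ee, ← k, Complex.exp_eq_exp_iff_exists_int]
      refine ⟨⌊(Complex.exp (χ.arg * Complex.I)).arg / (2 * π)⌋, ?_⟩
      rw [k]
      push_cast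
      field_simp
      ring
    exact ⟨_, (Int.fract_nonneg _).lt_of_ne fun e => q (by rw [k1, ← e]; simp [ee]),
      Int.fract_lt_one _, k1⟩
  obtain ⟨C, y, h0, k⟩ := hc γ
  have m0 : (0 : ℝ) < m := Nat.cast_pos.2 hm
  let H : ℂ → ℂ := fun z => if 0 < z.im then Ψ (γ • ofComplex z) * ee ((1 - α) / m * z) else 0
  have nH : ∀ z : ℂ, 0 < z.im →
      ‖H z‖ = ‖Ψ (γ • ofComplex z)‖ * Real.exp (-(2 * π * ((1 - α) / m)) * z.im) := fun z hz => by
    simp only [H, if_pos hz, norm_mul, ee, Complex.norm_exp]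
    congr 2
    rw [show ((1 : ℂ) - α) / m = ((1 - α) / m : ℝ) by push_cast; rfl]
    simp
    ring
  have big : ∀ t : ℝ, ∀ᶠ z : ℂ in comap Complex.im atTop, t < z.im := fun t =>
    tendsto_comap.eventually_gt_atTop t
  have bd : ∀ᶠ z : ℂ in comap Complex.im atTop, 0 < z.im ∧ C⁻¹ ≤ ‖Ψ (γ • ofComplex z)‖ ∧
      ‖Ψ (γ • ofComplex z)‖ ≤ C := by
    filter_upwards [big 0, big y] with z h1 h2
    exact ⟨h1, k _ (by rwa [ofComplex_apply_of_im_pos h1])⟩
  have dec : ∀ t : ℝ, 0 < t → Tendsto (fun z : ℂ => Real.exp (-t * z.im)) (comap Complex.im atTop)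
      (𝓝 0) := fun t ht =>
    Real.tendsto_exp_atBot.comp (tendsto_comap.const_mul_atTop_of_neg (neg_lt_zero.2 ht))
  have per : Function.Periodic H (m : ℝ) := fun z => by
    simp only [H, Complex.add_im, Complex.ofReal_im, add_zero]
    split_ifs with hz
    · have e1 : ofComplex (z + (m : ℝ)) = ModularGroup.T ^ m • ofComplex z := by
        rw [← zpow_natCast, modular_T_zpow_smul, ofComplex_apply_of_im_pos hz,
          ofComplex_apply_of_im_pos (by simpa using hz)]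
        exact UpperHalfPlane.ext (by simp [add_comm])
      have e2 := e (γ • ofComplex z)
      rw [mul_smul, mul_smul, inv_smul_smul] at e2
      rw [e1, e2, ea, mul_add, ee_add, show ((1 : ℂ) - α) / m * (m : ℝ) = 1 + -α by
        have : (m : ℂ) ≠ 0 := Nat.cast_ne_zero.2 hm.ne'
        push_cast
        field_simp
        ring, ee_add, ee_neg, show ee 1 = 1 by simp [ee]]
      have : ee α ≠ 0 := Complex.exp_ne_zero _
      field_simp
    · rfl
  have hol : ∀ᶠ z : ℂ in comap Complex.im atTop, DifferentiableAt ℂ H z := by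
    filter_upwards [bd] with z ⟨h1, h2, _⟩
    obtain ⟨v, k1, -, k2⟩ := h (γ • ofComplex z)
    rw [(h.zero_iff _).2 (norm_pos_iff.1 ((inv_pos.2 h0).trans_le h2))] at k2
    have d1 : MDiffAt Ψ (γ • ofComplex z) := MDifferentiableAt.congr_of_eventuallyEq
      (f := v ∘ (↑)) (k1.differentiableAt.mdifferentiableAt.comp _ (mdifferentiable_coe _))
      (k2.mono fun z e => by simpa using e)
    have d2 := (d1.comp _ (mdifferentiable_smul (g := (γ : GL (Fin 2) ℝ)) (by simp)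
      (ofComplex z))).comp z (mdifferentiableAt_ofComplex h1)
    refine (d2.differentiableAt.mul (show DifferentiableAt ℂ (fun z => ee ((1 - α) / m * z)) z by
      unfold ee; fun_prop)).congr_of_eventuallyEq ?_
    filter_upwards [isOpen_upperHalfPlaneSet.mem_nhds h1] with w hw
    exact if_pos hw
  have zer : ZeroAtFilter (comap Complex.im atTop) H := by
    refine squeeze_zero_norm' ?_ (mul_zero C ▸ (dec (2 * π * ((1 - α) / m))
      (by have := sub_pos.2 a1; positivity)).const_mul C)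
    filter_upwards [bd] with z ⟨h1, _, h3⟩
    rw [nH z h1]
    exact mul_le_mul_of_nonneg_right h3 (Real.exp_pos _).le
  obtain ⟨B, hB⟩ := (Function.Periodic.exp_decay_of_zero_at_inf m0 per hol zer).bound
  have : (comap Complex.im atTop).NeBot := comap_neBot fun t ht =>
    (nonempty_of_mem ht).elim fun x hx => ⟨x * Complex.I, by simpa using hx⟩
  refine not_le.2 (inv_pos.2 h0) (ge_of_tendsto (mul_zero B ▸ (dec (2 * π * (α / m))
    (by positivity)).const_mul B) ?_)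
  filter_upwards [bd, hB] with z ⟨h1, h2, _⟩ h3
  rw [nH z h1, Real.norm_of_nonneg (Real.exp_pos _).le, ← le_div_iff₀ (Real.exp_pos _),
    mul_div_assoc, ← Real.exp_sub] at h3
  refine h2.trans (h3.trans_eq ?_)
  congr 2
  ring

/-- a power of a unitary character lifts to an additive map -/
theorem lift {Γ : Type} [Group Γ] [Group.FG Γ] (χ : Γ →* Circle) : ∃ (k : ℕ) (φ : Γ → ℝ), 0 < k ∧
    (∀ g h, φ (g * h) = φ g + φ h) ∧ (∀ g, χ g = 1 → φ g = 0) ∧ ∀ g, ee (φ g) = χ g ^ k := by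
  let A := Additive χ.range
  have : Module.Finite ℤ A := Module.Finite.iff_addGroup_fg.2 inferInstance
  have : Module.Finite ℤ (Submodule.torsion ℤ A) := Module.IsNoetherian.finite ℤ _
  obtain ⟨r, h1, h2⟩ := Submodule.annihilator_top_inter_nonZeroDivisors
    (Submodule.torsion_isTorsion (R := ℤ) (M := A))
  let f : A →ₗ[ℤ] Additive Circle := χ.range.subtype.toAdditive.toIntLinearMap
  let E : ℝ →ₗ[ℤ] Additive Circle :=
    (AddMonoidHom.mk' (fun x : ℝ => Additive.ofMul (Circle.exp (2 * π * x))) fun x y => by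
      rw [mul_add, Circle.exp_add]; rfl).toIntLinearMap
  obtain ⟨L, hL⟩ := Module.projective_lifting_property E
    ((Submodule.torsion ℤ A).liftQ (r.natAbs • f) fun x hx => by
      have := congrArg Subtype.val (Submodule.mem_annihilator.1 h1 ⟨x, hx⟩ trivial)
      rw [LinearMap.mem_ker, LinearMap.smul_apply, ← map_nsmul, natAbs_nsmul_eq_zero.2 this,
        map_zero])
    fun z => ⟨(z.toMul : ℂ).arg / (2 * π), congrArg Additive.ofMul (by
      rw [mul_div_cancel₀ _ (by positivity), Circle.exp_arg]; rfl)⟩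
  refine ⟨r.natAbs, fun g => L (Submodule.Quotient.mk (Additive.ofMul (χ.rangeRestrict g))),
    Int.natAbs_pos.2 (nonZeroDivisors.ne_zero h2), fun g h => ?_, fun g e => ?_, fun g => ?_⟩
  · simp only [map_mul, ofMul_mul, Submodule.Quotient.mk_add, map_add]
  · dsimp only
    rw [show χ.rangeRestrict g = 1 from Subtype.ext e, ofMul_one, Submodule.Quotient.mk_zero,
      map_zero]
  · have := congrArg (fun z : Additive Circle => (z.toMul : ℂ))
      (LinearMap.congr_fun hL (Submodule.Quotient.mk (Additive.ofMul (χ.rangeRestrict g))))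
    refine Eq.trans ?_ (this.trans (Circle.coe_pow _ _))
    show _ = ((Circle.exp _ : Circle) : ℂ)
    rw [Circle.coe_exp, ee]
    congr 1
    push_cast
    ring

end Ar

end Vale.Agent.P004Z
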