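import Vale.Agent.P297Y.Tor.Wda
import Vale.Agent.P027H.Add

/-! # P004Z, row AE: the map from a curve to `ℂ / Λ` given by a solution of the cubic -/

set_option autoImplicit false
set_option linter.all false

open Filter Topology Vale.Agent.P019P Vale.Agent.P297Y.Jac
open Vale.Agent.P027H (IsLat wp dwp g2 g3)

noncomputable section

namespace Vale.Agent.P004Z.Ar.Ae

theorem linv {φ Z : ℂ → ℂ} {u c : ℂ} (hφ : AnalyticAt ℂ φ u) (hd : HasDerivAt φ c u) (hc : c ≠ 0)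
    (hZ : AnalyticAt ℂ Z 0) (e : Z 0 = φ u) :
    ∃ Ψ, AnalyticAt ℂ Ψ 0 ∧ Tendsto Ψ (𝓝 0) (𝓝 u) ∧ ∀ᶠ s in 𝓝 0, φ (Ψ s) = Z s := by
  have h1 : ContDiffAt ℂ ⊤ φ u := hφ.contDiffAt
  have h2 := hd.hasFDerivAt_equiv hc
  have h3 := (h1.to_localInverse h2 (by simp)).analyticAt
  have h4 := h3.comp_of_eq hZ e
  refine ⟨_, h4, ?_, ?_⟩
  · simpa [e, ContDiffAt.localInverse_apply_image] using h4.continuousAt.tendsto
  · exact (e ▸ hZ.continuousAt.tendsto).eventually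
      (h1.hasStrictFDerivAt' h2 (by simp)).eventually_right_inverse

theorem fac {a b : ℂ → ℂ} {c : ℂ} (hb : Tendsto b (𝓝 0) (𝓝 c)) (hc : c ≠ 0)
    (h : ∀ᶠ s in 𝓝 0, a s * b s = 0) : ∀ᶠ s in 𝓝 0, a s = 0 :=
  (h.and (hb.eventually_ne hc)).mono fun _ k => (mul_eq_zero.1 k.1).resolve_right k.2

variable {Λ : Submodule ℤ ℂ} (h : IsLat Λ)
include h

theorem fin {X Y : ℂ → ℂ} (hX : AnalyticAt ℂ X 0) (hY : AnalyticAt ℂ Y 0) {u : ℂ} (hu : u ∉ Λ)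
    (x0 : X 0 = wp Λ u) (y0 : Y 0 = dwp Λ u)
    (e : ∀ᶠ s in 𝓝 0, Y s ^ 2 = 4 * X s ^ 3 - g2 Λ * X s - g3 Λ) :
    ∃ Ψ, AnalyticAt ℂ Ψ 0 ∧ ∀ᶠ s in 𝓝 0, Ψ s ∉ Λ ∧ wp Λ (Ψ s) = X s ∧ dwp Λ (Ψ s) = Y s := by
  have tX := x0 ▸ hX.continuousAt.tendsto
  have tY := y0 ▸ hY.continuousAt.tendsto
  by_cases h0 : dwp Λ u = 0
  · obtain ⟨Ψ, a, t, k⟩ := linv (h.analyticAt_dwp hu) (h.hasDerivAt_dwp hu)
      (fun k => h.simple hu h0 (by linear_combination 2 * k)) hY y0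
    have n := t.eventually (h.notMem_nhds hu)
    have t1 := (h.analyticAt_wp hu).continuousAt.tendsto.comp t
    refine ⟨Ψ, a, n.and (Eventually.and ((fac (a := fun s => wp Λ (Ψ s) - X s)
      (((((t1.pow 2).add (t1.mul tX)).add (tX.pow 2)).const_mul 4).sub_const (g2 Λ))
      (fun k => h.simple hu h0 (by linear_combination k)) ?_).mono fun s => sub_eq_zero.1) k)⟩
    filter_upwards [e, k, n] with s e k n
    have := h.ode n
    rw [k] at this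
    simp only [Function.comp]
    linear_combination e - this
  · obtain ⟨Ψ, a, t, k⟩ := linv (h.analyticAt_wp hu) (h.hasDerivAt_wp hu) h0 hX x0
    have n := t.eventually (h.notMem_nhds hu)
    refine ⟨Ψ, a, n.and (k.and ((fac (a := fun s => dwp Λ (Ψ s) - Y s)
      (((h.analyticAt_dwp hu).continuousAt.tendsto.comp t).add tY)
      (fun k => h0 (by linear_combination k / 2)) ?_).mono fun s => sub_eq_zero.1))⟩
    filter_upwards [e, k, n] with s e k n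
    have := h.ode n
    rw [k] at this
    simp only [Function.comp]
    linear_combination this - e

theorem inf {Z W : ℂ → ℂ} (hZ : AnalyticAt ℂ Z 0) (tW : Tendsto W (𝓝 0) (𝓝 0)) (z0 : Z 0 = 0)
    (e : ∀ᶠ s in 𝓝 0, Z s ^ 2 * (4 - g2 Λ * W s ^ 2 - g3 Λ * W s ^ 3) = W s) :
    ∃ Ψ, AnalyticAt ℂ Ψ 0 ∧ ∀ᶠ s in 𝓝 0, Ψ s = 0 ∧ W s = 0 ∨
      Ψ s ∉ Λ ∧ W s ≠ 0 ∧ wp Λ (Ψ s) = (W s)⁻¹ ∧ dwp Λ (Ψ s) = (W s)⁻¹ * (Z s)⁻¹ := by
  have n := eventually_nhdsWithin_iff.1 h.notMem_zero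
  have o := @h.ode
  obtain ⟨L, rfl⟩ := h
  have a := P014G.pa_analytic L
  have a0 := P014G.pa_zero L
  have b : AnalyticAt ℂ (fun v => v * deriv (P014G.pa L) v - 2 * P014G.pa L v) 0 :=
    (analyticAt_id.mul a.deriv).sub (analyticAt_const.mul a)
  have c := a.div b (by simp [a0])
  obtain ⟨Ψ, an, t, k⟩ := linv (analyticAt_id.mul c)
    ((hasDerivAt_id (0 : ℂ)).mul c.differentiableAt.hasDerivAt) (by simp [a0]) hZ (by simp [z0])
  have tZ := z0 ▸ hZ.continuousAt.tendsto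
  have ta := a.continuousAt.tendsto.comp t
  have tw := (t.pow 2).div ta (by simp [a0])
  simp only [ne_eq, OfNat.ofNat_ne_zero, not_false_eq_true, zero_pow, zero_div] at tw
  have k0 := ta.eventually_ne (a0.trans_ne one_ne_zero)
  have k1 := (b.continuousAt.tendsto.comp t).eventually_ne (b₂ := 0) (by simp [a0])
  have k2 := fac (a := fun s => Ψ s ^ 2 / P014G.pa L (Ψ s) - W s) (((tZ.pow 2).mul
    (((tw.add tW).const_mul (g2 L.lattice)).add (((((tw.pow 2).add (tw.mul tW)).add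
      (tW.pow 2))).const_mul (g3 L.lattice)))).const_add 1) (by simp) (by
    filter_upwards [e, k, k0, k1, t.eventually n] with s e k k0 k1 n
    simp only [Pi.div_apply, Pi.mul_apply, Function.comp, id] at k k0 k1 ⊢
    suffices Z s ^ 2 * (4 - g2 L.lattice * (Ψ s ^ 2 / P014G.pa L (Ψ s)) ^ 2 -
      g3 L.lattice * (Ψ s ^ 2 / P014G.pa L (Ψ s)) ^ 3) = Ψ s ^ 2 / P014G.pa L (Ψ s) by
        linear_combination e - this
    rw [← k]
    rcases eq_or_ne (Ψ s) 0 with e0 | e0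
    · simp [e0]
    have o := o (n e0)
    rw [P014G.pa_deriv L (n e0), P014G.pa_eq L e0] at *
    have := right_ne_zero_of_mul k0
    have := right_ne_zero_of_mul k1
    rw [P027H.wp_lat, P027H.dwp_lat] at o
    field_simp
    linear_combination -o)
  refine ⟨Ψ, an, ?_⟩
  filter_upwards [k, k0, k1, k2, t.eventually n] with s k k0 k1 k2 n
  simp only [Pi.div_apply, Pi.mul_apply, Function.comp, id] at k k0 k1
  rw [← sub_eq_zero.1 k2, ← k]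
  rcases eq_or_ne (Ψ s) 0 with e0 | e0
  · simp [e0]
  rw [P014G.pa_deriv L (n e0), P014G.pa_eq L e0] at *
  have := right_ne_zero_of_mul k0
  have := right_ne_zero_of_mul k1
  refine .inr ⟨n e0, div_ne_zero (pow_ne_zero 2 e0) k0, ?_, ?_⟩ <;>
    simp only [P027H.wp_lat, P027H.dwp_lat] <;> field_simp

variable {F : Type} [Field F] [Algebra ℂ F] [CFF ℂ F]

omit h in
theorem sq_mem {P : Plk ℂ F} {y : F} (e : y * y ∈ P.1) : y ∈ P.1 :=
  (P.1.mem_or_inv_mem y).elim id fun k => by simpa using mul_mem e k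

/-- **Abel** -/
theorem abel {x y : F} (e : y * y = 4 * (x * x * x) - algebraMap ℂ F (g2 Λ) * x -
    algebraMap ℂ F (g3 Λ)) : ∃ u : Plk ℂ F → ℂ,
      (∀ P, x ∈ P.1 → u P ∉ Λ ∧ wp Λ (u P) = ev P x ∧ dwp Λ (u P) = ev P y) ∧
      (∀ P, x ∉ P.1 → u P ∈ Λ) ∧ ∀ f : F, f ≠ 0 → (dv ℂ f).sum (fun Q n => n • u Q) ∈ Λ := by
  classical
  have c4 : (4 : F) = algebraMap ℂ F 4 := (map_ofNat _ 4).symm
  have e1 : ∀ P : Plk ℂ F, x ∈ P.1 → y ∈ P.1 ∧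
      ev P y ^ 2 = 4 * ev P x ^ 3 - g2 Λ * ev P x - g3 Λ := fun P k => by
    have k1 := mul_mem (cst_mem P 4) (mul_mem (mul_mem k k) k)
    have k2 := mul_mem (cst_mem P (g2 Λ)) k
    have k3 : y ∈ P.1 := sq_mem (e ▸ c4 ▸ sub_mem (sub_mem k1 k2) (cst_mem P _))
    refine ⟨k3, ?_⟩
    rw [sq, ← ev_mul k3 k3, e, c4, ev_sub (sub_mem k1 k2) (cst_mem P _), ev_sub k1 k2,
      ev_mul (cst_mem P _) (mul_mem (mul_mem k k) k), ev_mul (mul_mem k k) k, ev_mul k k,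
      ev_mul (cst_mem P _) k, ev_cst, ev_cst, ev_cst]
    ring
  choose u hu using fun P : Plk ℂ F => show ∃ u : ℂ,
      (x ∈ P.1 → u ∉ Λ ∧ wp Λ u = ev P x ∧ dwp Λ u = ev P y) ∧ (x ∉ P.1 → u ∈ Λ) by
    by_cases k : x ∈ P.1
    · obtain ⟨u, hu⟩ := h.surj (e1 P k).2
      exact ⟨u, fun _ => hu, (absurd k ·)⟩
    · exact ⟨0, (absurd · k), fun _ => zero_mem _⟩
  have hol : ∀ P : Plk ℂ F, ∃ Ψ, AnalyticAt ℂ Ψ 0 ∧ ∀ᶠ s in 𝓝 0, u ((ch P).pt s) - Ψ s ∈ Λ := by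
    intro P
    by_cases k : x ∈ P.1
    · obtain ⟨m, a⟩ := (ch P).an x k
      obtain ⟨n, u1, u2⟩ := (hu P).1 k
      obtain ⟨Ψ, b, l⟩ := fin h a ((ch P).an y (e1 P k).1).2 n (by simp only [(ch P).pt0, u1])
        (by simp only [(ch P).pt0, u2]) (m.mono fun s k => (e1 _ k).2)
      refine ⟨Ψ, b, (m.and l).mono fun s k => ?_⟩
      obtain ⟨n, u1, u2⟩ := (hu _).1 k.1
      exact h.sub_mem_of_eq n k.2.1 (u1.trans k.2.2.1.symm) (u2.trans k.2.2.2.symm)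
    have w1 := inv_mem_one k
    have x0 : x ≠ 0 := fun e => k (e ▸ zero_mem _)
    obtain ⟨c, hc⟩ : ∃ c, c = 4 - algebraMap ℂ F (g2 Λ) * (x⁻¹ * x⁻¹) -
      algebraMap ℂ F (g3 Λ) * (x⁻¹ * x⁻¹ * x⁻¹) := ⟨_, rfl⟩
    have e2 : ∀ Q : Plk ℂ F, x⁻¹ ∈ Q.1 → c ∈ Q.1 ∧
        ev Q c = 4 - g2 Λ * ev Q x⁻¹ ^ 2 - g3 Λ * ev Q x⁻¹ ^ 3 := fun Q k => by
      have k1 := mul_mem (cst_mem Q (g2 Λ)) (mul_mem k k)
      have k2 := mul_mem (cst_mem Q (g3 Λ)) (mul_mem (mul_mem k k) k)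
      refine ⟨hc ▸ c4 ▸ sub_mem (sub_mem (cst_mem Q 4) k1) k2, ?_⟩
      rw [hc, c4, ev_sub (sub_mem (cst_mem Q 4) k1) k2, ev_sub (cst_mem Q 4) k1,
        ev_mul (cst_mem Q _) (mul_mem (mul_mem k k) k), ev_mul (mul_mem k k) k,
        ev_mul (cst_mem Q _) (mul_mem k k), ev_mul k k, ev_cst, ev_cst, ev_cst]
      ring
    have c0 : ev P c ≠ 0 := by simp [(e2 P (mem_of_one w1)).2, ev_eq_zero w1]
    have c1 : c ≠ 0 := fun e => c0 (e ▸ ev_eq_zero (zero_mem _))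
    have e3 : y * y = x * x * x * c := by
      rw [e, hc]
      field_simp
    have y0 : y ≠ 0 := fun k => by simp [k, x0, c1] at e3
    have e4 : x / y * (x / y) * c = x⁻¹ := by
      rw [div_mul_div_comm, e3]
      field_simp
    have z1 : x / y ∈ P.1 := sq_mem ((eq_mul_inv_iff_mul_eq₀ c1).2 e4 ▸
      mul_mem (mem_of_one w1) (inv_mem_of_ev c0))
    have e5 : ∀ Q : Plk ℂ F, x⁻¹ ∈ Q.1 → x / y ∈ Q.1 → ev Q (x / y) ^ 2 *
        (4 - g2 Λ * ev Q x⁻¹ ^ 2 - g3 Λ * ev Q x⁻¹ ^ 3) = ev Q x⁻¹ := fun Q k l => by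
      rw [← (e2 Q k).2, sq, ← ev_mul l l, ← ev_mul (mul_mem l l) (e2 Q k).1, e4]
    obtain ⟨m, a⟩ := (ch P).an _ (mem_of_one w1)
    obtain ⟨m', a'⟩ := (ch P).an _ z1
    obtain ⟨Ψ, b, l⟩ := inf h a' (by
      simpa only [(ch P).pt0, ev_eq_zero w1] using a.continuousAt.tendsto) (by
        simpa [(ch P).pt0, ev_eq_zero w1] using e5 P (mem_of_one w1) z1)
      ((m.and m').mono fun s k => e5 _ k.1 k.2)
    refine ⟨Ψ, b, ?_⟩
    filter_upwards [m, m', l] with s m m' l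
    rcases l with ⟨l1, l2⟩ | ⟨l1, l2, l3, l4⟩
    · rw [l1, sub_zero]
      refine (hu _).2 fun k => ?_
      have := ev_mul k m
      rw [mul_inv_cancel₀ x0, ev_one, l2, mul_zero] at this
      exact one_ne_zero this
    · have k1 := inv_inv x ▸ inv_mem_of_ev l2
      have k2 := inv_inv x ▸ ev_inv l2
      have z0 : ev ((ch P).pt s) (x / y) ≠ 0 := fun k => l2 (by rw [← e5 _ m m', k]; ring)
      obtain ⟨n, u1, u2⟩ := (hu _).1 k1
      refine h.sub_mem_of_eq n l1 (by rw [u1, l3, k2]) ?_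
      rw [u2, l4, ← k2, ← ev_inv z0, ← ev_mul k1 (inv_mem_of_ev z0), inv_div, mul_div_cancel₀ _ x0]
  refine ⟨u, fun P => (hu P).1, fun P => (hu P).2, fun f f0 => ?_⟩
  obtain ⟨L, rfl⟩ := h
  let T : P297Y.Tor.Torus := ⟨1, ZLattice.comap ℝ L.lattice
    (ContinuousLinearEquiv.funUnique (Fin 1) ℝ ℂ).toLinearMap, inferInstance⟩
  have := P297Y.Tor.wda F T (fun P => T.lat.mkQ fun _ => u P) (fun P => by
    obtain ⟨Ψ, a, k⟩ := hol P
    exact ⟨fun s _ => Ψ s, AnalyticAt.pi fun _ => a, k.mono fun s k =>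
      (Submodule.Quotient.eq _).2 k⟩) _ ⟨f, f0, rfl⟩
  simp only [Finsupp.sum, ← map_zsmul, ← map_sum] at this
  have := (Submodule.Quotient.mk_eq_zero _).1 this
  simpa [T, ZLattice.comap, Finsupp.sum] using this

end Vale.Agent.P004Z.Ar.Ae
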