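import Vale.Agent.P004Z.Ar.St
import Vale.Agent.P004Z.H.Glob
import Vale.Agent.P004Z.EF.Gen

/-! # P004Z, row ARO: points with finite orbits, the action on the parametrisation -/

set_option autoImplicit false
set_option linter.all false

open UpperHalfPlane CongruenceSubgroup
open scoped MatrixGroups Classical

noncomputable section

namespace Vale.Agent.P004Z.Ar

open Vale.Agent.P022.H218.L3 Vale.Agent.P004H.H666 Vale.Agent.P022.H236.L3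
open Vale.Agent.P022K.F0.Cf (od ev Reg reg_iff ev_eq od_zero)
open Vale.Agent.P004Z.Fin (Pk)
open Vale.Agent.P004Z.H (sp Fo mem_Fo sp_trans sp_refl sp_inj xp_sp sp_some)

theorem lq {Λ : Submodule ℤ ℂ} {u : ℂ} (h : ∀ l : ℂ →+ ℂ, (∀ z ∈ Λ, l z = 0) → l u = 0) :
    ∃ k : ℕ, 0 < k ∧ k * u ∈ Λ := by
  by_contra e
  have i : Function.Injective (zmultiplesHom (ℂ ⧸ Λ) (Λ.mkQ u)) :=
    (injective_iff_map_eq_zero _).2 fun k hk => by_contra fun k0 => e ⟨k.natAbs,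
      Int.natAbs_pos.2 k0, by
        rw [zmultiplesHom_apply, ← map_zsmul, Submodule.mkQ_apply, Submodule.Quotient.mk_eq_zero,
          zsmul_eq_mul] at hk
        rcases Int.natAbs_eq k with a | a <;> rw [a] at hk
        · simpa using hk
        · simpa using Λ.neg_mem hk⟩
  obtain ⟨l, hl⟩ := (Module.Baer.of_divisible ℂ).extension_property_addMonoidHom _ i
    (Int.castAddHom ℂ)
  have := h (l.comp Λ.mkQ.toAddMonoidHom) fun z hz => by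
    simp [(Submodule.Quotient.mk_eq_zero Λ).2 hz]
  have h1 := DFunLike.congr_fun hl 1
  simp only [AddMonoidHom.comp_apply, zmultiplesHom_apply, one_smul] at h1
  exact one_ne_zero ((Int.cast_one.symm.trans h1.symm).trans this)

namespace Pz

variable {N : ℕ} {a : ℕ → ℤ} (D : Pz N a)

theorem ex_eq {u v : ℂ} : D.ex u = D.ex v ↔ u - v ∈ D.Λ := by rw [← D.ker, map_sub, sub_eq_zero]

theorem pb_eq (t : ℂ) (τ : ℍ) : D.pb t τ = if D.pi τ = D.ex t then (D.e τ : ℤ) else 0 := by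
  simp only [pb, pi, D.ex_eq]

theorem pi_inv : Inv N D.pi := fun γ hγ z => D.ex_eq.2 (D.inv γ hγ z)

theorem fin_tors {k : ℕ} (hk : 0 < k) : {P : D.E | k • P = 0}.Finite := by
  obtain ⟨L, hL⟩ := D.par.lat
  have k0 : (k : ℂ) ≠ 0 := Nat.cast_ne_zero.2 hk.ne'
  refine (((Set.finite_Ico (0 : ℤ) k).prod (Set.finite_Ico (0 : ℤ) k)).image fun p =>
    D.ex ((p.1 * L.ω₁ + p.2 * L.ω₂) / k)).subset fun P hP => ?_
  obtain ⟨u, rfl⟩ := D.surj P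
  rw [Set.mem_ofPred_eq, ← map_nsmul, D.ker, ← hL, PeriodPair.mem_lattice] at hP
  obtain ⟨m, n, e⟩ := hP
  have k1 : (0 : ℤ) < k := by exact_mod_cast hk
  refine ⟨(m % k, n % k), ⟨⟨Int.emod_nonneg _ k1.ne', Int.emod_lt_of_pos _ k1⟩,
    Int.emod_nonneg _ k1.ne', Int.emod_lt_of_pos _ k1⟩, D.ex_eq.2 ?_⟩
  rw [← hL, PeriodPair.mem_lattice]
  refine ⟨-(m / k), -(n / k), ?_⟩
  rw [nsmul_eq_mul] at e
  rw [Int.emod_def, Int.emod_def]
  push_cast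
  field_simp
  linear_combination -e

theorem fo_div {k : ℕ} (hk : 0 < k) {P : D.E} (h : k • P ∈ Fo D.A D.B) : P ∈ Fo D.A D.B := by
  refine (Set.Finite.biUnion (t := fun Q => {R : D.E | k • R = Q}) h fun Q _ => ?_).subset ?_
  · by_cases e : ∃ R, k • R = Q
    · obtain ⟨R, rfl⟩ := e
      exact ((D.fin_tors hk).image (· + R)).subset fun S hS =>
        ⟨S - R, by rw [Set.mem_ofPred_eq, nsmul_sub, hS, sub_self], sub_add_cancel _ _⟩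
    · exact Set.finite_empty.subset fun R hR => e ⟨R, hR⟩
  · rintro _ ⟨σ, rfl⟩
    exact Set.mem_biUnion ⟨σ, rfl⟩ (map_nsmul _ _ _).symm

theorem inf_fo : (Fo D.A D.B : Set D.E).Infinite := by
  obtain ⟨L, hL⟩ := D.par.lat
  refine Set.infinite_of_injective_forall_mem (f := fun n : ℕ => D.ex (L.ω₁ / (n + 2 : ℕ)))
    (fun m n e => ?_) fun n => D.fo_div (k := n + 2) (by omega) ?_
  · have h := (L.mul_ω₁_add_mul_ω₂_mem_lattice (α := 1 / (m + 2 : ℕ) - 1 / (n + 2 : ℕ)) (β := 0)).1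
      (by
        rw [hL]
        convert D.ex_eq.1 e using 1
        push_cast
        ring)
    obtain ⟨k, hk⟩ := Rat.den_eq_one_iff _ |>.1 h.1 |> fun e => (⟨_, e⟩ : ∃ k : ℤ, (k : ℚ) = _)
    have h1 : ∀ m : ℕ, (0 : ℚ) < 1 / (m + 2 : ℕ) ∧ (1 : ℚ) / (m + 2 : ℕ) < 1 := fun m =>
      ⟨by positivity, by rw [div_lt_one (by positivity)]; exact_mod_cast (by omega)⟩
    have h2 : k < 1 := by exact_mod_cast (by linarith [h1 m, h1 n] : (k : ℚ) < 1)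
    have h3 : -1 < k := by exact_mod_cast (by linarith [h1 m, h1 n] : (-1 : ℚ) < k)
    rw [show k = 0 by omega, Int.cast_zero, eq_comm, sub_eq_zero, one_div, one_div, inv_inj] at hk
    simpa using hk
  · rw [← map_nsmul, nsmul_eq_mul, mul_div_cancel₀ _ (Nat.cast_ne_zero.2 (by omega)),
      (D.ker _).2 (hL ▸ L.ω₁_mem_lattice)]
    exact zero_mem _

/-- all conjugates avoid the cusps and `s` -/
def Gd (s : Finset ℍ) (Y : D.E) : Prop :=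
  ∀ σ t, D.ex t = sp σ Y → D.Nc t ∧ ∀ b ∈ s, D.pi b ≠ D.ex t

theorem fin_bad (s : Finset ℍ) : {Y : D.E | Y ∈ Fo D.A D.B ∧ ¬ D.Gd s Y}.Finite := by
  obtain ⟨C, hC⟩ := D.cv
  refine (((C.finite_toSet.image D.ex).union (s.finite_toSet.image D.pi)).inter_of_left
    (Fo D.A D.B)).biUnion (t := fun Z => Set.range fun σ => sp σ Z) (fun Z hZ => hZ.2) |>.subset ?_
  rintro Y ⟨h1, h2⟩
  simp only [Gd, not_forall] at h2
  obtain ⟨σ, t, e, h2⟩ := h2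
  refine Set.mem_biUnion (x := sp σ Y) ⟨by_contra fun h3 => h2 ⟨hC t fun c hc h4 => h3
    (Or.inl ⟨c, hc, (D.ex_eq.2 h4).symm.trans e⟩), fun b hb h4 => h3 (Or.inr ⟨b, hb, h4.trans e⟩)⟩,
    H.Fo.sp h1 σ⟩ ⟨σ.symm, ?_⟩
  simp only [← sp_trans, RingEquiv.self_trans_symm, sp_refl]

theorem ex_gd (s : Finset ℍ) {Q : D.E} (hQ : Q ∈ Fo D.A D.B) :
    ∃ T ∈ Fo D.A D.B, D.Gd s T ∧ D.Gd s (T + Q) := by
  obtain ⟨T, h1, h2⟩ := D.inf_fo.exists_notMem_finite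
    ((D.fin_bad s).union ((D.fin_bad s).image (· - Q)))
  exact ⟨T, h1, by_contra fun e => h2 (Or.inl ⟨h1, e⟩), by_contra fun e =>
    h2 (Or.inr ⟨T + Q, ⟨add_mem h1 hQ, e⟩, add_sub_cancel_right _ _⟩)⟩

theorem ex_nc (u : ℂ) : ∃ t, D.Nc t ∧ D.Nc (t + u) := by
  obtain ⟨C, hC⟩ := D.cv
  obtain ⟨T, -, h2⟩ := D.inf_fo.exists_notMem_finite
    ((C.finite_toSet.image D.ex).union (C.finite_toSet.image fun c => D.ex (c - u)))
  obtain ⟨t, rfl⟩ := D.surj T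
  exact ⟨t, hC t fun c hc e => h2 (Or.inl ⟨c, hc, (D.ex_eq.2 e).symm⟩), hC _ fun c hc e =>
    h2 (Or.inr ⟨c, hc, (D.ex_eq.2 (by convert e using 1; ring)).symm⟩)⟩

theorem ex_nz : ∃ Z : D.E, Z ≠ 0 := by
  obtain ⟨T, -, h⟩ := D.inf_fo.exists_notMem_finite (Set.finite_singleton 0)
  exact ⟨T, h⟩

end Pz

theorem ev_of_val {τ : ℍ} {x : Mer} {c : ℂ} (h : EF.Val τ x c) : ev τ x = c := by
  obtain ⟨g, h, h0, e1, e2⟩ := h
  rw [ev_eq h0 e1, e2, mul_div_cancel_right₀ _ h0]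

namespace Act

variable {N δ : ℕ} {σ : ℂ ≃+* ℂ} {c : MF (Gamma0 N) ≃+* MF (Gamma0 N)} {s : ℍ → ℍ} {χ : ℤ}
  (h : Act N δ σ c s χ)
include h

theorem sq : χ * χ = 1 := by rcases h.sgn with rfl | rfl <;> rfl

theorem cum {f : MF (Gamma0 N)} (hf : CuM f) : CuM (c f) := fun P hP => by
  obtain ⟨J, -, hJ⟩ := P004Z.EF.Gn.exJ
  have e : c (jK N) = jK N := h.rat _ _ hJ fun n => by
    obtain ⟨k, hk⟩ := Subring.mem_bot.1 (P004Z.EF.Gn.ls_mem (A := ⊥) (-1) (F := toCi J) (fun n => by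
      simp [toCi]) n)
    exact ⟨k, by simp [hk]⟩
  have := hf ⟨P.1.comap (c : _ →+* _), fun z => by
    simpa [h.cst] using P.2.1 (σ z), fun e => P.2.2 (top_unique fun y _ => by
      obtain ⟨y, rfl⟩ := c.surjective y
      exact (e.ge (ValuationSubring.mem_top y) : y ∈ P.1.comap (c : _ →+* _)))⟩ (by simpa [e] using hP)
  simpa using this

theorem perm {B : ℍ → ℤ} {t : Finset ℍ} (hB : Reps (Gamma0 N) B t) (e : ∀ τ, B (s τ) = χ * B τ) :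
    ∃ r : Equiv.Perm t, ∀ b : t, ∃ γ ∈ Gamma0 N, γ • s b = r b := by
  have k : ∀ b : t, ∃ b' : t, ∃ γ ∈ Gamma0 N, γ • s b = b' := fun b => by
    obtain ⟨γ, h1, h2⟩ := hB.ex (s b) (by
      rw [e]; exact mul_ne_zero (left_ne_zero_of_mul_eq_one h.sq) (hB.sup _ b.2))
    exact ⟨⟨_, h2⟩, γ, h1, rfl⟩
  choose r hr using k
  refine ⟨Equiv.ofBijective r (Finite.injective_iff_bijective.1 fun b b' e => ?_), hr⟩
  obtain ⟨γ, h1, h2⟩ := hr b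
  obtain ⟨γ', h3, h4⟩ := hr b'
  obtain ⟨g, h5, h6⟩ := (h.inj b b').1 ⟨γ'⁻¹ * γ, mul_mem (inv_mem h3) h1, by
    rw [mul_smul, h2, e, ← h4, inv_smul_smul]⟩
  exact Subtype.ext (hB.uq _ b.2 _ b'.2 g h5 h6)

variable {a : ℕ → ℤ} (D : Pz N a) {xm : D.E → Mer} (pk : Pk N (D.A : ℂ) (D.B : ℂ) D.pi D.e xm)
  (x0 : xm 0 = D.x) (e0 : ∀ τ, 0 < D.e τ)
include pk x0 e0

theorem od_x (τ : ℍ) (Z : D.E) : od (s τ) (D.x - algebraMap ℂ Mer (xp (sp σ Z))) =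
    od τ (D.x - algebraMap ℂ Mer (xp Z)) := by
  obtain ⟨t, h1, h2⟩ := D.par.xq
  have := h.od_eq τ (⟨D.x, D.par.xm⟩ - algebraMap ℂ _ (xp Z))
  rwa [map_sub, h.cst, h.rat ⟨D.x, D.par.xm⟩ t h1 h2, ← xp_sp] at this

theorem pi_eq (τ : ℍ) : D.pi (s τ) = sp σ (D.pi τ) := by
  obtain ⟨Z, hZ⟩ := D.ex_nz
  have k : ∀ τ Z, Z ≠ 0 → (D.pi τ = 0 ↔ od τ (D.x - algebraMap ℂ Mer (xp Z)) < 0) := fun τ Z hZ => by
    have := e0 τ
    rw [← x0, pk.ord 0 Z τ hZ, zero_add, zero_sub]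
    by_cases e : D.pi τ = 0
    · simp only [e, hZ.symm, (neg_ne_zero.2 hZ).symm, if_true, if_false, true_iff]
      omega
    · simp only [e, if_false, false_iff, not_lt]
      split_ifs <;> positivity
  have k1 : D.pi (s τ) = 0 ↔ D.pi τ = 0 := by
    rw [k _ _ ((map_ne_zero_iff _ (sp_inj σ)).2 hZ), k _ _ hZ, h.od_x D pk x0 e0]
  by_cases e : D.pi τ = 0
  · rw [k1.2 e, e, map_zero]
  have h1 := mt (D.ker _).2 e
  have h2 := mt (D.ker _).2 (mt k1.1 e)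
  obtain ⟨_, h3⟩ := D.xy _ h1
  obtain ⟨_, h4⟩ := D.xy _ h2
  obtain ⟨t, a1, a2⟩ := D.par.xq
  obtain ⟨t', a3, a4⟩ := D.par.yq
  have b1 := h.ev_eq τ ⟨D.x, D.par.xm⟩
  have b2 := h.ev_eq τ ⟨D.y, D.par.ym⟩
  rw [h.rat ⟨D.x, D.par.xm⟩ t a1 a2, ev_of_val (D.par.xv _ h1), ev_of_val (D.par.xv _ h2)] at b1
  rw [h.rat ⟨D.y, D.par.ym⟩ t' a3 a4, ev_of_val (D.par.yv _ h1), ev_of_val (D.par.yv _ h2)] at b2
  rw [Pz.pi, Pz.pi, h3, h4, (sp_some σ _).choose_spec]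
  simp only [b1, b2]

theorem e_eq (τ : ℍ) : D.e (s τ) = D.e τ := by
  obtain ⟨Z, hZ, h1⟩ : ∃ Z : D.E, Z ≠ 0 ∧ ((if D.pi τ = Z then 1 else 0) +
      (if D.pi τ = -Z then 1 else 0) - if D.pi τ = 0 then 2 else 0 : ℤ) ≠ 0 := by
    by_cases e : D.pi τ = 0
    · obtain ⟨Z, hZ⟩ := D.ex_nz
      exact ⟨Z, hZ, by simp [e, hZ.symm, hZ]⟩
    · exact ⟨_, e, by simp only [e, if_true, if_false]; split_ifs <;> norm_num⟩
  have := h.od_x D pk x0 e0 τ Z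
  rw [← x0, pk.ord 0 Z τ hZ, pk.ord 0 _ _ ((map_ne_zero_iff _ (sp_inj σ)).2 hZ),
    h.pi_eq D pk x0 e0] at this
  simp only [zero_add, zero_sub, ← map_neg, (sp_inj σ).eq_iff, map_eq_zero_iff _ (sp_inj σ)] at this
  exact_mod_cast mul_right_cancel₀ h1 this

theorem pb_eq {t t' : ℂ} (e : D.ex t' = sp σ (D.ex t)) (τ : ℍ) : D.pb t' (s τ) = D.pb t τ := by
  simp only [D.pb_eq, h.pi_eq D pk x0 e0, h.e_eq D pk x0 e0, e, (sp_inj σ).eq_iff]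

end Act

end Vale.Agent.P004Z.Ar
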