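import Vale.Agent.P004Z.Ar.Ao0
import Vale.Agent.P004Z.Ar.Ws

/-! # P004Z, row ARO: local symbols -/

set_option autoImplicit false
set_option linter.all false

open UpperHalfPlane CongruenceSubgroup Real
open scoped MatrixGroups Classical

noncomputable section

namespace Vale.Agent.P004Z.Ar

open Vale.Agent.P022.H218.L3 Vale.Agent.P004H.H666
open Vale.Agent.P022K.F0.Cf (od ev Reg reg_iff ev_mul od_mul od_inv od_one ev_eq_zero ev_const)
open Vale.Agent.P004Z.Fin (Pk Ov Far FN ex_add)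
open Vale.Agent.P004Z.H (sp Fo lam GG cj lam_sp sp_trans sp_refl sp_inj)

variable {N : ℕ} {a : ℕ → ℤ} (D : Pz N a) (B : ℍ → ℤ) (s : Finset ℍ)

/-- `n = div h + π^* ((t + u) - (t))` -/
structure Dec (n : ℍ → ℤ) (h : MF (Gamma0 N)) (t u : ℂ) : Prop where
  ne : h ≠ 0
  cum : CuM h
  n1 : D.Nc t
  n2 : D.Nc (t + u)
  off : ∀ b ∈ s, D.pi b ≠ D.ex t ∧ D.pi b ≠ D.ex (t + u) ∧ n b = 0
  eq : ∀ τ, n τ = od τ (h : Mer) + (D.pb (t + u) τ - D.pb t τ)

/-- the value of `h` at the divisor `B` -/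
def vB (h : MF (Gamma0 N)) : ℂ := ∏ b ∈ s, ev b (h : Mer) ^ B b

/-- the local symbol -/
def Sy (V : AbsoluteValue ℂ ℝ) (h : MF (Gamma0 N)) (t u : ℂ) : ℝ :=
  ∑ b ∈ s, B b * (lam V (D.pi b - D.ex (t + u)) - lam V (D.pi b - D.ex t)) - log (V (vB B s h))

variable {D B s}

theorem reg_of {τ : ℍ} {y : Mer} (h : od τ y = 0) : Reg τ y := reg_iff.2 (Or.inr h.ge)

theorem ev_ne {τ : ℍ} {y : Mer} (hy : y ≠ 0) (h : od τ y = 0) : ev τ y ≠ 0 := fun e =>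
  ((ev_eq_zero hy (reg_of h)).1 e).ne' h

namespace Dec

variable {n : ℍ → ℤ} {h : MF (Gamma0 N)} {t u : ℂ} (d : Dec D s n h t u)
include d

theorem ne' : (h : Mer) ≠ 0 := fun e => d.ne (Subtype.ext e)

theorem pb0 {b : ℍ} (hb : b ∈ s) : D.pb (t + u) b - D.pb t b = 0 := by
  simp only [D.pb_eq, (d.off b hb).1, (d.off b hb).2.1, if_false, sub_zero]

theorem od0 {b : ℍ} (hb : b ∈ s) : od b (h : Mer) = 0 := by
  have := d.eq b
  rwa [(d.off b hb).2.2, d.pb0 hb, add_zero, eq_comm] at this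

theorem ev0 {b : ℍ} (hb : b ∈ s) : ev b (h : Mer) ≠ 0 := ev_ne d.ne' (d.od0 hb)

theorem vB_ne : vB B s h ≠ 0 := Finset.prod_ne_zero_iff.2 fun _ hb => zpow_ne_zero _ (d.ev0 hb)

theorem sy_eq (V : AbsoluteValue ℂ ℝ) : Sy D B s V h t u = ∑ b ∈ s, B b *
    (lam V (D.pi b - D.ex (t + u)) - lam V (D.pi b - D.ex t) - log (V (ev b (h : Mer)))) := by
  rw [Sy, vB, map_prod, log_prod fun b hb => V.ne_zero (zpow_ne_zero _ (d.ev0 hb)),
    ← Finset.sum_sub_distrib]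
  exact Finset.sum_congr rfl fun b _ => by rw [map_zpow₀, log_zpow]; ring

end Dec

/-- finite places -/
theorem ex_I [NeZero N] {δ δ' : ℕ} {β : ℤ} (fn : FN) (hd : Dat N δ δ' β)
    (hs : ∀ b ∈ s, Bd N δ δ' β b ≠ 0) (h0 : ∑ b ∈ s, B b = 0) {xm : D.E → Mer}
    (pk : Pk N (D.A : ℂ) (D.B : ℂ) D.pi D.e xm) {V : AbsoluteValue ℂ ℝ} {p : ℕ} (hV : Ov V p) :
    ∃ I : (ℍ → ℤ) →+ ℝ, (∀ n, Far V s n → I n = 0) ∧
      ∀ n h t u, Dec D s n h t u → I n = Sy D B s V h t u := by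
  let m : Additive (MF (Gamma0 N))ˣ → Mer := fun x => (x.toMul : MF (Gamma0 N))
  have m0 : ∀ x, m x ≠ 0 := fun x e => x.toMul.ne_zero (Subtype.ext e)
  have ma : ∀ x y, m (x + y) = m x * m y := fun _ _ => rfl
  have mn : ∀ x, m (-x) = (m x)⁻¹ := fun x => by simp [m]
  let T : AddSubgroup (Additive (MF (Gamma0 N))ˣ × (D.E →₀ ℤ) × (ℍ → ℤ)) :=
    { carrier := {x | (∀ b ∈ s, od b (m x.1) = 0 ∧ x.2.1 (D.pi b) = 0) ∧
        (x.2.1.sum fun _ k => k) = 0 ∧ Far V s x.2.2}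
      zero_mem' := ⟨fun b _ => ⟨od_one b, rfl⟩, rfl, Far.zero⟩
      add_mem' := fun {x y} hx hy => ⟨fun b hb => ⟨by
          rw [Prod.fst_add, ma, od_mul _ (m0 _) (m0 _), (hx.1 b hb).1, (hy.1 b hb).1, add_zero], by
          simp [(hx.1 b hb).2, (hy.1 b hb).2]⟩, by
        rw [Prod.snd_add, Prod.fst_add, Finsupp.sum_add_index' (fun _ => rfl) fun _ _ _ => rfl,
          hx.2.1, hy.2.1, add_zero], hx.2.2.add hy.2.2⟩
      neg_mem' := fun {x} hx => ⟨fun b hb => ⟨by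
          rw [Prod.fst_neg, mn, od_inv, (hx.1 b hb).1, neg_zero], by simp [(hx.1 b hb).2]⟩, by
        rw [Prod.snd_neg, Prod.fst_neg, Finsupp.sum_neg_index fun _ => rfl, Finsupp.sum_neg,
          hx.2.1, neg_zero], by simpa using hx.2.2.smul (-1)⟩ }
  let φ : T →+ (ℍ → ℤ) := AddMonoidHom.mk'
    (fun x τ => od τ (m x.1.1) - D.e τ * x.1.2.1 (D.pi τ) - x.1.2.2 τ) fun x y => funext fun τ => by
      simp only [AddSubgroup.coe_add, Prod.fst_add, Prod.snd_add, ma, od_mul _ (m0 _) (m0 _),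
        Finsupp.add_apply, Pi.add_apply]
      ring
  let ψ : T →+ ℝ := AddMonoidHom.mk' (fun x => -∑ b ∈ s, B b * (log (V (ev b (m x.1.1))) +
      x.1.2.1.sum fun Y k => k * lam V (D.pi b - Y))) fun x y => by
    rw [← neg_add, ← Finset.sum_add_distrib]
    refine congrArg _ (Finset.sum_congr rfl fun b hb => ?_)
    have h1 := (x.2.1 b hb).1
    have h2 := (y.2.1 b hb).1
    simp only [AddSubgroup.coe_add, Prod.fst_add, Prod.snd_add, ma]
    rw [ev_mul (reg_of h1) (reg_of h2), map_mul, log_mul (V.ne_zero (ev_ne (m0 _) h1))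
      (V.ne_zero (ev_ne (m0 _) h2)), Finsupp.sum_add_index' (by simp) (by simp [add_mul])]
    ring
  obtain ⟨I, hI⟩ := ex_add φ ψ fun x hx => by
    obtain ⟨c, hc⟩ := fn N δ δ' β s p V _ _ _ _ _ hd hs hV pk (m x.1.1) (Subtype.prop _) (m0 _) _
      x.2.2.2 _ x.2.2.1 (fun b hb => (x.2.1 b hb).2) fun τ => by
        have : od τ (m x.1.1) - D.e τ * x.1.2.1 (D.pi τ) - x.1.2.2 τ = 0 := congrFun hx τ
        linarith
    change -∑ b ∈ s, _ = 0
    rw [Finset.sum_congr rfl fun b hb => by rw [hc b hb], ← Finset.sum_mul, ← Int.cast_sum, h0]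
    simp
  refine ⟨I, fun n hn => ?_, fun n h t u d => ?_⟩
  · have := hI ⟨(0, 0, -n), fun b _ => ⟨od_one b, rfl⟩, rfl, by simpa using hn.smul (-1)⟩
    rw [show φ _ = n from funext fun τ => by
      change od τ 1 - _ * 0 - -n τ = n τ
      simp [od_one]] at this
    rw [this]
    change -∑ b ∈ s, (B b : ℝ) * (log (V (ev b 1)) + 0) = 0
    simp [show ∀ b, ev b 1 = 1 from fun b => by simpa using ev_const b 1]
  · obtain ⟨E, hE⟩ : ∃ E : D.E →₀ ℤ,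
      E = Finsupp.single (D.ex t) 1 - Finsupp.single (D.ex (t + u)) 1 := ⟨_, rfl⟩
    have k1 : ∀ Y, E Y = (if Y = D.ex t then 1 else 0) - if Y = D.ex (t + u) then 1 else 0 :=
      fun Y => by simp only [hE, Finsupp.sub_apply, Finsupp.single_apply, eq_comm (a := Y)]
    have k2 : ∀ f : D.E → ℝ, (E.sum fun Y k => k * f Y) = f (D.ex t) - f (D.ex (t + u)) := fun f => by
      rw [hE, Finsupp.sum_sub_index (by simp [sub_mul]), Finsupp.sum_single_index (by simp),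
        Finsupp.sum_single_index (by simp)]
      simp
    have hx : (Additive.ofMul (Units.mk0 h d.ne), E, 0) ∈ T := ⟨fun b hb => ⟨d.od0 hb, by
        simp only [k1, (d.off b hb).1, (d.off b hb).2.1, if_false, sub_zero]⟩, by
        rw [hE, Finsupp.sum_sub_index fun _ _ _ => rfl]; simp, Far.zero⟩
    have k3 : φ ⟨_, hx⟩ = n := funext fun τ =>
      (show od τ (h : Mer) - D.e τ * E (D.pi τ) - 0 = n τ by
        simp only [d.eq, D.pb_eq, k1]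
        split_ifs <;> ring)
    refine ((congrArg I k3).symm.trans (hI ⟨_, hx⟩)).trans (Eq.trans ?_ (d.sy_eq V).symm)
    change -∑ b ∈ s, (B b : ℝ) * (log (V (ev b (h : Mer))) +
      E.sum fun Y k => k * lam V (D.pi b - Y)) = _
    rw [← Finset.sum_neg_distrib]
    exact Finset.sum_congr rfl fun b _ => by rw [k2 fun Y => lam V (D.pi b - Y)]; ring

theorem green_smul {Γ : Subgroup SL(2, ℤ)} {A Φ : ℍ → ℂ} (h : Green Γ A Φ) {k : ℂ} (hk : k ≠ 0) :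
    Green Γ (k • A) (k • Φ) := by
  refine ⟨fun γ hγ z => congrArg (k * ·) (h.dv γ hγ z), fun γ hγ z e => ?_, fun w => ?_, fun γ => ?_⟩
  · exact congrArg (k * ·) (h.inv γ hγ z ((mul_eq_zero.1 e).resolve_left hk))
  · obtain ⟨f, g, hf, hg, e⟩ := h.loc w
    refine ⟨k • f, (starRingEnd ℂ k) • g, hf.const_smul, hg.const_smul, e.mono fun z e =>
      ⟨fun a => by simp [e.1 a], fun a => ?_⟩⟩
    simp only [Pi.smul_apply, smul_eq_mul, mul_eq_zero, hk, false_or] at a ⊢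
    rw [e.2 a, map_mul, Complex.conj_conj]
    ring
  · obtain ⟨C, y, e⟩ := h.bdd γ
    exact ⟨‖k‖ * C, y, fun z hz => ⟨mul_eq_zero_of_right k (e z hz).1, by
      rw [Pi.smul_apply, norm_smul]
      exact mul_le_mul_of_nonneg_left (e z hz).2 (norm_nonneg _)⟩⟩

/-- the infinite place -/
theorem Dec.arch {n : ℍ → ℤ} {h : MF (Gamma0 N)} {t u : ℂ} (d : Dec D s n h t u) (hN : 0 < N)
    (rel : REL) (fu : FUN) (psi : PSI) (gu : GU) (h0 : ∑ b ∈ s, B b = 0) {Φ : ℍ → ℂ}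
    (g : Green (Gamma0 N) (cs n) Φ) : evd s B Φ = (2 * Sy D B s V0 h t u : ℝ) := by
  obtain ⟨b, -, h1⟩ := psi N a D hN
  obtain ⟨Ψ, C, h2, h3⟩ := h1 t u d.n1 d.n2
  have c1 : Continuous fun z => b * (starRingEnd ℂ u * D.I z).im :=
    have := MDifferentiable.continuous (mem_Hol.1 D.hol)
    by fun_prop
  obtain ⟨Ψ', h4, h5⟩ := (rel N _ _ _ hN continuous_zero ((fu N hN).2 h d.ne d.cum)).2.2.2.2
    _ _ _ c1 h2
  have h6 := (rel N _ _ _ hN (continuous_zero.add c1) h4).2.2.2.1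
  rw [show (fun τ => od τ (h : Mer)) + (D.pb (t + u) - D.pb t) = n from
    funext fun τ => (d.eq τ).symm] at h6
  obtain ⟨C', h7⟩ := gu N _ _ _ hN h6 g
  have h8 := (rel N _ _ _ hN c1 h2).2.2.1
  have h9 : ∑ b ∈ s, (B b : ℂ) * (C' + (2 * C : ℝ)) = 0 := by
    rw [← Finset.sum_mul, ← Int.cast_sum, h0, Int.cast_zero, zero_mul]
  rw [d.sy_eq, ← sub_zero (evd s B Φ), ← h9, evd, Finset.mul_sum, Complex.ofReal_sum,
    ← Finset.sum_sub_distrib]
  refine Finset.sum_congr rfl fun z hz => ?_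
  have e := h3 z (mt D.ex_eq.2 (d.off z hz).1) (mt D.ex_eq.2 (d.off z hz).2.1)
  rw [h7 z (by simp [(d.off z hz).2.2]), h5 z (d.od0 hz) (d.pb0 hz), Complex.normSq_eq_norm_sq,
    log_pow, norm_mul, log_mul (norm_ne_zero_iff.2 (d.ev0 hz))
      (norm_ne_zero_iff.2 ((h8 z).1 (d.pb0 hz))), show log ‖Ψ z‖ = _ from neg_eq_iff_eq_neg.1 e,
    show V0 (ev z (h : Mer)) = ‖ev z (h : Mer)‖ from rfl]
  push_cast
  ring

section act

variable {δ : ℕ} {σ : ℂ ≃+* ℂ} {c : MF (Gamma0 N) ≃+* MF (Gamma0 N)} {r : ℍ → ℍ} {χ : ℤ}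
  (A : Act N δ σ c r χ) {xm : D.E → Mer} (pk : Pk N (D.A : ℂ) (D.B : ℂ) D.pi D.e xm)
  (x0 : xm 0 = D.x) (e0 : ∀ τ, 0 < D.e τ) (hN : 0 < N) (rel : REL) (fu : FUN)
  {n : ℍ → ℤ} {h : MF (Gamma0 N)} {t u t' u' : ℂ} (d : Dec D s n h t u)
  (e1 : D.ex t' = sp σ (D.ex t)) (e2 : D.ex u' = sp σ (D.ex u))
include A pk x0 e0 hN rel fu d e1 e2

theorem Dec.conj (dg : DEG) (g1 : D.Gd s (D.ex t)) (g2 : D.Gd s (D.ex t + D.ex u)) (hi : Inv N n)
    (hn : ∀ τ, n (r τ) = χ * n τ) : Dec D s (χ • n) (c h) t' u' := by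
  have e3 : D.ex (t' + u') = sp σ (D.ex t + D.ex u) := by rw [map_add, map_add, e1, e2]
  have n0 : c h ≠ 0 := (map_ne_zero c).2 d.ne
  obtain ⟨m, -, hm⟩ := dg N a D hN
  refine ⟨n0, A.cum d.cum, (g1 σ t' e1).1, (g2 σ _ e3).1, fun b hb => ⟨(g1 σ t' e1).2 b hb,
    (g2 σ _ e3).2 b hb, by simp [(d.off b hb).2.2]⟩, fun τ => ?_⟩
  obtain ⟨τ, γ, hγ, rfl⟩ := A.surj τ
  have i1 := (rel N _ _ _ hN continuous_zero ((fu N hN).2 _ n0 (A.cum d.cum))).2.1.inv γ hγ (r τ)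
  have i2 := (hm _ (g1 σ t' e1).1).1.inv γ hγ (r τ)
  have i3 := (hm _ (g2 σ _ e3).1).1.inv γ hγ (r τ)
  simp only [cs, Int.cast_inj] at i1 i2 i3
  rw [Pi.smul_apply, hi γ hγ, hn, smul_eq_mul, ← mul_assoc, A.sq, one_mul, i1, i2, i3, A.od_eq,
    A.pb_eq D pk x0 e0 e1, A.pb_eq D pk x0 e0 (e3.trans (by rw [← map_add D.ex])), d.eq]

theorem Dec.gg (hs : Reps (Gamma0 N) B s) (hi : Inv N B) (hB : ∀ τ, B (r τ) = χ * B τ) :
    σ (vB B s h) = vB B s (c h) ^ χ ∧ ∀ (V : ℕ → AbsoluteValue ℂ ℝ) p,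
      GG V s B D.pi (D.ex t) (D.ex u) (vB B s h) σ p = χ * Sy D B s (V p) (c h) t' u' := by
  obtain ⟨q, hq⟩ := A.perm hs hB
  have n0 : c h ≠ 0 := (map_ne_zero c).2 d.ne
  have k : ∀ b : s, B b = χ * B (q b) ∧ sp σ (D.pi b) = D.pi (q b) ∧
      σ (ev b (h : Mer)) = ev (q b) (c h : Mer) := fun b => by
    obtain ⟨γ, hγ, e⟩ := hq b
    have := ((fu N hN).2 _ n0 (A.cum d.cum)).law γ hγ (r b)
    simp only [Pi.zero_apply, sub_self, Complex.ofReal_zero, ee, mul_zero, Complex.exp_zero,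
      one_mul] at this
    rw [← e, hi γ hγ, D.pi_inv γ hγ, this, hB, ← mul_assoc, A.sq, one_mul, A.pi_eq D pk x0 e0,
      A.ev_eq]
    exact ⟨rfl, rfl, rfl⟩
  have h1 : σ (vB B s h) = vB B s (c h) ^ χ := by
    rw [vB, vB, map_prod, ← Finset.prod_zpow, ← Finset.prod_coe_sort s, ← Finset.prod_coe_sort s]
    refine Fintype.prod_equiv q _ _ fun b => ?_
    rw [map_zpow₀, (k b).2.2, (k b).1, mul_comm, zpow_mul]
  refine ⟨h1, fun V p => ?_⟩
  rw [GG, Sy, h1, map_zpow₀, log_zpow, mul_sub, Finset.mul_sum, ← Finset.sum_coe_sort s,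
    ← Finset.sum_coe_sort s]
  congr 1
  refine Fintype.sum_equiv q _ _ fun b => ?_
  rw [map_sub, map_sub, map_add, (k b).2.1, ← e1, ← e2, ← map_add, (k b).1]
  push_cast
  ring

end act

end Vale.Agent.P004Z.Ar
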