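import Vale.Agent.P004Z.Ar.Ao1

/-! # P004Z, row ARO: the sum over all places -/

set_option autoImplicit false
set_option linter.all false

open UpperHalfPlane CongruenceSubgroup Real
open scoped MatrixGroups Classical

noncomputable section

namespace Vale.Agent.P004Z.Ar

open Vale.Agent.P022.H218.L3 Vale.Agent.P004H.H666
open Vale.Agent.P022K.F0.Cf (od ev Reg ev_mul od_mul od_inv ev_const reg_const)
open Vale.Agent.P004Z.Fin (Pk Ov Far)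
open Vale.Agent.P004Z.H (sp Fo lam GG cj lam_sp sp_trans sp_refl sp_inj tt Fs PlC mem_Fo)

/-- the standing hypotheses -/
structure Cx {N : ℕ} {a : ℕ → ℤ} (D : Pz N a) (δ : ℕ) (B : ℍ → ℤ) (s : Finset ℍ) (θ : ℂ)
    (xm : D.E → Mer) : Prop where
  pos : 0 < N
  dpos : 0 < δ
  reps : Reps (Gamma0 N) B s
  deg : ∑ b ∈ s, B b = 0
  inv : Inv N B
  cth : cj θ = -θ
  pm : ∀ σ : ℂ ≃+* ℂ, σ θ = θ ∨ σ θ = -θ
  act : ∀ σ, ∃ c r χ, Act N δ σ c r χ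
  eig : ∀ σ c r χ, Act N δ σ c r χ → σ θ = θ → ∀ τ, B (r τ) = χ * B τ
  pk : Pk N (D.A : ℂ) (D.B : ℂ) D.pi D.e xm
  x0 : xm 0 = D.x
  e0 : ∀ τ, 0 < D.e τ
  rel : REL
  fu : FUN
  psi : PSI
  gu : GU
  dg : DEG
  cst : CST
  ratl : RATL

/-- eigenvectors of the Galois action -/
def Eg (N δ : ℕ) (n : ℍ → ℤ) : Prop :=
  Dv N (cs n) ∧ ∀ σ c r χ, Act N δ σ c r χ → ∀ τ, n (r τ) = χ * n τ

theorem Eg.inv {N δ : ℕ} {n : ℍ → ℤ} (h : Eg N δ n) : Inv N n := fun γ hγ z =>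
  Int.cast_injective (h.1.inv γ hγ z)

theorem Eg.smul {N δ : ℕ} {n : ℍ → ℤ} (h : Eg N δ n) (k : ℤ) : Eg N δ (k • n) :=
  ⟨by convert h.1.smul k using 1; ext; simp [cs], fun σ c r χ A τ => by
    simp only [Pi.smul_apply, h.2 σ c r χ A, smul_eq_mul]; ring⟩

/-- the conjugate place -/
def cV (V : AbsoluteValue ℂ ℝ) : AbsoluteValue ℂ ℝ := V.comp (f := (cj : ℂ →+* ℂ)) cj.injective

theorem cj_cj (σ : ℂ ≃+* ℂ) : (σ.trans cj).trans cj = σ := by ext; simp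

namespace Cx

variable {N : ℕ} {a : ℕ → ℤ} {D : Pz N a} {δ : ℕ} {B : ℍ → ℤ} {s : Finset ℍ} {θ : ℂ}
  {xm : D.E → Mer} (X : Cx D δ B s θ xm)
include X

theorem fo_b {b : ℍ} (hb : b ∈ s) : D.pi b ∈ Fo D.A D.B := by
  have k : ∀ σ : ℂ ≃+* ℂ, σ θ = θ → sp σ (D.pi b) ∈ D.pi '' s := fun σ e => by
    obtain ⟨c, r, χ, A⟩ := X.act σ
    obtain ⟨q, hq⟩ := A.perm X.reps (X.eig σ c r χ A e)
    obtain ⟨γ, hγ, e⟩ := hq ⟨b, hb⟩
    exact ⟨_, (q ⟨b, hb⟩).2, by rw [← e, D.pi_inv γ hγ, A.pi_eq D X.pk X.x0 X.e0]⟩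
  refine ((s.finite_toSet.image D.pi).union ((s.finite_toSet.image D.pi).image (sp cj))).subset ?_
  rintro _ ⟨σ, rfl⟩
  rcases X.pm σ with e | e
  · exact Or.inl (k σ e)
  · exact Or.inr ⟨_, k (σ.trans cj) (by rw [RingEquiv.trans_apply, e, map_neg, X.cth, neg_neg]), by
      rw [← sp_trans, cj_cj]⟩

theorem fo_n {n : ℍ → ℤ} (h : Eg N δ n) {z : ℍ} (hz : n z ≠ 0) : D.pi z ∈ Fo D.A D.B := by
  obtain ⟨t, ht⟩ := h.1.fin
  refine (t.finite_toSet.image D.pi).subset ?_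
  rintro _ ⟨σ, rfl⟩
  obtain ⟨c, r, χ, A⟩ := X.act σ
  obtain ⟨γ, hγ, e⟩ := ht (r z) (Int.cast_ne_zero.2 (by
    rw [h.2 σ c r χ A]; exact mul_ne_zero (left_ne_zero_of_mul_eq_one A.sq) hz))
  exact ⟨_, e, by rw [D.pi_inv γ hγ, A.pi_eq D X.pk X.x0 X.e0]⟩

variable {n : ℍ → ℤ} {h : MF (Gamma0 N)} {t u : ℂ} (d : Dec D s n h t u) (hn : Eg N δ n)
  (g1 : D.Gd s (D.ex t)) (g2 : D.Gd s (D.ex t + D.ex u)) (f1 : D.ex t ∈ Fo D.A D.B)
  (f2 : D.ex u ∈ Fo D.A D.B)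
include d hn g1 g2

theorem fix {σ : ℂ ≃+* ℂ} (e0 : σ θ = θ) (e1 : σ (ee (1 / δ)) = ee (1 / δ))
    (e2 : sp σ (D.ex t) = D.ex t) (e3 : sp σ (D.ex u) = D.ex u) : σ (vB B s h) = vB B s h := by
  obtain ⟨c, r, χ, A⟩ := X.act σ
  obtain rfl := A.one e1
  have d' := d.conj A X.pk X.x0 X.e0 X.pos X.rel X.fu e2.symm e3.symm X.dg g1 g2 hn.inv
    (hn.2 σ c r 1 A)
  rw [(d.gg A X.pk X.x0 X.e0 X.pos X.rel X.fu e2.symm e3.symm X.reps X.inv (X.eig σ c r 1 A e0)).1,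
    zpow_one]
  obtain ⟨κ, hκ⟩ := X.cst N (c h * h⁻¹) X.pos (mul_ne_zero d'.ne (inv_ne_zero d.ne))
    (fun P hP => ⟨mul_mem (d'.cum P hP).1 (d.cum P hP).2, by
      rw [mul_inv, inv_inv]; exact mul_mem (d'.cum P hP).2 (d.cum P hP).1⟩) fun τ => by
      have h1 := d'.eq τ
      rw [one_smul, d.eq, add_left_inj] at h1
      change od τ ((c h : Mer) * (h : Mer)⁻¹) = 0
      rw [od_mul _ d'.ne' (inv_ne_zero d.ne'), od_inv, h1, add_neg_cancel]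
  have h2 : (c h : Mer) = algebraMap ℂ Mer κ * h := (mul_inv_eq_iff_eq_mul₀ d.ne').1 hκ
  have h3 : κ ≠ 0 := fun e => d'.ne' (by rw [h2, e, map_zero, zero_mul])
  have h4 : ∀ t : Finset ℍ, ∏ b ∈ t, κ ^ B b = κ ^ ∑ b ∈ t, B b := fun t => by
    induction t using Finset.induction_on with
    | empty => simp
    | insert b t hb ih => rw [Finset.prod_insert hb, Finset.sum_insert hb, ih, zpow_add₀ h3]
  rw [vB, vB, h2, Finset.prod_congr rfl fun b hb => by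
    rw [ev_mul (reg_const b κ) (reg_of (d.od0 hb)), ev_const, mul_zpow], Finset.prod_mul_distrib, h4,
    X.deg, zpow_zero, one_mul]

include f1 f2

theorem alg : IsAlgebraic ℚ (vB B s h) := by
  let f : (ℂ ≃+* ℂ) → (ℂ × ℂ) × D.E × D.E := fun σ =>
    ((σ θ, σ (ee (1 / δ))), sp σ (D.ex t), sp σ (D.ex u))
  have hf : (Set.range f).Finite := by
    refine (((Set.toFinite {θ, -θ}).prod (Polynomial.nthRootsFinset δ (1 : ℂ)).finite_toSet).prod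
      (Set.Finite.prod f1 f2)).subset ?_
    rintro _ ⟨σ, rfl⟩
    refine ⟨⟨X.pm σ, (Polynomial.mem_nthRootsFinset X.dpos _).2 ?_⟩, ⟨σ, rfl⟩, σ, rfl⟩
    change σ _ ^ δ = 1
    rw [← map_pow, ee, ← Complex.exp_nat_mul, mul_one_div, mul_div_cancel₀ _
      (Nat.cast_ne_zero.2 X.dpos.ne'), Complex.exp_two_pi_mul_I, map_one]
  refine H.alg_of_fin ((hf.image fun x => Function.invFun f x (vB B s h)).subset ?_)
  rintro _ ⟨σ, rfl⟩
  refine ⟨_, ⟨σ, rfl⟩, ?_⟩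
  have e := Function.invFun_eq (f := f) ⟨σ, rfl⟩
  beta_reduce
  generalize Function.invFun f (f σ) = τ at e
  simp only [f, Prod.mk.injEq] at e
  refine σ.symm.injective ((X.fix d hn g1 g2 (σ := τ.trans σ.symm) ?_ ?_ ?_ ?_).trans (by simp))
  · simp [e.1.1]
  · rw [RingEquiv.trans_apply, e.1.2, σ.symm_apply_apply]
  · rw [sp_trans, e.2.1, ← sp_trans, RingEquiv.self_trans_symm, sp_refl]
  · rw [sp_trans, e.2.2, ← sp_trans, RingEquiv.self_trans_symm, sp_refl]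

theorem rat {V : AbsoluteValue ℂ ℝ} {p : ℕ} (hV : Ov V p) :
    ∃ q : ℚ, Sy D B s V h t u = q * log (V p) := by
  obtain ⟨h1, h2⟩ := X.ratl V p hV
  obtain ⟨q, hq⟩ := h1 _ (X.alg d hn g1 g2 f1 f2)
  choose! q1 hq1 using fun P (hP : P ∈ Fo D.A D.B) => h2 D.A D.B P D.par.disc (H.Fo.alg hP)
  refine ⟨∑ b ∈ s, B b * (q1 (D.pi b - D.ex (t + u)) - q1 (D.pi b - D.ex t)) - q, ?_⟩
  rw [Sy, hq]
  push_cast
  rw [sub_mul, Finset.sum_mul]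
  refine congrArg (· - _) (Finset.sum_congr rfl fun b hb => ?_)
  rw [hq1 _ (sub_mem (X.fo_b hb) f1), hq1 _ (sub_mem (X.fo_b hb) (by
    rw [map_add]; exact add_mem f1 f2))]
  ring

omit f1 f2 in
theorem tt_eq {V : ℕ → AbsoluteValue ℂ ℝ} (h0 : V 0 = V0) {I : ℕ → (ℍ → ℤ) →+ ℝ}
    (hI : ∀ p, p.Prime → ∀ n h t u, Dec D s n h t u → I p n = Sy D B s (V p) h t u) {Φ : ℍ → ℂ}
    (g : Green (Gamma0 N) (cs n) Φ) {σ : ℂ ≃+* ℂ} (e : σ θ = θ) :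
    tt (GG V s B D.pi (D.ex t) (D.ex u) (vB B s h) σ) =
      Sy D B s V0 h t u + ∑ᶠ p : Nat.Primes, I p n := by
  obtain ⟨c, r, χ, A⟩ := X.act σ
  obtain ⟨t', e1⟩ := D.surj (sp σ (D.ex t))
  obtain ⟨u', e2⟩ := D.surj (sp σ (D.ex u))
  have d' := d.conj A X.pk X.x0 X.e0 X.pos X.rel X.fu e1 e2 X.dg g1 g2 hn.inv (hn.2 σ c r χ A)
  have k := (d.gg A X.pk X.x0 X.e0 X.pos X.rel X.fu e1 e2 X.reps X.inv (X.eig σ c r χ A e)).2 V
  have s1 : (χ : ℝ) * χ = 1 := by exact_mod_cast A.sq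
  have h1 := d.arch X.pos X.rel X.fu X.psi X.gu X.deg g
  have h2 := d'.arch X.pos X.rel X.fu X.psi X.gu X.deg (Φ := (χ : ℂ) • Φ) (by
    convert green_smul g (k := χ) (Int.cast_ne_zero.2 (left_ne_zero_of_mul_eq_one A.sq)) using 1
    ext; simp [cs])
  rw [show evd s B ((χ : ℂ) • Φ) = χ * evd s B Φ by
    simp only [evd, Finset.mul_sum, Pi.smul_apply, smul_eq_mul, mul_left_comm], h1] at h2
  have h3 : χ * (2 * Sy D B s V0 h t u) = 2 * Sy D B s V0 (c h) t' u' := by exact_mod_cast h2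
  rw [tt, k, h0, finsum_congr fun p : Nat.Primes => show _ = I p n by
    rw [k, ← hI p p.2 _ _ _ _ d', map_zsmul, zsmul_eq_mul, ← mul_assoc, s1, one_mul]]
  congr 1
  linear_combination (Sy D B s V0 h t u) * s1 - χ / 2 * h3

theorem key {V : ℕ → AbsoluteValue ℂ ℝ} (hV : PlC V) {I I' : ℕ → (ℍ → ℤ) →+ ℝ}
    (hI : ∀ p, p.Prime → ∀ n h t u, Dec D s n h t u → I p n = Sy D B s (V p) h t u)
    (hI' : ∀ p, p.Prime → ∀ n h t u, Dec D s n h t u → I' p n = Sy D B s (cV (V p)) h t u)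
    {Φ : ℍ → ℂ} (g : Green (Gamma0 N) (cs n) Φ) {l : D.E →+ ℝ}
    (hl : ∀ T ∈ Fo D.A D.B, ∀ Q ∈ Fo D.A D.B, ∀ α, IsAlgebraic ℚ α → ∀ t,
      (∀ σ, tt (GG V s B D.pi T Q α σ) + tt (GG V s B D.pi T Q α (cj.trans σ)) = t) → t = -2 * l Q) :
    evd s B Φ + (∑ᶠ p : Nat.Primes, I p n + ∑ᶠ p : Nat.Primes, I' p n : ℝ) =
      (-2 * l (D.ex u) : ℝ) := by
  have h0 : V 0 = V0 := AbsoluteValue.ext hV.inf
  have h1 := fun σ => X.tt_eq d hn g1 g2 h0 hI g (σ := σ)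
  have h2 : ∀ σ : ℂ ≃+* ℂ, σ θ = -θ → tt (GG V s B D.pi (D.ex t) (D.ex u) (vB B s h) σ) =
      Sy D B s V0 h t u + ∑ᶠ p : Nat.Primes, I' p n := fun σ e => by
    rw [← X.tt_eq d hn g1 g2 (V := fun p => cV (V p)) (AbsoluteValue.ext fun z =>
      (hV.inf _).trans (Complex.norm_conj z)) hI' g (σ := σ.trans cj) (by
        rw [RingEquiv.trans_apply, e, map_neg, X.cth, neg_neg])]
    congr 1
    ext p
    conv_lhs => rw [← cj_cj σ]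
    simp only [GG, sp_trans _ cj, lam_sp (V p) cj]
    rfl
  rw [← hl _ f1 _ f2 _ (X.alg d hn g1 g2 f1 f2) (2 * Sy D B s V0 h t u +
    (∑ᶠ p : Nat.Primes, I p n + ∑ᶠ p : Nat.Primes, I' p n)) fun σ => ?_,
    d.arch X.pos X.rel X.fu X.psi X.gu X.deg g, ← Complex.ofReal_add]
  rcases X.pm σ with e | e
  · rw [h1 σ e, h2 _ (by rw [RingEquiv.trans_apply, X.cth, map_neg, e])]
    ring
  · rw [h2 σ e, h1 _ (by rw [RingEquiv.trans_apply, X.cth, map_neg, e, neg_neg])]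
    ring

end Cx

end Vale.Agent.P004Z.Ar
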