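import Vale.Agent.P004Z.Ar.Ao2

/-! # P004Z, row ARO -/

set_option autoImplicit false
set_option linter.all false

open UpperHalfPlane CongruenceSubgroup Real
open scoped MatrixGroups Classical NumberTheorySymbols

noncomputable section

namespace Vale.Agent.P004Z.Ar

open Vale.Agent.P022.H218.L3 Vale.Agent.P004H.H666
open Vale.Agent.P022K.F0.Cf (od ev)
open Vale.Agent.P004Z.Fin (Pk Ov Far FN OFF EXT)
open Vale.Agent.P004Z.H (sp Fo GG tt PlC)

section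
variable {N : ℕ} [NeZero N] {δ δ' : ℕ}

theorem ex_nc {c : PP N} (h : IsInt c) : ∃ k : ℕ × ZMod (2 * N) → ℤ, (∀ i, c i = k i) ∧
    cs (∑ i ∈ c.support, k i • Zd N δ i.1 i.2) = Zc δ c := by
  choose k hk using h
  refine ⟨k, hk, funext fun z => ?_⟩
  simp [cs, Zc, Finsupp.sum, hk, Finset.sum_apply]

variable (δ δ') in
/-- integral and off the square classes -/
def IO : AddSubgroup (PP N) where
  carrier := {c | IsInt c ∧ Off δ δ' c}
  zero_mem' := ⟨fun _ => ⟨0, by simp⟩, fun _ h => by simp at h⟩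
  add_mem' {c c'} h h' := ⟨fun i => by
    obtain ⟨k, e⟩ := h.1 i
    obtain ⟨k', e'⟩ := h'.1 i
    exact ⟨k + k', by simp [e, e']⟩, fun i hi =>
      (Finset.mem_union.1 (Finsupp.support_add hi)).elim (h.2 i) (h'.2 i)⟩
  neg_mem' {c} h := ⟨fun i => by
    obtain ⟨k, e⟩ := h.1 i
    exact ⟨-k, by simp [e]⟩, fun i hi => h.2 i (by simpa using hi)⟩

theorem io_single {i : ℕ × ZMod (2 * N)} (h : ¬ IsSquare (δ * δ' * i.1)) (k : ℤ) :
    Finsupp.single i (k : ℂ) ∈ IO δ δ' :=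
  ⟨fun j => ⟨if i = j then k else 0, by simp [Finsupp.single_apply]⟩, fun j hj => by
    rwa [Finset.mem_singleton.1 (Finsupp.support_single_subset hj)]⟩

theorem sq_iff {l m : ℕ} (hl : l ≠ 0) : IsSquare (l ^ 2 * m) ↔ IsSquare m := by
  refine ⟨fun ⟨k, e⟩ => ?_, fun h => (IsSquare.sq l).mul h⟩
  obtain ⟨j, rfl⟩ := (Nat.pow_dvd_pow_iff two_ne_zero).1 (⟨m, by rw [e, sq]⟩ : l ^ 2 ∣ k ^ 2)
  exact ⟨j, Nat.eq_of_mul_eq_mul_left (pow_pos (Nat.pos_of_ne_zero hl) 2) (by rw [e]; ring)⟩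

theorem io_Tt {l : ℕ} (hl : l ≠ 0) {c : PP N} (h : c ∈ IO δ δ') : Tt δ l c ∈ IO δ δ' := by
  rw [← c.sum_single, Finsupp.sum, map_sum]
  refine sum_mem fun i hi => ?_
  obtain ⟨k, e⟩ := h.1 i
  have h1 := h.2 i hi
  rw [e, Tt, Finsupp.lsum_single, LinearMap.toSpanSingleton_apply, Int.cast_smul_eq_zsmul]
  refine zsmul_mem (add_mem (add_mem ?_ (io_single h1 _)) ?_) k
  · simpa using io_single (i := (l ^ 2 * i.1, (l : ZMod (2 * N)) * i.2)) (by
      rwa [mul_left_comm, sq_iff hl]) 1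
  · split_ifs with d
    · simpa using io_single (i := (i.1 / l ^ 2, (l : ZMod (2 * N))⁻¹ * i.2)) (by
        rwa [← sq_iff hl, mul_left_comm, Nat.mul_div_cancel' d]) l
    · exact zero_mem _

theorem io_lift {S : ℕ} (P : FreeAlgebra ℤ (PA S)) : ∀ c : PP N, c ∈ IO δ δ' →
    FreeAlgebra.lift ℤ (fun l : PA S => Tt δ l.1) P c ∈ IO δ δ' := by
  induction P using FreeAlgebra.induction with
  | grade0 r => exact fun c h => by simpa [Algebra.algebraMap_eq_smul_one] using zsmul_mem h r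
  | grade1 l => exact fun c h => by simpa using io_Tt l.2.1.ne_zero h
  | mul a b ha hb => exact fun c h => by simpa using ha _ (hb c h)
  | add a b ha hb => exact fun c h => by simpa using add_mem (ha c h) (hb c h)

theorem pr_lg {J : ℕ → (ℍ → ℤ) →+ ℝ} {ρ : ℕ → ℝ →ₗ[ℚ] ℚ} (hρ : ∀ p : ℕ, p.Prime → ρ p (log p) = 1)
    {ι : ℕ → ℕ → ZMod (2 * N) → ℚ} (hι : ∀ p n r, ι p n r =
      if p.Prime ∧ ¬ IsSquare (δ * δ' * n) then ρ p (J p (Zd N δ n r)) else 0)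
    (hf : ∀ n r, {p | ι p n r ≠ 0}.Finite) {c : PP N} (ho : Off δ δ' c)
    {k : ℕ × ZMod (2 * N) → ℤ} (hk : ∀ i, c i = k i)
    (hq : ∀ p : ℕ, p.Prime → ∃ q : ℚ, J p (∑ i ∈ c.support, k i • Zd N δ i.1 i.2) = q * log p) :
    pr (lg ι) c = (∑ᶠ p : Nat.Primes, J p (∑ i ∈ c.support, k i • Zd N δ i.1 i.2) : ℝ) := by
  rw [show ∑ᶠ p : Nat.Primes, J p _ = _ from finsum_subtype_eq_finsum_cond (p := Nat.Prime)
      (f := fun p => J p (∑ i ∈ c.support, k i • Zd N δ i.1 i.2)), finsum_congr (g := fun p : ℕ => ∑ i ∈ c.support, (k i : ℝ) * ((ι p i.1 i.2 : ℝ) * log p))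
      fun p => ?_, ← sum_finsum_comm _ _ fun i _ => (hf i.1 i.2).subset fun p hp e => hp (by simp [e])]
  · simp [pr, lg, Finsupp.sum, hk, ← mul_finsum]
  rw [finsum_eq_if]
  split_ifs with hp
  · obtain ⟨q, e⟩ := hq p hp
    have h1 := congrArg (ρ p) e
    rw [← Rat.smul_def, map_smul, hρ p hp, smul_eq_mul, mul_one, map_sum, map_sum] at h1
    rw [e, ← h1, Rat.cast_sum, Finset.sum_mul]
    refine Finset.sum_congr rfl fun i hi => ?_
    rw [hι, if_pos ⟨hp, ho i hi⟩, map_zsmul, map_zsmul, zsmul_eq_mul]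
    push_cast
    ring
  · simp [hι, hp]

end

theorem ex_plc (ext : EXT) : ∃ V, PlC V := by
  have k : ∀ p : ℕ, ∃ V : AbsoluteValue ℂ ℝ, (p = 0 → V = V0) ∧
      (p.Prime → IsNonarchimedean V ∧ V p = (p : ℝ)⁻¹) := fun p => by
    by_cases hp : p.Prime
    · exact (ext p hp).imp fun V h => ⟨fun e => absurd e hp.ne_zero, fun _ => h⟩
    · exact ⟨V0, fun _ => rfl, fun h => absurd h hp⟩
  choose V h1 h2 using k
  exact ⟨V, fun z => by rw [h1 0 rfl]; rfl, fun p h => (h2 p h).1, fun p h => (h2 p h).2⟩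

theorem ws_pb {N : ℕ} {a : ℕ → ℤ} {D : Pz N a} {t : ℂ} {l : ℂ →+ ℂ} (hl : D.Ki l) :
    ws (4 * N) (cs (D.pb t)) (l ∘ D.I) = l t * ws (4 * N) (cs (D.pb t)) 1 := by
  rw [← ws_smul']
  refine ws_congr fun z hz => ?_
  have : D.I z - t ∈ D.Λ := by_contra fun e => hz (by simp [cs, Pz.pb, e])
  simpa [sub_eq_zero] using hl _ this

theorem aro (divs : DIVS) (bdv : BDV) (proj : PROJ) (gu : GU) (unf : UNF) (prt : PRT) (wn : WN)
    (genx : GENX) (tors : TORS) (rel : REL) (fu : FUN) (cst : CST) (pk : PK) (ae : AE) (psi : PSI)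
    (dg : DEG) (abl : ABL) (act : ACT) (ratl : RATL) (ext : EXT) (off : OFF) (fn : FN) : ARO := by
  intro N _ G a L δ δ' β ε s rn lat hd alw hε hs
  have hN := NeZero.pos N
  have h4 : 0 < 4 * N := by omega
  have dp : 0 < δ := hd.ok.one.trans' one_pos
  obtain ⟨D⟩ := unf N G a rn
  obtain ⟨xm, p1, p2, p3⟩ := pk N a D hN
  obtain ⟨θ, t1, t2⟩ : ∃ θ : ℂ, θ ^ 2 = -(δ * (δ * δ' : ℕ) : ℂ) ∧ H.cj θ = -θ :=
    ⟨(δ * √δ' : ℝ) * Complex.I, by
      rw [mul_pow, Complex.I_sq, ← Complex.ofReal_pow, mul_pow, sq_sqrt (Nat.cast_nonneg _)]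
      push_cast
      ring, by simp⟩
  have X : Cx D δ (Bd N δ δ' β) s θ xm := ⟨hN, dp, hs, (bdv N δ δ' β hd).2.1 s hs,
    (divs N δ hd.ok _ _).1, t2, fun σ => sq_eq_sq_iff_eq_or_eq_neg.1 (by
      rw [← map_pow, t1]; simp), act N δ hd.ok, fun σ c r χ A e τ => A.zp _ _ τ θ t1 e, p1, p2, p3,
    rel, fu, psi, gu, dg, cst, ratl⟩
  obtain ⟨V, hV⟩ := ex_plc ext
  have ov : ∀ p, p.Prime → Ov (V p) p := fun p hp => ⟨hp, hV.na p hp, by
    rw [hV.self p hp]; exact inv_lt_one_of_one_lt₀ (by exact_mod_cast hp.one_lt)⟩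
  have ov' : ∀ p, p.Prime → Ov (cV (V p)) p := fun p hp => (ov p hp).comp _
  choose! I i1 i2 using fun p hp => ex_I fn hd hs.sup X.deg p1 (ov p hp)
  choose! I' i3 i4 using fun p hp => ex_I fn hd hs.sup X.deg p1 (ov' p hp)
  choose! ρ hρ using fun (p : ℕ) (hp : p.Prime) => Module.Projective.exists_dual_eq_one ℚ
    (x := log p) (log_pos (by exact_mod_cast hp.one_lt)).ne'
  obtain ⟨l, l1, l2⟩ := H.glob hV D.par.disc s (Bd N δ δ' β) D.pi (fun b hb => X.fo_b hb) X.deg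
  let l' : ℂ →+ ℂ := (Complex.ofRealHom.toAddMonoidHom.comp l).comp D.ex
  have l3 : ∀ u, l' u = l (D.ex u) := fun _ => rfl
  have ki : D.Ki l' := fun u hu => by rw [l3, (D.ker u).2 hu, map_zero, Complex.ofReal_zero]
  have inv : ∀ l, D.Ki l → Inv N (l ∘ D.I) := fun l hl γ hγ z => by
    simpa [sub_eq_zero] using hl _ (D.inv γ hγ z)
  obtain ⟨g1, g2⟩ := genx N δ G a D rn hd.ok
  obtain ⟨g3, g4, g5⟩ := g2 l' ki
  have of := off divs bdv N δ δ' β s hd hs.sup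
  let ι : ℕ → ℕ → ZMod (2 * N) → ℚ := fun p n r =>
    if p.Prime ∧ ¬ IsSquare (δ * δ' * n) then ρ p ((I p + I' p) (Zd N δ n r)) else 0
  have ι0 : ∀ p n r, (p.Prime → ¬ IsSquare (δ * δ' * n) → ∀ V, Ov V p → Far V s (Zd N δ n r)) →
      ι p n r = 0 := fun p n r h => ite_eq_right_iff.2 fun e => by
    rw [AddMonoidHom.add_apply, i1 p e.1 _ (h e.1 e.2 _ (ov p e.1)),
      i3 p e.1 _ (h e.1 e.2 _ (ov' p e.1)), add_zero, map_zero]
  have lgs : Lgs δ δ' ι := ⟨fun n r => by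
      by_cases e : IsSquare (δ * δ' * n)
      · exact Set.finite_empty.subset fun p hp => hp (ι0 p n r fun _ h => absurd e h)
      · exact (of n r e).2.subset fun p hp => by_contra fun h => hp (ι0 p n r fun _ _ V hV =>
          by_contra fun h' => h ⟨V, hV, h'⟩),
    fun p n r h => (ite_ne_right_iff.1 h).1.1,
    fun p n r h => ι0 p n r fun _ e V hV => (of n r e).1 p V hV (Or.inl h),
    fun p n r h => ι0 p n r fun _ e V hV => (of n r e).1 p V hV (Or.inr h)⟩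
  have eg : ∀ (c : PP N) (k : ℕ × ZMod (2 * N) → ℤ),
      cs (∑ i ∈ c.support, k i • Zd N δ i.1 i.2) = Zc δ c →
      Eg N δ (∑ i ∈ c.support, k i • Zd N δ i.1 i.2) := fun c k e =>
    ⟨e ▸ g1 c, fun σ c r χ A τ => by
      simp only [Finset.sum_apply, Pi.smul_apply, A.zd, smul_eq_mul, Finset.mul_sum, mul_left_comm]⟩
  have fin : ∀ c ∈ IO δ δ', ∀ Φ n, Green (Gamma0 N) (Zc δ c) Φ → cs n = Zc δ c → ∀ k : ℕ, 0 < k →
      ∀ u, D.ex u ∈ Fo D.A D.B → (∀ t, D.Nc t → D.Nc (t + u) →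
        ∃ Ψ, Un N ((k : ℤ) • n - (D.pb (t + u) - D.pb t)) 0 Ψ) →
      k * (evd s (Bd N δ δ' β) Φ + pr (lg ι) c) = -2 * l' u := by
    intro c hc Φ n g e k k0 u f2 hu
    obtain ⟨j, j1, j2⟩ := ex_nc (δ := δ) hc.1
    obtain rfl : n = ∑ i ∈ c.support, j i • Zd N δ i.1 i.2 :=
      funext fun z => Int.cast_injective (congrFun (e.trans j2.symm) z)
    have far : ∀ V, (∀ i ∈ c.support, Far V s (Zd N δ i.1 i.2)) →
        Far V s (∑ i ∈ c.support, j i • Zd N δ i.1 i.2) := fun V h =>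
      Far.sum _ fun i hi => (h i hi).smul _
    have fs : {p : Nat.Primes | ∃ V, Ov V p ∧
        ¬ Far V s (∑ i ∈ c.support, j i • Zd N δ i.1 i.2)}.Finite :=
      ((c.support.finite_toSet.biUnion fun i hi => (of i.1 i.2 (hc.2 i hi)).2).preimage
        Subtype.val_injective.injOn).subset fun p ⟨V, h1, h2⟩ => by_contra fun h => h2
          (far V fun i hi => by_contra fun h' => h (Set.mem_biUnion hi ⟨V, h1, h'⟩))
    have n0 : ∀ b ∈ s, (∑ i ∈ c.support, j i • Zd N δ i.1 i.2) b = 0 := fun b hb =>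
      by_contra fun h => by
        have := (far _ fun i hi => (of i.1 i.2 (hc.2 i hi)).1 2 _ (ov 2 Nat.prime_two)
          (Or.inl (Or.inl rfl))).far b h b hb
        norm_num at this
    have hn := eg c j j2
    have hp := pr_lg (J := fun p => I p + I' p) hρ (ι := ι) (fun _ _ _ => rfl) lgs.fin hc.2 j1
    generalize ∑ i ∈ c.support, j i • Zd N δ i.1 i.2 = n at *
    obtain ⟨T, f1, h1, h2⟩ := D.ex_gd s f2
    obtain ⟨t, rfl⟩ := D.surj T
    have h3 := h1 (RingEquiv.refl ℂ) t (H.sp_refl _).symm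
    have h5 := h2 (RingEquiv.refl ℂ) (t + u) (by rw [H.sp_refl, map_add])
    obtain ⟨Ψ, h6⟩ := hu t h3.1 h5.1
    obtain ⟨h, h7, h8, h9⟩ := (fu N hN).1 _ _ h6
    have d : Dec D s ((k : ℤ) • n) h t u := ⟨h7, h8, h3.1, h5.1, fun b hb =>
      ⟨h3.2 b hb, h5.2 b hb, by simp [n0 b hb]⟩, fun τ => by simp [(h9 τ).1]⟩
    have k1 : (k : ℝ) ≠ 0 := Nat.cast_ne_zero.2 k0.ne'
    have := X.key d (hn.smul k) h1 h2 f1 f2 hV i2 i4 (Φ := (k : ℂ) • Φ) (by
      convert green_smul g (k := k) (Nat.cast_ne_zero.2 k0.ne') using 1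
      ext; simp [cs, ← e]) l2
    rw [hp fun p hp => ?_, l3]
    · simp only [map_zsmul] at this
      simp only [zsmul_eq_mul, ← mul_finsum, AddMonoidHom.add_apply] at this ⊢
      rw [finsum_add_distrib (fs.subset fun p hp => ⟨_, ov p p.2, mt (i1 p p.2 n) hp⟩)
        (fs.subset fun p hp => ⟨_, ov' p p.2, mt (i3 p p.2 n) hp⟩)]
      simp only [evd, Pi.smul_apply, smul_eq_mul, mul_left_comm _ (k : ℂ), ← Finset.mul_sum] at this ⊢
      push_cast at this ⊢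
      linear_combination this
    · obtain ⟨q, e1⟩ := X.rat d (hn.smul k) h1 h2 f1 f2 (ov p hp)
      obtain ⟨q', e2⟩ := X.rat d (hn.smul k) h1 h2 f1 f2 (ov' p hp)
      rw [← i2 p hp _ _ _ _ d, map_zsmul, zsmul_eq_mul, hV.self p hp, log_inv] at e1
      rw [← i4 p hp _ _ _ _ d, map_zsmul, zsmul_eq_mul, show cV (V p) p = (p : ℝ)⁻¹ by
        rw [← hV.self p hp]; exact congrArg (V p) (map_natCast H.cj p), log_inv] at e2
      refine ⟨-(q + q') / k, ?_⟩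
      push_cast at e1 e2 ⊢
      rw [AddMonoidHom.add_apply]
      field_simp
      linear_combination e1 + e2
  refine ⟨_, g3, fun e => ?_, ι, lgs, fun c Φ hc ho ⟨k, n, Ψ, k0, e, m1, m2, m3⟩ g => ?_, ?_⟩
  · obtain ⟨i, i0, hi⟩ := wn N δ δ' β hd
    obtain ⟨C, hC⟩ := (prt.2 N G a D rn).2 ε alw
    obtain ⟨η, rfl⟩ : ∃ η : ℤ, ε = η := by
      obtain ⟨m, hm⟩ : ∃ m : ℤ, eps δ * J(N | δ) = m ∧ (m = 0 ∨ m * m = 1) := ⟨_, rfl, by
        unfold eps
        rcases jacobiSym.trichotomy (-1) δ with a | a | a <;>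
          rcases jacobiSym.trichotomy N δ with b | b | b <;> simp [a, b]⟩
      rw [hm.1] at hε
      rcases hm.2 with rfl | h
      · simp at hε
      · have : (m : ℝ) * m = 1 := by exact_mod_cast h
        exact ⟨m, by linear_combination m * hε - ε * this⟩
    have h1 := ((hi s _ hs (inv l' ki)).2 η (l' C) fun z z' h => by
      simp only [Function.comp_apply, hC z z' h, Complex.ofReal_intCast, map_add, ← zsmul_eq_mul,
        map_zsmul]).1
    have h2 : (η : ℂ) * (eps δ * J(N | δ) : ℤ) = 1 := by exact_mod_cast hε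
    rw [h2, e, eq_comm, mul_eq_zero, or_iff_right (mul_ne_zero (Nat.cast_ne_zero.2 i0.ne')
      (by norm_num))] at h1
    refine tors N a D L δ δ' β s lat hd hs (l1 ?_)
    simp only [evd, Function.comp_apply, l3] at h1
    simp only [map_sum, map_zsmul, zsmul_eq_mul]
    exact_mod_cast h1
  · obtain ⟨j, -, j2⟩ := ex_nc (δ := δ) hc
    have := fin c ⟨hc, ho⟩ Φ _ g j2 k k0 0 (by rw [map_zero]; exact zero_mem _) fun t _ _ =>
      ⟨Ψ, by
        convert (⟨m1, m2, fun γ hγ z => (m3 γ hγ z).trans (by simp [ee])⟩ : Un N n 0 Ψ) using 1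
        ext z
        refine Int.cast_injective (α := ℂ) ?_
        rw [e, ← j2]
        simp [cs]⟩
    simpa [k0.ne'] using this
  obtain ⟨P, P0, hP⟩ := proj N (2 * N * δ) G a rn (by positivity) ⟨2 * δ, by ring⟩
  obtain ⟨m, m0, hm⟩ := dg N a D hN
  have m1 : (m : ℂ) ≠ 0 := Nat.cast_ne_zero.2 m0.ne'
  refine ⟨P, -2 * (FreeAlgebra.lift ℤ (fun l : PA (2 * N * δ) => a l.1) P : ℤ) / m,
    div_ne_zero (mul_ne_zero (by norm_num) (Int.cast_ne_zero.2 P0)) m1, ?_⟩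
  rintro c _ Φ Φ' hc ho rfl g g'
  have hc' := io_lift P c ⟨hc, ho⟩
  obtain ⟨j, -, j2⟩ := ex_nc (δ := δ) hc
  obtain ⟨n, hn, j3⟩ : ∃ n, Eg N δ n ∧ cs n = Zc δ _ :=
    (ex_nc (δ := δ) hc'.1).elim fun j h => ⟨_, eg _ j h.2, h.2⟩
  obtain ⟨k, u, k0, hu⟩ := abl N G a D _ P rn ⟨2 * δ, by ring⟩ hP _ n Φ (j2 ▸ g)
    (j3.trans (j2 ▸ (g5 P c).1))
  have k1 : (k : ℂ) ≠ 0 := Nat.cast_ne_zero.2 k0.ne'
  have e : ∀ l, D.Ki l → k * ws (4 * N) (cs n) (l ∘ D.I) = m * l u := fun l hl => by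
    obtain ⟨t, h1, h2⟩ := D.ex_nc u
    obtain ⟨Ψ, h3⟩ := hu t h1 h2
    have h5 := (ae N a D _ _ hN h3).2 l hl
    have d := fun A => Dv.mono (A := A) h4 (dvd_mul_left N 4)
    rw [show cs ((k : ℤ) • n - (D.pb (t + u) - D.pb t)) = (k : ℂ) • cs n +
      ((-1 : ℂ) • cs (D.pb (t + u)) + cs (D.pb t)) by ext; simp [cs]; ring,
      ws_add (d _ (hn.1.smul _)) (d _ (((hm _ h2).1.smul _).add (hm _ h1).1)),
      ws_add (d _ ((hm _ h2).1.smul _)) (d _ (hm _ h1).1), ws_smul, ws_smul, ws_pb hl, ws_pb hl,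
      (hm _ h1).2, (hm _ h2).2, map_add] at h5
    linear_combination h5
  have f2 : D.ex u ∈ Fo D.A D.B := by
    obtain ⟨s', hs'⟩ := (hn.1.mono h4 (dvd_mul_left N 4)).reps
    obtain ⟨k', k2, h⟩ := lq (Λ := D.Λ) (u := m • u - k • ∑ z ∈ s', n z • D.I z) fun l hl => by
      have := e l hl
      rw [ws_reps hs' (hn.inv.mono (dvd_mul_left N 4)) ((inv l hl).mono (dvd_mul_left N 4))] at this
      simp only [map_sub, map_nsmul, map_sum, map_zsmul]
      simp only [nsmul_eq_mul, zsmul_eq_mul, ← this, evd, Function.comp_apply, sub_self]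
    rw [← D.ker, ← nsmul_eq_mul, map_nsmul, map_sub, nsmul_sub, sub_eq_zero, map_nsmul, map_nsmul,
      ← mul_nsmul, map_sum] at h
    refine D.fo_div (Nat.mul_pos m0 k2) (h ▸ nsmul_mem (nsmul_mem (sum_mem fun z hz => ?_) _) _)
    rw [map_zsmul]
    exact zsmul_mem (X.fo_n hn (hs'.sup z hz)) _
  have h1 := fin _ hc' Φ' n g' j3 k k0 u f2 hu
  have h2 := e l' ki
  rw [j3, (g5 P c).2, ← g4] at h2
  field_simp
  refine mul_left_cancel₀ k1 ?_
  linear_combination m * h1 + 2 * h2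

end Vale.Agent.P004Z.Ar
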