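import Vale.Agent.P004Z.Ar.St
import Vale.Agent.P004Z.Bo.Mer
import Vale.Agent.P004Z.EF.Quot
import Vale.Agent.P022K.F0.Cf.Pts
import Vale.Agent.P022.H218.L3.Gal

/-! # P004Z: the places of the modular function fields -/

set_option autoImplicit false

open UpperHalfPlane CongruenceSubgroup Filter Topology Function.Periodic
open scoped MatrixGroups IntermediateField ModularForm

noncomputable section

namespace Vale.Agent.P004Z.Ar

open Vale.Agent.P022.H218.L3 Vale.Agent.P022.H236.L3 Vale.Agent.P019P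
open Vale.Agent.P022K.F0.Cf hiding MF
open Vale.Agent.P004Z.Bo (MAt)

namespace Fn

instance : Mo SL(2, ℤ) :=
  ⟨fun g => ⟨Matrix.SpecialLinearGroup.map (Int.castRingHom ℝ) g, fun _ => rfl⟩⟩

variable {x y : Mer} {τ : ℍ} {k l : ℤ} {Ψ Ψ' : ℍ → ℂ} {Γ : Subgroup SL(2, ℤ)}

theorem ev_act (g : SL(2, ℤ)) (τ : ℍ) (y : Mer) : ev τ (act g⁻¹ y) = ev (g • τ) y := by
  have := ev_ac (g • τ) y g⁻¹
  rwa [inv_smul_smul] at this

theorem od_act (g : SL(2, ℤ)) (τ : ℍ) (y : Mer) : od τ (act g⁻¹ y) = od (g • τ) y := by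
  have := od_ac (g • τ) y g⁻¹
  rwa [inv_smul_smul] at this

theorem reg_act (g : SL(2, ℤ)) (τ : ℍ) (y : Mer) : Reg τ (act g⁻¹ y) ↔ Reg (g • τ) y := by
  have := reg_ac (a := g • τ) (y := y) g⁻¹
  rwa [inv_smul_smul] at this

theorem ev_MF (h : x ∈ MF Γ) {g : SL(2, ℤ)} (m : g ∈ Γ) (τ : ℍ) :
    ev (g • τ) x = ev τ x := by
  rw [← ev_act, act_eq_self h (inv_mem m)]

theorem od_MF (h : x ∈ MF Γ) {g : SL(2, ℤ)} (m : g ∈ Γ) (τ : ℍ) :
    od (g • τ) x = od τ x := by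
  rw [← od_act, act_eq_self h (inv_mem m)]

/-! ### local structure -/

theorem val_ev {c : ℂ} (h : EF.Val τ x c) : Reg τ x ∧ ev τ x = c := by
  obtain ⟨g, k, h0, e1, e2⟩ := h
  exact ⟨⟨g, k, h0, e1⟩, by rw [ev_eq h0 e1, e2, mul_div_cancel_right₀ _ h0]⟩

theorem ev_pole (h : ¬ Reg τ x) : ev τ x = 0 := dif_neg h

theorem mat_ev (hy : y ≠ 0) (τ : ℍ) : MAt (od τ y) (fun z => ev z y) τ := by
  obtain ⟨g, h, g0, h0, e⟩ := isOd τ hy
  refine ⟨fun z => (g.1 ∘ ofComplex) z / (h.1 ∘ ofComplex) z,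
    (an g τ).div (an h τ) (by simpa using h0), by simpa using ⟨g0, h0⟩, ?_⟩
  filter_upwards [(cont h).continuousAt.eventually_ne h0] with z hz
  simp only [Function.comp_apply, ofComplex_apply]
  by_cases m : od τ y = 0
  · rw [m, zpow_zero, one_mul] at e ⊢
    exact ev_eq hz e
  by_cases c : z = τ
  · rw [c, sub_self, zero_zpow _ m, zero_mul]
    by_cases r : Reg τ y
    · exact (ev_eq_zero hy r).2 (lt_of_le_of_ne ((reg_iff.1 r).resolve_left hy) (Ne.symm m))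
    · exact ev_pole r
  obtain ⟨n, hn | hn⟩ := Int.eq_nat_or_neg (od τ y)
  · rw [hn, zpow_natCast] at e ⊢
    rw [ev_eq (g := tz τ ^ n * g) hz (by rw [e, jm, jm, jm, map_mul, map_pow]), ← mul_div_assoc]
    rfl
  · rw [hn, zpow_neg, zpow_natCast] at e ⊢
    have := pow_ne_zero n (jt_ne τ)
    rw [ev_eq (g := g) (h := tz τ ^ n * h) (mul_ne_zero (pow_ne_zero n (tz_ne c)) hz) (by
      rw [jm, map_mul, map_pow, mul_left_comm, e, mul_inv_cancel_left₀ this]),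
      ← div_eq_inv_mul, div_div, mul_comm]
    rfl

theorem mat_uq (h : MAt k Ψ τ) (h' : MAt l Ψ' τ) (e : ∀ᶠ z in 𝓝 τ, z ≠ τ → Ψ z = Ψ' z) :
    k = l ∧ Ψ τ = Ψ' τ := by
  obtain ⟨u, a, b, c⟩ := id h
  obtain ⟨v, a', b', c'⟩ := id h'
  have d : ∀ᶠ z in 𝓝[≠] (τ : ℂ), (z - (τ : ℂ)) ^ k • u z = (z - (τ : ℂ)) ^ l • v z :=
    eventually_nhdsWithin_iff.2 (Bo.ev_coe.2 (by
      filter_upwards [c, c', e] with z h1 h2 h3 h4
      rw [smul_eq_mul, smul_eq_mul, ← h1, ← h2, h3 fun s => h4 (congrArg _ s)]))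
  obtain rfl : k = l := AnalyticAt.unique_eventuallyEq_zpow_smul_nonzero ⟨u, a, b, d.mono fun _ _ => rfl⟩
    ⟨v, a', b', d⟩
  refine ⟨rfl, ?_⟩
  rw [c.self_of_nhds, c'.self_of_nhds, tendsto_nhds_unique_of_eventuallyEq
    (a.continuousAt.mono_left nhdsWithin_le_nhds) (a'.continuousAt.mono_left nhdsWithin_le_nhds)
    (l := 𝓝[≠] (τ : ℂ)) ?_]
  filter_upwards [d, self_mem_nhdsWithin] with z h1 h2
  exact mul_left_cancel₀ (zpow_ne_zero _ (sub_ne_zero.2 h2)) h1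

/-- **order and value from the values near the point** -/
theorem od_of (h : MAt k Ψ τ) (e : ∀ᶠ z in 𝓝 τ, z ≠ τ → ev z y = Ψ z) :
    y ≠ 0 ∧ od τ y = k ∧ ev τ y = Ψ τ := by
  have y0 : y ≠ 0 := by
    rintro rfl
    obtain ⟨z, a, b, c⟩ := ((Bo.fr_ne τ).and_eventually (e.and h.ev_ne)).exists
    exact c a ((b a).symm.trans (ev_zero z))
  exact ⟨y0, mat_uq (mat_ev y0 τ) h e⟩

theorem ev_inv (τ : ℍ) (y : Mer) : ev τ y⁻¹ = (ev τ y)⁻¹ := by
  by_cases h : y = 0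
  · rw [h, inv_zero, ev_zero, inv_zero]
  by_cases m : od τ y = 0
  · have := ev_mul (reg_iff.2 (.inr m.ge)) (reg_iff.2 (.inr (by rw [od_inv, m]; rfl)) : Reg τ y⁻¹)
    rw [mul_inv_cancel₀ h, ← map_one (algebraMap ℂ Mer), ev_const] at this
    exact eq_inv_of_mul_eq_one_right this.symm
  · rw [not_not.1 (mt (mat_ev h τ).val.1 m), inv_zero,
      not_not.1 (mt (mat_ev (inv_ne_zero h) τ).val.1 (by rwa [od_inv, neg_eq_zero]))]

theorem ev_reg (τ : ℍ) (y : Mer) : ∀ᶠ z in 𝓝 τ, z ≠ τ → Reg z y := by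
  by_cases h : y = 0
  · exact .of_forall fun _ _ => reg_iff.2 (.inl h)
  · exact (mat_ev h τ).ev_ne.mono fun z a b => not_not.1 fun c => a b (ev_pole c)

theorem ev_sub (h : Reg τ x) (h' : Reg τ y) : ev τ (x - y) = ev τ x - ev τ y := by
  have := ev_add ((pl τ).sub_mem h h') h'
  rw [sub_add_cancel] at this
  rw [this, add_sub_cancel_right]

theorem eq_of_ev (e : ∀ᶠ z in 𝓝 τ, z ≠ τ → ev z x = ev z y) : x = y := by
  by_contra n
  obtain ⟨z, a, b, c, d, f⟩ := ((Bo.fr_ne τ).and_eventually (e.and ((ev_reg τ x).and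
    ((ev_reg τ y).and (mat_ev (sub_ne_zero.2 n) τ).ev_ne)))).exists
  exact f a (by rw [ev_sub (c a) (d a), b a, sub_self])

/-! ### the cusps -/

theorem cusp {F : ℍ → ℂ} {N : ℕ} (hN : 0 < N) (hT : ∀ τ, F (ModularGroup.T ^ N • τ) = F τ)
    (hd : ∀ᶠ τ : ℍ in atImInfty, DifferentiableAt ℂ (F ∘ ofComplex) τ)
    (hb : IsBoundedAtImInfty F) : ∃ φ, AnalyticAt ℂ φ 0 ∧ ∀ τ : ℍ, F τ = φ (qParam N τ) := by
  have n : (0 : ℝ) < N := by exact_mod_cast hN
  have p : Function.Periodic (F ∘ ofComplex) (N : ℝ) := fun z => by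
    by_cases hz : 0 < z.im
    · have hz' : 0 < (z + (N : ℝ)).im := by simpa using hz
      simp only [Function.comp_apply, ofComplex_apply_of_im_pos hz, ofComplex_apply_of_im_pos hz']
      rw [← hT ⟨z, hz⟩, ← zpow_natCast, modular_T_zpow_smul]
      congr 1
      exact UpperHalfPlane.ext (by simp [add_comm])
    · simp only [Function.comp_apply]
      rw [ofComplex_apply_of_im_nonpos (by simpa using hz), ofComplex_apply_of_im_nonpos (not_lt.1 hz)]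
  have d : ∀ᶠ z in comap Complex.im atTop, DifferentiableAt ℂ (F ∘ ofComplex) z := by
    filter_upwards [tendsto_comap_im_ofComplex.eventually hd,
      tendsto_comap.eventually (eventually_gt_atTop 0)] with z h1 h2
    rwa [ofComplex_apply_of_im_pos h2] at h1
  exact ⟨_, Complex.analyticAt_of_differentiable_on_punctured_nhds_of_continuousAt
    (eventually_differentiableAt_cuspFunction_nhds_ne_zero n p d)
    (differentiableAt_cuspFunction_zero n p d (hb.comp_tendsto tendsto_comap_im_ofComplex)).continuousAt,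
    fun τ => (UpperHalfPlane.eq_cuspFunction τ n.ne' p).symm⟩

theorem cusp_MF {N : ℕ} (hN : 0 < N) (hT : ModularGroup.T ^ N ∈ Γ) {g : ℍ → ℂ} (h : IsMF Γ k g) :
    ∃ φ, AnalyticAt ℂ φ 0 ∧ ∀ τ : ℍ, g τ = φ (qParam N τ) := by
  refine cusp hN (fun τ => ?_) (.of_forall fun τ => (an ⟨g, h.hol⟩ τ).differentiableAt)
    (by simpa using h.bdd 1)
  have := congrFun (h.slash _ hT) τ
  rw [ModularForm.SL_slash_apply, ← zpow_natCast, ModularGroup.denom_apply, ModularGroup.coe_T_zpow]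
    at this
  simpa using this

/-- the functions with a limit at infinity -/
def LR : Subring Mer where
  carrier := {x | (∀ᶠ τ in atImInfty, Reg τ x) ∧ ∃ c, Tendsto (fun τ => ev τ x) atImInfty (𝓝 c)}
  mul_mem' := by
    rintro x y ⟨a, c, b⟩ ⟨a', c', b'⟩
    exact ⟨(a.and a').mono fun _ h => h.1.mul h.2, _,
      (b.mul b').congr' ((a.and a').mono fun _ h => (ev_mul h.1 h.2).symm)⟩
  add_mem' := by
    rintro x y ⟨a, c, b⟩ ⟨a', c', b'⟩
    exact ⟨(a.and a').mono fun _ h => h.1.add h.2, _,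
      (b.add b').congr' ((a.and a').mono fun _ h => (ev_add h.1 h.2).symm)⟩
  one_mem' := ⟨.of_forall fun τ => (pl τ).one_mem, 1, by
    simpa only [← map_one (algebraMap ℂ Mer), ev_const] using tendsto_const_nhds⟩
  zero_mem' := ⟨.of_forall fun τ => (pl τ).zero_mem, 0, by
    simpa only [ev_zero] using tendsto_const_nhds⟩
  neg_mem' := by
    rintro x ⟨a, c, b⟩
    refine ⟨a.mono fun τ h => (pl τ).neg_mem _ h, _, b.neg.congr' (a.mono fun τ h => ?_)⟩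
    have := ev_sub (pl τ).zero_mem h
    rw [zero_sub, ev_zero, zero_sub] at this
    exact this.symm

theorem const_LR (c : ℂ) : algebraMap ℂ Mer c ∈ LR :=
  ⟨.of_forall fun τ => reg_const τ c, c, by simpa only [ev_const] using tendsto_const_nhds⟩

theorem cusp_mer [Γ.FiniteIndex] (h : x ∈ MF Γ) : ∃ (N : ℕ) (φ : ℂ → ℂ), 0 < N ∧
    MeromorphicAt φ 0 ∧ ∀ᶠ τ in atImInfty, Reg τ x ∧ ev τ x = φ (qParam N τ) := by
  obtain ⟨N, hN, -, hT⟩ := Subgroup.exists_pow_mem_of_index_ne_zero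
    (Subgroup.FiniteIndex.index_ne_zero (H := Γ)) ModularGroup.T
  obtain ⟨k, f, g, hf, hg, g0, rfl⟩ := h
  obtain ⟨φ, a, b⟩ := cusp_MF hN hT hf
  obtain ⟨ψ, a', b'⟩ := cusp_MF hN hT hg
  have t := P022.H236.tendsto_q hN.ne'
  refine ⟨N, φ / ψ, hN, a.meromorphicAt.div a'.meromorphicAt, ?_⟩
  have n := a'.eventually_eq_zero_or_eventually_ne_zero.resolve_left fun e => g0
    (ExL.hol_zero hg.hol ((ExL.zero N).congr (((t.mono_right nhdsWithin_le_nhds).eventually e).mono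
      fun τ k => ((b' τ).trans k).symm)))
  filter_upwards [t.eventually n] with τ k
  rw [← b'] at k
  have e := div_mul_cancel₀ (inc f hf.hol) (inc_ne_zero hg.hol g0)
  exact ⟨⟨⟨f, hf.hol⟩, ⟨g, hg.hol⟩, k, e⟩, by
    rw [ev_eq (g := ⟨f, hf.hol⟩) (h := ⟨g, hg.hol⟩) k e, Pi.div_apply, ← b, ← b']⟩

theorem LR_or [Γ.FiniteIndex] (h : x ∈ MF Γ) : x ∈ LR ∨ x⁻¹ ∈ LR := by
  obtain ⟨N, φ, hN, a, b⟩ := cusp_mer h
  obtain ⟨_, _, -, -, b'⟩ := cusp_mer (inv_mem h)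
  have t := P022.H236.tendsto_q hN.ne'
  rcases le_or_gt 0 (meromorphicOrderAt φ 0) with k | k
  · obtain ⟨c, hc⟩ := tendsto_nhds_of_meromorphicOrderAt_nonneg a k
    exact .inl ⟨b.mono fun _ => And.left, c, (hc.comp t).congr' (b.mono fun _ e => e.2.symm)⟩
  · refine .inr ⟨b'.mono fun _ => And.left, 0, ((tendsto_inv₀_cobounded.comp
      (tendsto_cobounded_of_meromorphicOrderAt_neg k)).comp t).congr' (b.mono fun τ e => ?_)⟩
    simp only [Function.comp_apply, ev_inv, e.2]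

theorem act_core (g : SL(2, ℤ)) (h : x ∈ MF Γ) :
    act g x ∈ MF Γ.normalCore :=
  act_mem g (fun γ m => Γ.normalCore_le (by
    simpa using Γ.normalCore_normal.conj_mem γ m g⁻¹)) h

/-- **Liouville** -/
theorem liou [Γ.FiniteIndex] (h : x ∈ MF Γ) (h1 : ∀ τ, Reg τ x)
    (h2 : ∀ g : SL(2, ℤ), act g⁻¹ x ∈ LR) : ∃ c, x = algebraMap ℂ Mer c := by
  obtain ⟨f, e, hf⟩ := ex_hol h1
  have s : ∀ g : SL(2, ℤ), f.1 ∣[(0 : ℤ)] g = fun τ => ev τ (act g⁻¹ x) := fun g => by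
    funext τ
    rw [ModularForm.SL_slash_apply, ev_act, hf, neg_zero, zpow_zero, mul_one]
  let F : ModularForm (Γ.map (Matrix.SpecialLinearGroup.mapGL ℝ)) 0 :=
    { toFun := f.1
      slash_action_eq' := by
        rintro _ ⟨γ, m, rfl⟩
        exact (s γ).trans (funext fun τ => by rw [act_eq_self h (inv_mem m), hf])
      holo' := f.2
      bdd_at_cusps' := fun {c} hc => by
        rw [Subgroup.IsArithmetic.isCusp_iff_isCusp_SL2Z] at hc
        rw [OnePoint.isBoundedAt_iff_forall_SL2Z hc]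
        intro γ _
        obtain ⟨-, c, k⟩ := h2 γ
        rw [s]
        exact k.isBigO_one ℝ }
  obtain ⟨c, hc⟩ := ModularForm.eq_const_of_weight_zero F
  exact ⟨c, e.trans ((congrArg jm (Subtype.ext hc)).trans (jm_const c))⟩

theorem j_not (g : SL(2, ℤ)) : act g jM ∉ LR := fun h => by
  obtain ⟨c, e⟩ := liou jM_mem (fun τ => reg_jm τ _) fun γ => by
    rwa [act_eq_self jM_mem trivial] at h ⊢
  exact jM_ne_const c e

/-! ### places -/

/-- `j` -/
def jG (Γ : Subgroup SL(2, ℤ)) : MF Γ := ⟨jM, MF_mono le_top jM_mem⟩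

/-- the place of a cusp -/
def cp (Γ : Subgroup SL(2, ℤ)) [Γ.FiniteIndex] (g : SL(2, ℤ)) : Plk ℂ (MF Γ) :=
  ⟨ValuationSubring.ofSubring (LR.comap ((act g⁻¹ : Mer →+* Mer).comp (algebraMap _ Mer)))
    fun x => (LR_or (act_core g⁻¹ x.2)).imp id fun h => by
      rw [Subring.mem_comap, map_inv₀]
      exact h,
    fun c => show act g⁻¹ (algebraMap ℂ Mer c) ∈ LR from
      ((act g⁻¹).commutes c).symm ▸ const_LR c,
    fun e => j_not g⁻¹ ((SetLike.ext_iff.1 e (jG Γ)).2 (ValuationSubring.mem_top _))⟩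

theorem mem_cp [Γ.FiniteIndex] {g : SL(2, ℤ)} {x : MF Γ} :
    x ∈ (cp Γ g).1 ↔ act g⁻¹ x ∈ LR := Iff.rfl

theorem reg_j (τ : ℍ) : Reg τ jM := reg_jm τ _

theorem ev_j (τ : ℍ) : ev τ jM = jf τ := ev_jm τ _

theorem od_j (τ : ℍ) : 0 < od τ (jM - algebraMap ℂ Mer (jf τ)) :=
  (ev_eq_zero (sub_ne_zero.2 (jM_ne_const _)) ((pl τ).sub_mem (reg_j τ) (reg_const τ _))).1 (by
    rw [ev_sub (reg_j τ) (reg_const τ _), ev_const, ev_j, sub_self])

/-- the place of a point -/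
def pt (Γ : Subgroup SL(2, ℤ)) (τ : ℍ) : Plk ℂ (MF Γ) :=
  ⟨(pl τ).comap (algebraMap _ Mer), fun c => reg_const τ c, fun e => by
    have h : Reg τ (jM - algebraMap ℂ Mer (jf τ))⁻¹ :=
      show (jG Γ - algebraMap ℂ _ (jf τ))⁻¹ ∈ (pl τ).comap (algebraMap _ Mer) from
        e ▸ ValuationSubring.mem_top _
    have := od_j τ
    rw [reg_iff, od_inv, inv_eq_zero, or_iff_right (sub_ne_zero.2 (jM_ne_const _))] at h
    omega⟩

theorem mem_pt {x : MF Γ} : x ∈ (pt Γ τ).1 ↔ Reg τ x := Iff.rfl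

theorem tr_j (Γ : Subgroup SL(2, ℤ)) : Transcendental ℂ (jG Γ) :=
  (transcendental_algebraMap_iff (algebraMap (MF Γ) Mer).injective).1
    (transc (p := jM) (N := Polynomial.X) (D := 1) isCoprime_one_right (by simp))

theorem cff_of {k K F : Type*} [Field k] [Field K] [Field F] [Algebra k K] [Algebra k F]
    [CFF k F] (j : K →ₐ[k] F) {x : K} (hx : Transcendental k x) : CFF k K := by
  let _ : Algebra K F := j.toRingHom.toAlgebra
  have : IsScalarTower k K F := IsScalarTower.of_algebraMap_eq fun a => (j.commutes a).symm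
  exact P025H492.cff_down (L := F) hx

theorem cff (Γ : Subgroup SL(2, ℤ)) [Γ.FiniteIndex] : CFF ℂ (MF Γ) :=
  have : CFF ℂ (MF Γ.normalCore) := ⟨inferInstance, jG _, tr_j _,
    (galois (Γ := ⊤) (fun γ _ _ m => Γ.normalCore_normal.conj_mem _ m γ) (jG _) MF_top).1⟩
  cff_of (IntermediateField.inclusion (MF_mono Γ.normalCore_le)) (tr_j Γ)

/-- **every place is a point or a cusp** -/
theorem all_pl [Γ.FiniteIndex] (P : Plk ℂ (MF Γ)) :
    (∃ τ, pt Γ τ = P) ∨ ∃ g, cp Γ g = P := by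
  have := cff Γ
  obtain ⟨y, h1, h2⟩ := ex_pole P
  by_contra! n
  obtain ⟨c, e⟩ := liou y.2 (fun τ => h2 _ (n.1 τ)) fun g => h2 _ (n.2 g)
  exact h1 c (Subtype.ext e)

theorem j_mem [Γ.FiniteIndex] (P : Plk ℂ (MF Γ)) : jG Γ ∈ P.1 ↔ ∃ τ, pt Γ τ = P :=
  ⟨fun h => (all_pl P).resolve_right (by rintro ⟨g, rfl⟩; exact j_not g⁻¹ h),
    by rintro ⟨τ, rfl⟩; exact reg_j τ⟩

theorem cum_iff {N : ℕ} [NeZero N] {h : MF (Gamma0 N)} :
    CuM h ↔ ∀ g : SL(2, ℤ), act g⁻¹ h ∈ LR ∧ act g⁻¹ (h : Mer)⁻¹ ∈ LR :=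
  ⟨fun k g => k (cp _ g) (j_not g⁻¹), fun k P n => by
    obtain ⟨g, rfl⟩ := (all_pl P).resolve_left (mt (j_mem P).2 n)
    exact k g⟩

theorem act_inv (g : SL(2, ℤ)) (x : Mer) : act g x⁻¹ = (act g x)⁻¹ := map_inv₀ _ _

end Fn

open Fn

theorem cst : CST := fun N h hN _ k o =>
  have : NeZero N := ⟨hN.ne'⟩
  liou h.2 (fun τ => reg_iff.2 (.inr (o τ).ge)) fun g => (cum_iff.1 k g).1

end Vale.Agent.P004Z.Ar
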