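import Vale.Agent.P004Z.Fin.St
import Vale.Agent.P004Z.EF.St

/-! # P004Z, rows ARE and ARO: the internal statements -/

set_option autoImplicit false

open UpperHalfPlane CongruenceSubgroup Filter Topology
open scoped MatrixGroups NumberTheorySymbols Classical Real ComplexConjugate

noncomputable section

namespace Vale.Agent.P004Z.Ar

open Vale.Agent.P022.H218.L3 Vale.Agent.P004H.H666 Vale.Agent.P022.H236.L3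
open Vale.Agent.P022K.F0.Cf (od ev Reg)
open Vale.Agent.P019P (CFF Plk ord)
open Vale.Agent.P027H (IsLat wp dwp)
open P004N (S2 QE RN Pr ALw)
open Vale.Agent.P004Z.Fin (Ov Pk)

/-! ## sums over orbits -/

def Inv {X : Type} (M : ℕ) (F : ℍ → X) : Prop := ∀ γ ∈ Gamma0 M, ∀ z, F (γ • z) = F z

/-- the sum over the orbits of `Γ₀(M)` -/
def ws (M : ℕ) (A F : ℍ → ℂ) : ℂ :=
  ∑ᶠ q : MulAction.orbitRel.Quotient (Gamma0 M) ℍ, A q.out * F q.out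

/-- invariant, supported on finitely many orbits -/
structure Dv (M : ℕ) (A : ℍ → ℂ) : Prop where
  inv : Inv M A
  fin : ∃ s : Finset ℍ, ∀ z, A z ≠ 0 → ∃ γ ∈ Gamma0 M, γ • z ∈ s

/-- the cast of a divisor -/
abbrev cs (n : ℍ → ℤ) : ℍ → ℂ := fun z => n z

def WS : Prop := ∀ M : ℕ, 0 < M →
  (∀ A A', Dv M A → Dv M A' → Dv M (A + A') ∧ ∀ F, ws M (A + A') F = ws M A F + ws M A' F) ∧
  (∀ (k : ℂ) A, (Dv M A → Dv M (k • A)) ∧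
    ∀ F, ws M (k • A) F = k * ws M A F ∧ ws M A (k • F) = k * ws M A F) ∧
  (∀ A F F', Inv M A → Inv M F → Inv M F' → (∀ z, A z ≠ 0 → F z = F' z) → ws M A F = ws M A F') ∧
  (∀ n s F, Reps (Gamma0 M) n s → Inv M n → Inv M F → ws M (cs n) F = evd s n F) ∧
  (∀ n, Dv M (cs n) → ∃ s, Reps (Gamma0 M) n s) ∧ ∀ N A, N ∣ M → Dv N A → Dv M A

/-- `T_l` is self adjoint -/
def ADJ : Prop := ∀ M l : ℕ, 0 < M → l.Prime → ¬ l ∣ M → (∀ F, Inv M F → Inv M (Tdiv l F)) ∧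
  ∀ A, Dv M A → Dv M (Tdiv l A) ∧ (4 ∣ M → ∀ F, Inv M F → ws M (Tdiv l A) F = ws M A (Tdiv l F))

/-- the Fricke involution (hypotheses allowed: `DIVS BDV GAU WS`) -/
def WN : Prop := ∀ (N : ℕ) [NeZero N] (δ δ' : ℕ) (β : ℤ), Dat N δ δ' β → ∃ i : ℕ, 0 < i ∧
  ∀ s F, Reps (Gamma0 N) (Bd N δ δ' β) s → Inv N F →
    ws (4 * N) (cs (Bd N δ δ' β)) F = i * evd s (Bd N δ δ' β) F ∧
    ∀ η C : ℂ, (∀ z z' : ℍ, (z' : ℂ) = -1 / (N * z) → F z' = η * F z + C) →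
      ws (4 * N) (cs (Zd N δ (δ * δ') ((β * δ : ℤ) : ZMod (2 * N)))) F =
        i * (1 + η * (eps δ * J(N | δ) : ℤ)) * evd s (Bd N δ δ' β) F ∧
      ws (4 * N) (cs (Zd N (δ * δ') δ ((β * δ : ℤ) : ZMod (2 * N)))) F =
        i * (1 - η * (eps δ * J(N | δ) : ℤ)) * evd s (Bd N δ δ' β) F

/-! ## functions -/

/-- a function with divisor `n` and unitary multiplier (`φ = 0`: `n` is principal) -/
structure Un (M : ℕ) (n : ℍ → ℤ) (φ : ℍ → ℝ) (Ψ : ℍ → ℂ) : Prop where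
  mero : Mero n Ψ
  cus : Cus Ψ
  law : ∀ γ ∈ Gamma0 M, ∀ z, Ψ (γ • z) = ee ((φ (γ • z) - φ z : ℝ) : ℂ) * Ψ z

def REL : Prop := ∀ (M : ℕ) n φ Ψ, 0 < M → Continuous φ → Un M n φ Ψ →
  Un M (-n) (-φ) Ψ⁻¹ ∧ Dv M (cs n) ∧ (∀ z, n z = 0 ↔ Ψ z ≠ 0) ∧
  Green (Gamma0 M) (cs n) (fun z => (-Real.log (Complex.normSq (Ψ z)) : ℝ)) ∧
  ∀ n' φ' Ψ', Continuous φ' → Un M n' φ' Ψ' → ∃ Ψ'', Un M (n + n') (φ + φ') Ψ'' ∧
    ∀ z, n z = 0 → n' z = 0 → Ψ'' z = Ψ z * Ψ' z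

/-- `j` -/
def jK (M : ℕ) : MF (Gamma0 M) := ⟨jM, MF_mono le_top jM_mem⟩

/-- no zero and no pole at the cusps -/
def CuM {M : ℕ} (h : MF (Gamma0 M)) : Prop :=
  ∀ P : Plk ℂ (MF (Gamma0 M)), jK M ∉ P.1 → h ∈ P.1 ∧ h⁻¹ ∈ P.1

/-- points are places -/
def PLC : Prop := ∀ M : ℕ, 0 < M → 4 ∣ M → ∃ (_ : CFF ℂ (MF (Gamma0 M)))
  (pt : ℍ → Plk ℂ (MF (Gamma0 M))), (∀ τ f, ord (pt τ) f = od τ (f : Mer)) ∧
    (∀ τ τ', pt τ = pt τ' ↔ ∃ γ ∈ Gamma0 M, γ • τ = τ') ∧ ∀ P, jK M ∈ P.1 ↔ ∃ τ, pt τ = P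

/-- functions without zeros and poles (hypothesis allowed: `PLC`) -/
def CST : Prop := ∀ (N : ℕ) (h : MF (Gamma0 N)), 0 < N → h ≠ 0 → CuM h →
  (∀ τ, od τ (h : Mer) = 0) → ∃ c : ℂ, (h : Mer) = algebraMap ℂ Mer c

/-- analytic and algebraic functions (hypothesis allowed: `EF.QUOT`) -/
def FUN : Prop := ∀ N : ℕ, 0 < N →
  (∀ n Ψ, Un N n 0 Ψ → ∃ h : MF (Gamma0 N), h ≠ 0 ∧ CuM h ∧
    ∀ τ, od τ (h : Mer) = n τ ∧ ev τ (h : Mer) = Ψ τ) ∧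
  ∀ h : MF (Gamma0 N), h ≠ 0 → CuM h →
    Un N (fun τ => od τ (h : Mer)) 0 fun τ => ev τ (h : Mer)

/-! ## the parametrisation -/

/-- `t` is not the value at a cusp -/
def Ncv (Λ : Submodule ℤ ℂ) (I : ℍ → ℂ) (t : ℂ) : Prop := ∀ (γ : SL(2, ℤ)) (c : ℂ),
  Tendsto (fun z => I (γ • z)) atImInfty (𝓝 c) → c - t ∉ Λ

structure Pz (N : ℕ) (a : ℕ → ℤ) where
  A : ℤ
  B : ℤ
  w : ℕ
  Λ : Submodule ℤ ℂ
  I : ℍ → ℂ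
  x : Mer
  y : Mer
  ex : ℂ →+ (crv (A : ℂ) (B : ℂ)).Point
  par : EF.Par N a A B w Λ I x y
  hol : I ∈ Hol
  inv : ∀ γ ∈ Gamma0 N, ∀ τ, I (γ • τ) - I τ ∈ Λ
  nc : ∀ c, I ≠ fun _ => c
  lim : ∀ γ : SL(2, ℤ), ∃ c, Tendsto (fun z => I (γ • z)) atImInfty (𝓝 c)
  cv : ∃ C : Finset ℂ, ∀ t, (∀ c ∈ C, t - c ∉ Λ) → Ncv Λ I t
  surj : Function.Surjective ex
  ker : ∀ u, ex u = 0 ↔ u ∈ Λ
  xy : ∀ u, u ∉ Λ → ∃ h, ex u = .some (wp Λ u) (dwp Λ u / 2) h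

namespace Pz

variable {N : ℕ} {a : ℕ → ℤ} (D : Pz N a)

abbrev E : Type := (crv (D.A : ℂ) (D.B : ℂ)).Point

def pi (τ : ℍ) : D.E := D.ex (D.I τ)

/-- the ramification -/
def e (τ : ℍ) : ℕ := analyticOrderNatAt (fun z => D.I (ofComplex z) - D.I τ) τ

/-- the pull-back of the point `t` -/
def pb (t : ℂ) (τ : ℍ) : ℤ := if D.I τ - t ∈ D.Λ then D.e τ else 0

abbrev Nc (t : ℂ) : Prop := Ncv D.Λ D.I t

/-- additive maps which kill the lattice -/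
def Ki (l : ℂ →+ ℂ) : Prop := ∀ u ∈ D.Λ, l u = 0

end Pz

/-- existence (hypothesis allowed: `EF.PAR`) -/
def UNF : Prop := ∀ N G a, RN N G a → Nonempty (Pz N a)

/-- Hecke operators on primitives -/
def PRT : Prop :=
  (∀ (N l : ℕ) g c, l.Prime → S2 N g → QE g c → 0 < N → Continuous (Pr c) ∧
    Tdiv l (Pr c) = Pr (Tc l c) ∧ (¬ l ∣ N → ∃ g', S2 N g' ∧ QE g' (Tc l c))) ∧
  ∀ N G a (D : Pz N a), RN N G a → (∀ l : ℕ, l.Prime → ¬ l ∣ N → Tdiv l D.I = (a l : ℂ) • D.I) ∧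
    ∀ ε : ℝ, ALw N N G ε → ∃ C, ∀ z z' : ℍ, (z' : ℂ) = -1 / (N * z) → D.I z' = ε * D.I z + C

/-- the package of block G6 -/
def PK : Prop := ∀ N a (D : Pz N a), 0 < N →
  ∃ xm, Pk N (D.A : ℂ) (D.B : ℂ) D.pi D.e xm ∧ xm 0 = D.x ∧ ∀ τ, 0 < D.e τ

/-- **Abel, the easy half** (hypotheses allowed: `PLC FUN WS REL`; use `P297Y.Tor.wda`) -/
def AE : Prop := ∀ N a (D : Pz N a) n Ψ, 0 < N → Un N n 0 Ψ →
  ws (4 * N) (cs n) 1 = 0 ∧ ∀ l, D.Ki l → ws (4 * N) (cs n) (l ∘ D.I) = 0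

/-- a theta function -/
structure Th (Λ : Submodule ℤ ℂ) (θ : ℂ → ℂ) (b : ℝ) : Prop where
  an : Differentiable ℂ θ
  odd : ∀ u, θ (-u) = -θ u
  zero : ∀ u, θ u = 0 ↔ u ∈ Λ
  d0 : deriv θ 0 = 1
  ne : b ≠ 0
  law : ∀ l ∈ Λ, ∃ η : ℂ, ‖η‖ = 1 ∧
    ∀ u, θ (u + l) = η * Complex.exp (b * conj l * (u + l / 2)) * θ u

def THE : Prop := ∀ Λ, IsLat Λ → ∃ θ b, Th Λ θ b

/-- the archimedean absolute value -/
def V0 : AbsoluteValue ℂ ℝ := NormedField.toAbsoluteValue ℂ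

/-- the local height at infinity -/
def ARC : Prop := ∀ N a (D : Pz N a) θ b, Th D.Λ θ b →
  (∀ u v, u ∉ D.Λ → v ∉ D.Λ →
    wp D.Λ u - wp D.Λ v = -(θ (u + v) * θ (u - v)) / (θ u ^ 2 * θ v ^ 2)) ∧
  ∃ C, ∀ u, u ∉ D.Λ → H.lam V0 (D.ex u) = -Real.log ‖θ u‖ + b * ‖u‖ ^ 2 / 2 + C

/-- the unitary functions of the pull-backs (hypotheses allowed: `THE ARC REL`) -/
def PSI : Prop := ∀ N a (D : Pz N a), 0 < N → ∃ b : ℝ, b ≠ 0 ∧ ∀ t s, D.Nc t → D.Nc (t + s) →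
  ∃ Ψ C, Un N (D.pb (t + s) - D.pb t) (fun z => b * (conj s * D.I z).im) Ψ ∧
    ∀ z, D.I z - t ∉ D.Λ → D.I z - (t + s) ∉ D.Λ → -Real.log ‖Ψ z‖ =
      H.lam V0 (D.pi z - D.ex (t + s)) - H.lam V0 (D.pi z - D.ex t) + C

/-- the degree (hypotheses allowed: `PSI REL AE WS`) -/
def DEG : Prop := ∀ N a (D : Pz N a), 0 < N → ∃ m : ℕ, 0 < m ∧
  ∀ t, D.Nc t → Dv N (cs (D.pb t)) ∧ ws (4 * N) (cs (D.pb t)) 1 = m

/-- **Abel, the hard half** (hypotheses allowed: `UNI REL PSI PRT ADJ`) -/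
def ABL : Prop := ∀ N G a (D : Pz N a) (S : ℕ) (P : FreeAlgebra ℤ (PA S)), RN N G a → N ∣ S →
  (∀ g c, S2 N g → QE g c →
    ∃ κ : ℂ, FreeAlgebra.lift ℤ (fun l : PA S => TcL l.1) P c = fun n => κ * a n) →
  ∀ n n' Φ, Green (Gamma0 N) (cs n) Φ →
    cs n' = FreeAlgebra.lift ℤ (fun l : PA S => Tdiv l.1) P (cs n) →
    ∃ (k : ℕ) (s : ℂ), 0 < k ∧ ∀ t, D.Nc t → D.Nc (t + s) →
      ∃ Ψ, Un N ((k : ℤ) • n' - (D.pb (t + s) - D.pb t)) 0 Ψ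

/-- generating series (hypotheses allowed: `HDIV DIVS WS ADJ AE PRT`) -/
def GENX : Prop := ∀ (N : ℕ) [NeZero N] (δ : ℕ) G a (D : Pz N a), RN N G a → Ok N δ →
  (∀ c : PP N, Dv N (Zc δ c)) ∧ ∀ l, D.Ki l →
    Gen δ a (fun n r => ws (4 * N) (cs (Zd N δ n r)) (l ∘ D.I)) ∧
    (∀ c : PP N, pr (fun n r => ws (4 * N) (cs (Zd N δ n r)) (l ∘ D.I)) c =
      ws (4 * N) (Zc δ c) (l ∘ D.I)) ∧
    ∀ (P : FreeAlgebra ℤ (PA (2 * N * δ))) (c : PP N),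
      Zc δ (FreeAlgebra.lift ℤ (fun l : PA (2 * N * δ) => Tt δ l.1) P c) =
        FreeAlgebra.lift ℤ (fun l : PA (2 * N * δ) => Tdiv l.1) P (Zc δ c) ∧
      ws (4 * N) (Zc δ (FreeAlgebra.lift ℤ (fun l : PA (2 * N * δ) => Tt δ l.1) P c)) (l ∘ D.I) =
        (FreeAlgebra.lift ℤ (fun l : PA (2 * N * δ) => a l.1) P : ℤ) * ws (4 * N) (Zc δ c) (l ∘ D.I)

/-- torsion is detected by additive maps (hypotheses allowed: `WN`) -/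
def TORS : Prop := ∀ (N : ℕ) [NeZero N] a (D : Pz N a) (L : PeriodPair) (δ δ' : ℕ) (β : ℤ) s,
  P004N.Lat N a L → Dat N δ δ' β → Reps (Gamma0 N) (Bd N δ δ' β) s →
  (∃ k : ℕ, 0 < k ∧ k • ∑ b ∈ s, Bd N δ δ' β b • D.pi b = 0) → Tors N δ δ' β a L

/-! ## arithmetic -/

/-- the action of the automorphisms of `ℂ` on functions and points -/
structure Act (N δ : ℕ) (σ : ℂ ≃+* ℂ) (c : MF (Gamma0 N) ≃+* MF (Gamma0 N)) (s : ℍ → ℍ) (χ : ℤ) :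
    Prop where
  sgn : χ = 1 ∨ χ = -1
  one : σ (ee (1 / δ)) = ee (1 / δ) → χ = 1
  cst : ∀ z : ℂ, c (algebraMap ℂ _ z) = algebraMap ℂ _ (σ z)
  rat : ∀ (f : MF (Gamma0 N)) t, ExM 1 t (f : Mer) → EF.RatS t → c f = f
  surj : ∀ τ', ∃ τ, ∃ γ ∈ Gamma0 N, γ • s τ = τ'
  inj : ∀ τ τ', (∃ γ ∈ Gamma0 N, γ • s τ = s τ') ↔ ∃ γ ∈ Gamma0 N, γ • τ = τ'
  od_eq : ∀ τ f, od (s τ) (c f : Mer) = od τ (f : Mer)
  ev_eq : ∀ τ f, ev (s τ) (c f : Mer) = σ (ev τ (f : Mer))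
  zd : ∀ n r τ, Zd N δ n r (s τ) = χ * Zd N δ n r τ
  zp : ∀ (n : ℕ) r τ (θ : ℂ), θ ^ 2 = -(δ * n : ℂ) → σ θ = θ →
    Zp N δ n r (s τ) = χ * Zp N δ n r τ

def ACT : Prop := ∀ (N : ℕ) [NeZero N] (δ : ℕ), Ok N δ → ∀ σ, ∃ c s χ, Act N δ σ c s χ

/-- local heights of algebraic points are rational -/
def RATL : Prop := ∀ V p, Ov V p →
  (∀ z : ℂ, IsAlgebraic ℚ z → ∃ q : ℚ, Real.log (V z) = q * Real.log (V p)) ∧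
  ∀ (A B : ℤ) (P : (crv (A : ℂ) (B : ℂ)).Point), 4 * A ^ 3 + 27 * B ^ 2 ≠ 0 →
    IsAlgebraic ℚ (xp P) → ∃ q : ℚ, H.lam V P = q * Real.log (V p)

/-- the even case -/
def AREG : Prop := DIVS → BDV → GAU → UNF → PRT → WN → GENX → TORS → ARE

end Vale.Agent.P004Z.Ar
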